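import Mathlib

/-! Definitions used in the statement of the P362 hand-in. -/

namespace Vale.Agent.P362

/-- Deterministic decision trees that query bits indexed by `ι`. -/
inductive DTree (ι : Type) : Type
  | leaf (b : Bool)
  | node (i : ι) (l r : DTree ι)

/-- The output of a decision tree on the input `x`. -/
def DTree.eval {ι : Type} : DTree ι → (ι → Bool) → Bool
  | .leaf b, _ => b
  | .node i l r, x => if x i = true then r.eval x else l.eval x

/-- The worst-case number of queries of a decision tree. -/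
def DTree.depth {ι : Type} : DTree ι → ℕ
  | .leaf _ => 0
  | .node _ l r => max l.depth r.depth + 1

/-- Some probability distribution on decision trees of depth at most `T` outputs `f x` with
probability at least `2/3` on every input `x`. -/
def RandComputes {ι : Type} (f : (ι → Bool) → Bool) (T : ℕ) : Prop :=
  ∃ (m : ℕ) (p : Fin m → ℝ) (t : Fin m → DTree ι),
    (∀ j, 0 ≤ p j) ∧ ∑ j, p j = 1 ∧ (∀ j, (t j).depth ≤ T) ∧
      ∀ x, (2 : ℝ) / 3 ≤ ∑ j, if (t j).eval x = f x then p j else 0

/-- Bounded-error randomized query complexity `R(f)`. -/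
noncomputable def randQC {n : ℕ} (f : (Fin n → Bool) → Bool) : ℕ := sInf {T | RandComputes f T}

/-- The basis states `|i, b, z⟩` with a workspace of dimension `m`. -/
abbrev QBasis (n m : ℕ) : Type := Fin n × Bool × Fin m

/-- The query `O_x |i, b, z⟩ = |i, b ⊕ x_i, z⟩`. -/
def oracle {n : ℕ} (m : ℕ) (x : Fin n → Bool) : Matrix (QBasis n m) (QBasis n m) ℂ :=
  fun s' s => if s' = (s.1, xor s.2.1 (x s.1), s.2.2) then 1 else 0

/-- The state `U_t O_x ⋯ U_1 O_x U_0 |s₀⟩` after `t` queries. -/
noncomputable def qState {n m : ℕ} (U : ℕ → Matrix.unitaryGroup (QBasis n m) ℂ) (s₀ : QBasis n m)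
    (x : Fin n → Bool) : ℕ → QBasis n m → ℂ
  | 0 => (U 0).1.mulVec (Pi.single s₀ 1)
  | t + 1 => (U (t + 1)).1.mulVec ((oracle m x).mulVec (qState U s₀ x t))

/-- Some quantum algorithm with `T` queries, measured in the computational basis, outputs `f x`
with probability at least `2/3` on every input `x`. -/
def QuantComputes {n : ℕ} (f : (Fin n → Bool) → Bool) (T : ℕ) : Prop :=
  ∃ (m : ℕ) (U : ℕ → Matrix.unitaryGroup (QBasis n m) ℂ) (s₀ : QBasis n m)
    (out : QBasis n m → Bool),
    ∀ x, (2 : ℝ) / 3 ≤ ∑ s, if out s = f x then ‖qState U s₀ x T s‖ ^ 2 else 0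

/-- Bounded-error quantum query complexity `Q(f)`. -/
noncomputable def quantQC {n : ℕ} (f : (Fin n → Bool) → Bool) : ℕ := sInf {T | QuantComputes f T}

/-- The optimal exponent `α` in `R(f) ≤ C (1 + Q(f)) ^ α` for total Boolean functions. -/
noncomputable def alphaTot : ℝ :=
  sInf {α : ℝ | 0 ≤ α ∧ ∃ C : ℝ, ∀ n : ℕ, 1 ≤ n → ∀ f : (Fin n → Bool) → Bool,
    (randQC f : ℝ) ≤ C * (1 + (quantQC f : ℝ)) ^ α}

end Vale.Agent.P362
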