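import Vale.Agent.P362.FDefs

/-! The advantage in telling the planted distribution from the null distribution. -/

namespace Vale.Agent.P362

open Finset

namespace FAdv

section avg

variable {A B : Type} [Fintype A] [Fintype B]

theorem avg_sub (f g : A → ℝ) : avg (fun a => f a - g a) = avg f - avg g := by
  simp only [avg, sum_sub_distrib, sub_div]

theorem avg_mul (c : ℝ) (f : A → ℝ) : avg (fun a => c * f a) = c * avg f := by
  simp only [avg, ← mul_sum, mul_div_assoc]

theorem avg_sum (f : B → A → ℝ) : avg (fun a => ∑ b, f b a) = ∑ b, avg (f b) := by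
  simp only [avg, ← sum_div]; rw [sum_comm]

theorem avg_mono {f g : A → ℝ} (h : ∀ a, f a ≤ g a) : avg f ≤ avg g :=
  div_le_div_of_nonneg_right (sum_le_sum fun a _ => h a) (Nat.cast_nonneg _)

theorem avg_const [Nonempty A] (c : ℝ) : avg (fun _ : A => c) = c := by
  have : (Fintype.card A : ℝ) ≠ 0 := Nat.cast_ne_zero.2 Fintype.card_ne_zero
  simp only [avg, sum_const, card_univ, nsmul_eq_mul]; field_simp

theorem abs_avg_le (f : A → ℝ) : |avg f| ≤ avg fun a => |f a| := by
  rw [avg, abs_div, Nat.abs_cast]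
  exact div_le_div_of_nonneg_right (abs_sum_le_sum_abs _ _) (Nat.cast_nonneg _)

theorem avg_prod (f : A × B → ℝ) : avg f = avg fun a => avg fun b => f (a, b) := by
  simp only [avg, Fintype.sum_prod_type, Fintype.card_prod, ← sum_div, Nat.cast_mul, div_div,
    mul_comm]

theorem resample [DecidableEq A] (x : A) (F : (A → B) → ℝ) :
    ∑ w : A → B, ∑ m, F (Function.update w x m) = Fintype.card B * ∑ w, F w := by
  have inv : Function.Involutive fun p : (A → B) × B => (Function.update p.1 x p.2, p.1 x) :=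
    fun p => by simp
  have := Equiv.sum_comp inv.toPerm fun p : (A → B) × B => F p.1
  simp only [Function.Involutive.coe_toPerm, Fintype.sum_prod_type, sum_const, card_univ,
    nsmul_eq_mul, ← mul_sum] at this
  exact this

end avg

instance omNonempty (A : Type) [Nonempty A] : ∀ j, Nonempty (Om A j)
  | 0 => inferInstanceAs (Nonempty Unit)
  | j + 1 => @instNonemptyProd A (Om A j) _ (omNonempty A j)

theorem abs_grid {M : ℕ} (m : Fin (M + 1)) : |grid m| ≤ 1 := by
  have h : (m : ℝ) ≤ M := Nat.cast_le.2 (Nat.lt_succ_iff.1 m.2)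
  have h0 : (0 : ℝ) ≤ m := Nat.cast_nonneg _
  rw [grid, abs_div, Nat.abs_cast]
  exact div_le_one_of_le₀ (abs_le.2 ⟨by linarith, by linarith⟩) (Nat.cast_nonneg _)

theorem sum_grid (M : ℕ) : ∑ m : Fin (M + 1), grid m = 0 := by
  have h := Equiv.sum_comp Fin.revPerm fun m : Fin (M + 1) => grid m
  have e : ∀ m : Fin (M + 1), grid (Fin.revPerm m) = -grid m := fun m => by
    simp only [grid, Fin.revPerm_apply, Fin.val_rev, Nat.add_sub_add_right,
      Nat.cast_sub (Nat.lt_succ_iff.1 m.2)]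
    ring
  simp only [e, sum_neg_distrib] at h
  linarith

theorem abs_clip (s : ℝ) : |clip s| ≤ 1 / 2 := by
  rw [clip, abs_le]
  constructor
  · linarith [le_max_left (-1 : ℝ) (min 1 (s / 6))]
  · linarith [max_le (by norm_num : (-1 : ℝ) ≤ 1) (min_le_left 1 (s / 6))]

theorem clip_lip (s t : ℝ) : |clip s - clip t| ≤ |s - t| / 12 := by
  have h1 := le_abs_self (s - t)
  have h2 := neg_abs_le (s - t)
  simp only [clip, max_def, min_def]
  rw [abs_le]
  constructor <;> split_ifs <;> linarith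

theorem tv_le : ∀ {M : ℕ} (Ψ : Fin (M + 1) → ℝ) (m : Fin (M + 1)),
    |Ψ m - Ψ 0| ≤ ∑ k : Fin M, |Ψ k.succ - Ψ k.castSucc|
  | 0, Ψ, m => by simp [Fin.eq_zero m]
  | M + 1, Ψ, m => by
    refine Fin.cases ?_ (fun m => ?_) m
    · simpa using sum_nonneg fun _ _ => abs_nonneg _
    · have h1 := tv_le (fun k => Ψ k.succ) m
      have h2 := abs_sub_le (Ψ m.succ) (Ψ (Fin.succ 0)) (Ψ 0)
      rw [Fin.sum_univ_succ]
      simp only [Fin.succ_castSucc, Fin.castSucc_zero] at h1 ⊢
      linarith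

theorem abel {M : ℕ} (Ψ : Fin (M + 1) → ℝ) :
    |avg fun m => grid m * Ψ m| ≤ ∑ k : Fin M, |Ψ k.succ - Ψ k.castSucc| := by
  have e : (avg fun m => grid m * Ψ m) = avg fun m => grid m * (Ψ m - Ψ 0) := by
    simp only [avg, mul_sub, sum_sub_distrib, ← sum_mul, sum_grid, zero_mul, sub_zero]
  rw [e]
  refine (abs_avg_le _).trans ((avg_mono fun m => ?_).trans (avg_const _).le)
  rw [abs_mul]
  exact (mul_le_of_le_one_left (abs_nonneg _) (abs_grid m)).trans (tv_le Ψ m)

variable {K M r : ℕ}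

theorem abs_lf : ∀ (j : ℕ) (ω : Om (BV r → Fin (M + 1)) j) (x : BV r), |lf j ω x| ≤ 1
  | 0, _, _ => by simp [lf]
  | _ + 1, _, _ => abs_grid _

theorem abs_stepF (j : ℕ) (w : BV r → Fin (M + 1)) {W : Fin (K + 1) × BV r → ℝ}
    (hW : ∀ p, |W p| ≤ 1 / 2) (p : Fin (K + 1) × BV r) : |stepF j w W p| ≤ 1 / 2 := by
  unfold stepF
  split_ifs
  · exact abs_clip _
  · rw [abs_mul]; exact (mul_le_of_le_one_left (abs_nonneg _) (abs_grid _)).trans (hW p)
  · exact hW p

theorem abs_fld : ∀ (j : ℕ) (ω : Om (BV r → Fin (M + 1)) j) {W : Fin (K + 1) × BV r → ℝ}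
    (_ : ∀ p, |W p| ≤ 1 / 2) (p : Fin (K + 1) × BV r), |fld j ω W p| ≤ 1 / 2
  | 0, _, _, hW => hW
  | j + 1, ω, _, hW => abs_fld j ω.2 (abs_stepF j ω.1 hW)

theorem fld_sub : ∀ (j : ℕ) (ω : Om (BV r → Fin (M + 1)) j) (W W' : Fin (K + 1) × BV r → ℝ)
    (p : Fin (K + 1) × BV r), fld j ω W' p - fld j ω W p = if (p.1 : ℕ) < j then 0
      else if (p.1 : ℕ) = j then lf j ω p.2 * (W' p - W p) else W' p - W p
  | 0, _, _, _, _ => by simp [fld, lf]
  | j + 1, ω, W, W', p => by
    simp only [fld, fld_sub j, stepF, lf]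
    split_ifs <;> first | omega | ring

theorem pert (J : Fin (K + 1)) {S : Finset (Fin (K + 1) × BV r)} (hS : ∀ p ∈ S, p.1 ≠ J)
    {f : (Fin (K + 1) × BV r → Bool) → ℝ} (hf : ∀ z, |f z| ≤ 1) {V V' : Fin (K + 1) × BV r → ℝ}
    (hV : ∀ p, |V p| ≤ 1 / 2) (hV' : ∀ p, |V' p| ≤ 1 / 2)
    (hoff : ∀ p, p.1 ≠ J → p ∉ S → V' p = V p) {δ : ℝ} (hon : ∀ x, |V' (J, x) - V (J, x)| ≤ δ) :
    |avg (fun ω : Om (BV r → Fin (M + 1)) J => dExt S f (fld J ω V')) -
      avg fun ω : Om (BV r → Fin (M + 1)) J => dExt S f (fld J ω V)| ≤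
      δ * ∑ x, |avg fun ω : Om (BV r → Fin (M + 1)) J =>
        lf J ω x * dExt (insert (J, x) S) f (fld J ω V)| + (2 ^ r * δ) ^ 2 := by
  set U : Fin (K + 1) × BV r → ℝ := fun p => if p.1 = J then V' p else V p with hU
  have hU1 : ∀ p, |U p| ≤ 1 / 2 := fun p => by simp only [hU]; split_ifs; exacts [hV' p, hV p]
  have e1 : ∀ ω : Om (BV r → Fin (M + 1)) J, dExt S f (fld J ω V') = dExt S f (fld J ω U) :=
    fun ω => dExt_congr S f fun p hp => by
      have : V' p = U p := by simp only [hU]; split_ifs with h; exacts [rfl, hoff p h hp]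
      rw [← sub_eq_zero, fld_sub, this]; simp
  have e2 : ∀ (ω : Om (BV r → Fin (M + 1)) J) p, fld J ω U p - fld J ω V p =
      if p.1 = J then lf J ω p.2 * (V' p - V p) else 0 := fun ω p => by
    rw [fld_sub]
    by_cases h : p.1 = J <;> simp [hU, h, Fin.val_inj]
  have e3 : ∀ ω : Om (BV r → Fin (M + 1)) J, |dExt S f (fld J ω U) - dExt S f (fld J ω V) -
      ∑ x, (V' (J, x) - V (J, x)) * (lf J ω x * dExt (insert (J, x) S) f (fld J ω V))| ≤
      (2 ^ r * δ) ^ 2 := fun ω => by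
    have h := dExt_taylor S hf (fun p => (abs_fld J ω hV p).trans (by norm_num))
      (fun p => (abs_fld J ω hU1 p).trans (by norm_num))
      fun p hp => by rw [← sub_eq_zero, e2, if_neg (hS p hp)]
    simp only [e2, Fintype.sum_prod_type, ite_mul, zero_mul, apply_ite abs, abs_zero,
      sum_ite_irrel, sum_const_zero, sum_ite_eq', mem_univ, if_true] at h
    simp only [← mul_assoc, mul_comm _ (lf J ω _)]
    refine h.trans (pow_le_pow_left₀ (sum_nonneg fun _ _ => abs_nonneg _) ?_ _)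
    refine (sum_le_card_nsmul _ _ δ fun x _ => ?_).trans (by simp)
    rw [abs_mul]
    exact (mul_le_of_le_one_left (abs_nonneg _) (abs_lf _ _ _)).trans (hon x)
  have e4 := (abs_avg_le _).trans ((avg_mono e3).trans (avg_const _).le)
  simp only [avg_sub, avg_sum, avg_mul] at e4
  simp only [e1]
  refine (abs_sub_abs_le_abs_sub _ _ |> sub_le_iff_le_add'.1).trans (add_le_add ?_ e4)
  rw [mul_sum]
  refine (abs_sum_le_sum_abs _ _).trans (sum_le_sum fun x _ => ?_)
  rw [abs_mul]
  exact mul_le_mul_of_nonneg_right (hon x) (abs_nonneg _)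

/-- The upper part of a graph. -/
def G (j : ℕ) (ξ : Fin (K + 1) → BV r) : Finset (Fin (K + 1) × BV r) :=
  univ.filter fun p => j ≤ (p.1 : ℕ) ∧ p.2 = ξ p.1

theorem G_zero (ξ : Fin (K + 1) → BV r) : G 0 ξ = graph ξ := by
  ext ⟨l, x⟩; simp [G, graph, eq_comm]

theorem G_update (J : Fin (K + 1)) (ξ : Fin (K + 1) → BV r) (x : BV r) :
    G J (Function.update ξ J x) = insert (J, x) (G (J + 1) ξ) := by
  ext ⟨l, y⟩
  by_cases h : l = J
  · simp [G, h]
  · have : (l : ℕ) ≠ J := fun e => h (Fin.ext e)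
    simp only [G, mem_filter, mem_univ, true_and, Function.update_of_ne h, mem_insert, Prod.mk.injEq,
      h, false_and, false_or]
    exact and_congr_left fun _ => by omega

theorem G_top (ξ : Fin (K + 1) → BV r) : G (K + 1) ξ = ∅ := by
  ext ⟨l, y⟩; simp only [G, mem_filter, notMem_empty, iff_false]; omega

theorem wal_update (w : BV r → Fin (M + 1)) (x y : BV r) (k : Fin M) :
    |wal (Function.update w x k.succ) y - wal (Function.update w x k.castSucc) y| =
      2 / M / √(2 ^ r) := by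
  rw [wal, wal, ← sub_div, ← sum_sub_distrib, sum_eq_single x
    (fun z _ hz => by simp [Function.update_of_ne hz]) (by simp), ← mul_sub, abs_div, abs_mul,
    abs_chi, one_mul, abs_of_nonneg (Real.sqrt_nonneg _)]
  simp only [Function.update_self, grid, Fin.val_succ, Fin.val_castSucc, ← sub_div]
  push_cast
  rw [show (2 : ℝ) * (k + 1) - M - (2 * k - M) = 2 by ring, abs_of_nonneg (by positivity)]

theorem main (K r : ℕ) : ∀ j (hj : j < K + 1), ∃ C : ℝ, ∀ M : ℕ, 1 ≤ M →
    ∀ f : (Fin (K + 1) × BV r → Bool) → ℝ, (∀ z, |f z| ≤ 1) → ∀ Γ : ℝ,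
      (∀ W : Fin (K + 1) × BV r → ℝ, (∀ p, |W p| ≤ 1 / 2) →
        ∑ ξ : Fin (K + 1) → BV r, |dExt (graph ξ) f W| ≤ Γ) →
      ∀ W : Fin (K + 1) × BV r → ℝ, (∀ p, |W p| ≤ 1 / 2) →
        ∑ ξ : Fin (K + 1) → BV r, |avg fun ω : Om (BV r → Fin (M + 1)) j =>
          lf j ω (ξ ⟨j, hj⟩) * dExt (G j ξ) f (fld j ω W)| ≤ √(2 ^ r) ^ j * Γ + C / M := by
  intro j
  induction j with
  | zero =>
    refine fun _ => ⟨0, fun M _ f _ Γ hΓ W hW => ?_⟩
    simpa only [lf, fld, one_mul, avg_const, G_zero, pow_zero, zero_div, add_zero] using hΓ W hW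
  | succ j ih =>
    intro hj
    obtain ⟨C, hC⟩ := ih (by omega)
    refine ⟨√(2 ^ r) * C + (2 ^ r) ^ (K + 2), fun M hM f hf Γ hΓ W hW => ?_⟩
    set J : Fin (K + 1) := ⟨j, by omega⟩ with hJ
    have hM' : (1 : ℝ) ≤ M := Nat.one_le_cast.2 hM
    have hs : 0 < √((2 : ℝ) ^ r) := Real.sqrt_pos.2 (by positivity)
    have hs2 : √((2 : ℝ) ^ r) ^ 2 = 2 ^ r := Real.sq_sqrt (by positivity)
    set H : (Fin (K + 1) → BV r) → (BV r → Fin (M + 1)) → ℝ := fun ξ w =>
      ∑ x, |avg fun ω : Om (BV r → Fin (M + 1)) j =>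
        lf j ω x * dExt (insert (J, x) (G (j + 1) ξ)) f (fld j ω (stepF j w W))| with hH
    have H0 : ∀ ξ w, 0 ≤ H ξ w := fun _ _ => sum_nonneg fun _ _ => abs_nonneg _
    have a1 : ∀ w, ∑ ξ, H ξ w ≤ 2 ^ r * (√(2 ^ r) ^ j * Γ + C / M) := fun w => by
      have := resample J fun ξ : Fin (K + 1) → BV r => |avg fun ω : Om (BV r → Fin (M + 1)) j =>
        lf j ω (ξ J) * dExt (G J ξ) f (fld j ω (stepF j w W))|
      simp only [G_update, Function.update_self, card_BV] at this
      push_cast at this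
      exact this.le.trans (mul_le_mul_of_nonneg_left
        (hC M hM f hf Γ hΓ _ (abs_stepF j w hW)) (by positivity))
    set δ : ℝ := 2 / M / √(2 ^ r) / 12 with hδ
    have δ0 : 0 ≤ δ := by positivity
    have a2 : ∀ ξ : Fin (K + 1) → BV r, |avg fun ω : Om (BV r → Fin (M + 1)) (j + 1) =>
        lf (j + 1) ω (ξ ⟨j + 1, hj⟩) * dExt (G (j + 1) ξ) f (fld (j + 1) ω W)| ≤
        δ * ((M + 1) * avg (H ξ)) + M * (2 ^ r * δ) ^ 2 := fun ξ => by
      set x := ξ ⟨j + 1, hj⟩ with hx
      set Ψ : (BV r → Fin (M + 1)) → ℝ := fun w => avg fun ω : Om (BV r → Fin (M + 1)) j =>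
        dExt (G (j + 1) ξ) f (fld j ω (stepF j w W)) with hΨ
      have hc : ((Fintype.card (Fin (M + 1)) : ℕ) : ℝ) = M + 1 := by simp
      have rs : ∀ F : (BV r → Fin (M + 1)) → ℝ,
          avg (fun w => ∑ m, F (Function.update w x m)) = (M + 1) * avg F := fun F => by
        rw [avg, resample, hc, avg, mul_div_assoc]
      have b1 : (avg fun ω : Om (BV r → Fin (M + 1)) (j + 1) =>
          lf (j + 1) ω x * dExt (G (j + 1) ξ) f (fld (j + 1) ω W)) =
          avg fun w => avg fun m => grid m * Ψ (Function.update w x m) := by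
        have c1 := avg_prod fun ω : (BV r → Fin (M + 1)) × Om (BV r → Fin (M + 1)) j =>
          grid (ω.1 x) * dExt (G (j + 1) ξ) f (fld j ω.2 (stepF j ω.1 W))
        have c2 := rs fun w => grid (w x) * Ψ w
        simp only [avg_mul, Function.update_self] at c1 c2
        refine c1.trans ?_
        simp only [fun g : Fin (M + 1) → ℝ => show avg g = (M + 1 : ℝ)⁻¹ * ∑ m, g m by
          rw [avg, hc, div_eq_inv_mul], avg_mul, c2]
        rw [inv_mul_cancel_left₀ (by positivity)]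
      have b2 : ∀ w (k : Fin M), |Ψ (Function.update w x k.succ) -
          Ψ (Function.update w x k.castSucc)| ≤
          δ * H ξ (Function.update w x k.castSucc) + (2 ^ r * δ) ^ 2 := fun w k =>
        pert J (fun p hp e => by
            have := (mem_filter.1 hp).2.1
            rw [e] at this; simp [hJ] at this) hf
          (abs_stepF j _ hW) (abs_stepF j _ hW) (fun p h1 h2 => by
            have h3 : (p.1 : ℕ) ≠ j := fun e => h1 (Fin.ext e)
            simp only [stepF, h3, if_false]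
            split_ifs with h4
            · have : p.2 ≠ x := fun e => h2 (mem_filter.2 ⟨mem_univ _, h4.ge, by
                rw [e, hx]; exact congrArg ξ (Fin.ext h4.symm)⟩)
              simp [Function.update_of_ne this]
            · rfl) fun y => by
          simp only [stepF, hJ, if_true]
          exact (clip_lip _ _).trans (by rw [wal_update])
      rw [b1, ← rs, ← avg_mul, ← avg_const (A := BV r → Fin (M + 1)) (M * (2 ^ r * δ) ^ 2),
        ← sub_le_iff_le_add]
      refine (sub_le_sub_right (abs_avg_le _) _).trans ?_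
      rw [← avg_sub]
      refine avg_mono fun w => ?_
      have c1 := (abel fun m => Ψ (Function.update w x m)).trans (sum_le_sum fun k _ => b2 w k)
      rw [Fin.sum_univ_castSucc]
      simp only [sum_add_distrib, ← mul_sum, sum_const, card_univ, Fintype.card_fin,
        nsmul_eq_mul] at c1
      linarith [mul_nonneg δ0 (H0 ξ (Function.update w x (Fin.last M)))]
    refine (sum_le_sum fun ξ _ => a2 ξ).trans ?_
    have a3 := (avg_mono a1).trans (avg_const _).le
    have a4 : 0 ≤ √(2 ^ r) ^ j * Γ + C / M :=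
      (sum_nonneg fun _ _ => abs_nonneg _).trans (hC M hM f hf Γ hΓ W hW)
    rw [avg_sum] at a3
    rw [sum_add_distrib, ← mul_sum, ← mul_sum, sum_const]
    simp only [card_univ, Fintype.card_pi, Fintype.card_bool, prod_const, Fintype.card_fin,
      nsmul_eq_mul]
    push_cast
    have c1 : δ * ((M + 1) * 2 ^ r) ≤ √(2 ^ r) := by
      rw [hδ, ← hs2, Real.sqrt_sq hs.le]
      field_simp
      linarith
    have c2 : (M : ℝ) * (2 ^ r * δ) ^ 2 ≤ 2 ^ r / M := by
      rw [hδ, ← hs2, Real.sqrt_sq hs.le]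
      field_simp
      norm_num
    calc _ ≤ δ * ((M + 1) * (2 ^ r * (√(2 ^ r) ^ j * Γ + C / M))) +
          (2 ^ r) ^ (K + 1) * (2 ^ r / M) := by gcongr
      _ = δ * ((M + 1) * 2 ^ r) * (√(2 ^ r) ^ j * Γ + C / M) + (2 ^ r) ^ (K + 2) / M := by ring
      _ ≤ √(2 ^ r) * (√(2 ^ r) ^ j * Γ + C / M) + (2 ^ r) ^ (K + 2) / M := by gcongr
      _ = _ := by ring

theorem sum_nu (top : BV r → ℝ) (f : (Fin (K + 1) × BV r → Bool) → ℝ) : ∑ z, f z * nu K M top z =
    avg fun ω : Om (BV r → Fin (M + 1)) K => dExt ∅ f (fld K ω (topF top)) := by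
  simp only [nu, dExt, notMem_empty, if_false, avg_sum, avg_mul]

end FAdv

open FAdv

theorem nu_nonneg (K M : ℕ) {r : ℕ} {top : BV r → ℝ} (htop : ∀ x, |top x| ≤ 1 / 2)
    (z : Fin (K + 1) × BV r → Bool) : 0 ≤ nu K M top z := by
  refine div_nonneg (sum_nonneg fun ω _ => prod_nonneg fun p _ => ?_) (Nat.cast_nonneg _)
  have h1 := abs_fld K ω (W := topF top) (fun p => by unfold topF; split_ifs; exacts [htop _, by simp]) p
  have h2 := neg_abs_le (sgR (z p) * fld K ω (topF top) p)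
  rw [abs_mul, abs_sgR] at h2
  linarith

theorem nu_sum (K M : ℕ) {r : ℕ} (top : BV r → ℝ) : ∑ z, nu K M top z = 1 := by
  simp only [nu, ← avg_sum]
  refine (congrArg avg (funext fun ω => ?_)).trans (avg_const 1)
  have := prod_univ_sum (fun _ : Fin (K + 1) × BV r => (univ : Finset Bool))
    fun p b => (1 + sgR b * fld K ω (topF top) p) / 2
  rw [Fintype.piFinset_univ] at this
  rw [← this]
  exact prod_eq_one fun p _ => by simp [sgR]; ring

theorem nu_adv (K r : ℕ) : ∃ C : ℝ, ∀ M : ℕ, 1 ≤ M → ∀ top : BV r → ℝ, (∀ x, |top x| ≤ 1 / 2) →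
    ∀ f : (Fin (K + 1) × BV r → Bool) → ℝ, (∀ z, |f z| ≤ 1) → ∀ Γ : ℝ,
      (∀ W : Fin (K + 1) × BV r → ℝ, (∀ p, |W p| ≤ 1 / 2) →
        ∑ ξ : Fin (K + 1) → BV r, |dExt (graph ξ) f W| ≤ Γ) →
      ∑ z, f z * nu K M top z ≤ ∑ z, f z * nu K M (fun _ => 0) z + (Γ / √(2 ^ r) ^ K + C / M) := by
  obtain ⟨C, hC⟩ := main K r K (Nat.lt_succ_self K)
  refine ⟨C / (2 ^ r) ^ K + (2 ^ r) ^ 2, fun M hM top htop f hf Γ hΓ => ?_⟩
  have hM' : (1 : ℝ) ≤ M := Nat.one_le_cast.2 hM
  have hs : 0 < √((2 : ℝ) ^ r) := Real.sqrt_pos.2 (by positivity)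
  have hs2 : √((2 : ℝ) ^ r) ^ 2 = 2 ^ r := Real.sq_sqrt (by positivity)
  set V : ℕ → Fin (K + 1) × BV r → ℝ := fun s => topF fun x => s / M * top x with hV
  have hV1 : ∀ s ≤ M, ∀ p, |V s p| ≤ 1 / 2 := fun s hs p => by
    simp only [hV, topF]
    split_ifs
    · rw [abs_mul, abs_of_nonneg (by positivity)]
      exact (mul_le_of_le_one_left (abs_nonneg _)
        (div_le_one_of_le₀ (Nat.cast_le.2 hs) (by positivity))).trans (htop _)
    · simp
  set Φ : ℕ → ℝ := fun s => avg fun ω : Om (BV r → Fin (M + 1)) K => dExt ∅ f (fld K ω (V s))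
    with hΦ
  have a1 : ∀ s ∈ range M, Φ (s + 1) - Φ s ≤
      1 / M * ((√(2 ^ r) ^ K * Γ + C / M) / (2 ^ r) ^ K) + (2 ^ r * (1 / M)) ^ 2 := fun s hs => by
    have hs' := mem_range.1 hs
    refine (le_abs_self _).trans ((pert (M := M) (Fin.last K) (S := ∅) (by simp) hf (hV1 s hs'.le)
      (hV1 (s + 1) hs') (fun p h1 _ => ?_) (δ := 1 / M) fun x => ?_).trans ?_)
    · have : (p.1 : ℕ) ≠ K := fun e => h1 (Fin.ext e)
      simp [hV, topF, this]
    · simp only [hV, topF, Fin.val_last, if_true]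
      push_cast
      rw [show (s + 1 : ℝ) / M * top x - s / M * top x = 1 / M * top x by ring, abs_mul,
        abs_of_nonneg (by positivity)]
      exact mul_le_of_le_one_right (by positivity) ((htop x).trans (by norm_num))
    · have b1 := resample (Fin.last K) fun ξ : Fin (K + 1) → BV r =>
        |avg fun ω : Om (BV r → Fin (M + 1)) K =>
          lf K ω (ξ (Fin.last K)) * dExt (G (Fin.last K) ξ) f (fld K ω (V s))|
      simp only [G_update, Function.update_self, card_BV] at b1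
      simp only [Fin.val_last, G_top, sum_const, card_univ, Fintype.card_pi, Fintype.card_bool,
        prod_const, Fintype.card_fin, nsmul_eq_mul] at b1
      push_cast at b1
      have b2 := hC M hM f hf Γ hΓ _ (hV1 s hs'.le)
      gcongr
      rw [le_div_iff₀' (by positivity)]
      refine le_of_mul_le_mul_left ?_ (by positivity : (0 : ℝ) < 2 ^ r)
      rw [← mul_assoc, ← pow_succ']
      exact b1.le.trans (mul_le_mul_of_nonneg_left b2 (by positivity))
  have a2 := sum_le_card_nsmul _ _ _ a1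
  rw [sum_range_sub, card_range, nsmul_eq_mul] at a2
  have e1 : Φ M = ∑ z, f z * nu K M top z := by
    simp only [sum_nu, hΦ, hV, div_self (by positivity : (M : ℝ) ≠ 0), one_mul]
  have e0 : Φ 0 = ∑ z, f z * nu K M (fun _ => 0) z := by
    simp only [sum_nu, hΦ, hV, Nat.cast_zero, zero_div, zero_mul]
  rw [← e1, ← e0, ← sub_le_iff_le_add']
  refine a2.trans (le_of_eq ?_)
  rw [← hs2, Real.sqrt_sq hs.le]
  field_simp
  ring

end Vale.Agent.P362
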