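import Vale.Agent.P362.QDefs

/-! Derivatives of the multilinear extension and their growth for decision trees. -/

namespace Vale.Agent.P362

/-- The derivative in the directions `S` of the multilinear extension of `f`, at the point `W`. -/
noncomputable def dExt {ι : Type} [Fintype ι] [DecidableEq ι] (S : Finset ι)
    (f : (ι → Bool) → ℝ) (W : ι → ℝ) : ℝ :=
  ∑ z : ι → Bool, f z * ∏ i, if i ∈ S then sgR (z i) / 2 else (1 + sgR (z i) * W i) / 2

/-- The indicator of acceptance. -/
noncomputable def DTree.ind {ι : Type} (t : DTree ι) (z : ι → Bool) : ℝ :=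
  if t.eval z = true then 1 else 0

section basic

variable {ι : Type} [Fintype ι] [DecidableEq ι]

theorem growth_sgR_abs (b : Bool) : |sgR b| = 1 := by cases b <;> simp [sgR]

theorem growth_sgR_true : sgR true = -1 := by simp [sgR]

theorem growth_sgR_false : sgR false = 1 := by simp [sgR]

theorem dExt_abs_le (S : Finset ι) {f : (ι → Bool) → ℝ} {W : ι → ℝ} (hf : ∀ z, |f z| ≤ 1)
    (hW : ∀ i, |W i| ≤ 1) : |dExt S f W| ≤ 1 := by
  unfold dExt
  refine (Finset.abs_sum_le_sum_abs _ _).trans ?_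
  have h1 : ∀ z : ι → Bool,
      |f z * ∏ i, if i ∈ S then sgR (z i) / 2 else (1 + sgR (z i) * W i) / 2| ≤
        ∏ i, |if i ∈ S then sgR (z i) / 2 else (1 + sgR (z i) * W i) / 2| := by
    intro z
    rw [abs_mul, Finset.abs_prod]
    exact mul_le_of_le_one_left (Finset.prod_nonneg fun _ _ => abs_nonneg _) (hf z)
  refine (Finset.sum_le_sum fun z _ => h1 z).trans (le_of_eq ?_)
  have h2 := Finset.prod_univ_sum (fun _ : ι => (Finset.univ : Finset Bool))
    (fun i b => |if i ∈ S then sgR b / 2 else (1 + sgR b * W i) / 2|)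
  rw [Fintype.piFinset_univ] at h2
  rw [← h2]
  refine Finset.prod_eq_one fun i _ => ?_
  rw [Fintype.sum_bool, growth_sgR_true, growth_sgR_false]
  have h3 := abs_le.1 (hW i)
  split_ifs
  · norm_num [abs_div]
  · rw [abs_of_nonneg (by linarith), abs_of_nonneg (by linarith)]; ring

theorem dExt_congr (S : Finset ι) (f : (ι → Bool) → ℝ) {W W' : ι → ℝ}
    (h : ∀ i, i ∉ S → W i = W' i) : dExt S f W = dExt S f W' := by
  unfold dExt
  refine Finset.sum_congr rfl fun z _ => ?_
  congr 1
  refine Finset.prod_congr rfl fun i _ => ?_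
  split_ifs with hi
  · rfl
  · rw [h i hi]

/-- The product of the weights away from the coordinate `i`. -/
noncomputable def growthR (S : Finset ι) (W : ι → ℝ) (i : ι) (z : ι → Bool) : ℝ :=
  ∏ j ∈ Finset.univ.erase i, if j ∈ S then sgR (z j) / 2 else (1 + sgR (z j) * W j) / 2

theorem growth_update (S : Finset ι) (f : (ι → Bool) → ℝ) (W : ι → ℝ) {i : ι} (hi : i ∉ S)
    (c : ℝ) : dExt S f (Function.update W i c) =
      ∑ z : ι → Bool, f z * ((1 + sgR (z i) * c) / 2 * growthR S W i z) := by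
  unfold dExt growthR
  refine Finset.sum_congr rfl fun z _ => ?_
  rw [← Finset.mul_prod_erase _ _ (Finset.mem_univ i), if_neg hi, Function.update_self]
  congr 2
  refine Finset.prod_congr rfl fun j hj => ?_
  rw [Function.update_of_ne (Finset.ne_of_mem_erase hj)]

theorem growth_notMem (S : Finset ι) (f : (ι → Bool) → ℝ) (W : ι → ℝ) {i : ι} (hi : i ∉ S) :
    dExt S f W = ∑ z : ι → Bool, f z * ((1 + sgR (z i) * W i) / 2 * growthR S W i z) := by
  rw [← growth_update S f W hi, Function.update_eq_self]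

theorem growth_insert (S : Finset ι) (f : (ι → Bool) → ℝ) (W : ι → ℝ) (i : ι) :
    dExt (insert i S) f W = ∑ z : ι → Bool, f z * (sgR (z i) / 2 * growthR S W i z) := by
  unfold dExt growthR
  refine Finset.sum_congr rfl fun z _ => ?_
  rw [← Finset.mul_prod_erase _ _ (Finset.mem_univ i), if_pos (Finset.mem_insert_self i S)]
  congr 2
  refine Finset.prod_congr rfl fun j hj => ?_
  simp only [Finset.mem_insert, Finset.ne_of_mem_erase hj, false_or]

theorem growth_affine (S : Finset ι) (f : (ι → Bool) → ℝ) (W : ι → ℝ) {i : ι} (hi : i ∉ S)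
    (c : ℝ) : dExt S f (Function.update W i c) =
      dExt S f W + (c - W i) * dExt (insert i S) f W := by
  rw [growth_update S f W hi, growth_notMem S f W hi, growth_insert, Finset.mul_sum,
    ← Finset.sum_add_distrib]
  exact Finset.sum_congr rfl fun z _ => by ring

omit [Fintype ι] in
theorem growth_piece (D : Finset ι) (W W' : ι → ℝ) (hW : ∀ i, |W i| ≤ 1) (hW' : ∀ i, |W' i| ≤ 1)
    (i : ι) : |D.piecewise W' W i| ≤ 1 := by
  unfold Finset.piecewise
  split_ifs
  · exact hW' i
  · exact hW i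

theorem growth_first {f : (ι → Bool) → ℝ} {W W' : ι → ℝ} (hf : ∀ z, |f z| ≤ 1)
    (hW : ∀ i, |W i| ≤ 1) (hW' : ∀ i, |W' i| ≤ 1) (D : Finset ι) (S : Finset ι) :
    |dExt S f (D.piecewise W' W) - dExt S f W| ≤ ∑ i ∈ D, |W' i - W i| := by
  induction D using Finset.induction_on with
  | empty => simp
  | insert i D hi ih =>
    rw [Finset.sum_insert hi, Finset.piecewise_insert]
    by_cases hS : i ∈ S
    · rw [dExt_congr S f (W := Function.update (D.piecewise W' W) i (W' i))
        (W' := D.piecewise W' W)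
        fun j hj => Function.update_of_ne (by rintro rfl; exact hj hS) _ _]
      linarith [abs_nonneg (W' i - W i)]
    · rw [growth_affine S f _ hS, Finset.piecewise_eq_of_notMem _ _ _ hi]
      have h1 := dExt_abs_le (insert i S) hf (growth_piece D W W' hW hW')
      have h2 : |(W' i - W i) * dExt (insert i S) f (D.piecewise W' W)| ≤ |W' i - W i| := by
        rw [abs_mul]; exact mul_le_of_le_one_right (abs_nonneg _) h1
      have h3 := abs_add_le (dExt S f (D.piecewise W' W) - dExt S f W)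
        ((W' i - W i) * dExt (insert i S) f (D.piecewise W' W))
      have e : dExt S f (D.piecewise W' W) + (W' i - W i) * dExt (insert i S) f (D.piecewise W' W)
          - dExt S f W = dExt S f (D.piecewise W' W) - dExt S f W +
            (W' i - W i) * dExt (insert i S) f (D.piecewise W' W) := by ring
      rw [e]
      linarith

theorem growth_second (S : Finset ι) {f : (ι → Bool) → ℝ} {W W' : ι → ℝ} (hf : ∀ z, |f z| ≤ 1)
    (hW : ∀ i, |W i| ≤ 1) (hW' : ∀ i, |W' i| ≤ 1) (hS : ∀ i ∈ S, W' i = W i) (D : Finset ι) :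
    |dExt S f (D.piecewise W' W) - dExt S f W - ∑ i ∈ D, (W' i - W i) * dExt (insert i S) f W|
      ≤ (∑ i ∈ D, |W' i - W i|) ^ 2 := by
  induction D using Finset.induction_on with
  | empty => simp
  | insert i D hi ih =>
    rw [Finset.sum_insert hi, Finset.sum_insert hi, Finset.piecewise_insert]
    have h0 : dExt S f (Function.update (D.piecewise W' W) i (W' i)) =
        dExt S f (D.piecewise W' W) + (W' i - W i) * dExt (insert i S) f (D.piecewise W' W) := by
      by_cases hiS : i ∈ S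
      · rw [dExt_congr S f (W := Function.update (D.piecewise W' W) i (W' i))
          (W' := D.piecewise W' W)
          fun j hj => Function.update_of_ne (by rintro rfl; exact hj hiS) _ _, hS i hiS]
        ring
      · rw [growth_affine S f _ hiS, Finset.piecewise_eq_of_notMem _ _ _ hi]
    rw [h0]
    have h1 := growth_first hf hW hW' D (insert i S)
    set A := ∑ j ∈ D, |W' j - W j|
    have hA : 0 ≤ A := Finset.sum_nonneg fun _ _ => abs_nonneg _
    have h2 : |(W' i - W i) * (dExt (insert i S) f (D.piecewise W' W) - dExt (insert i S) f W)|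
        ≤ |W' i - W i| * A := by
      rw [abs_mul]; exact mul_le_mul_of_nonneg_left h1 (abs_nonneg _)
    have e : dExt S f (D.piecewise W' W) + (W' i - W i) * dExt (insert i S) f (D.piecewise W' W)
        - dExt S f W - ((W' i - W i) * dExt (insert i S) f W +
          ∑ j ∈ D, (W' j - W j) * dExt (insert j S) f W) =
        (dExt S f (D.piecewise W' W) - dExt S f W -
          ∑ j ∈ D, (W' j - W j) * dExt (insert j S) f W) +
        (W' i - W i) * (dExt (insert i S) f (D.piecewise W' W) - dExt (insert i S) f W) := by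
      ring
    rw [e]
    refine (abs_add_le _ _).trans ?_
    have h3 := abs_nonneg (W' i - W i)
    nlinarith [mul_nonneg h3 hA, mul_nonneg h3 h3]

theorem dExt_taylor (S : Finset ι) {f : (ι → Bool) → ℝ} {W W' : ι → ℝ} (hf : ∀ z, |f z| ≤ 1)
    (hW : ∀ i, |W i| ≤ 1) (hW' : ∀ i, |W' i| ≤ 1) (hS : ∀ i ∈ S, W' i = W i) :
    |dExt S f W' - dExt S f W - ∑ i, (W' i - W i) * dExt (insert i S) f W|
      ≤ (∑ i, |W' i - W i|) ^ 2 := by
  have h := growth_second S hf hW hW' hS Finset.univ
  rwa [Finset.piecewise_univ] at h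

theorem growth_split (F : Finset ι → ℝ) (i : ι) :
    ∑ T, F T = ∑ T ∈ (Finset.univ.erase i).powerset, (F T + F (insert i T)) := by
  rw [Finset.sum_add_distrib, ← Finset.sum_powerset_insert (Finset.notMem_erase i _),
    Finset.insert_erase (Finset.mem_univ i), Finset.powerset_univ]

theorem growth_node_notMem (S : Finset ι) (ch : Bool → (ι → Bool) → ℝ) (W : ι → ℝ) {i : ι}
    (hi : i ∉ S) : dExt S (fun z => ch (z i) z) W =
      ∑ b, (1 + sgR b * W i) / 2 * dExt S (ch b) (Function.update W i (sgR b)) := by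
  rw [growth_notMem S _ W hi, Fintype.sum_bool, growth_update S _ W hi, growth_update S _ W hi,
    Finset.mul_sum, Finset.mul_sum, ← Finset.sum_add_distrib]
  refine Finset.sum_congr rfl fun z _ => ?_
  cases z i <;> simp only [growth_sgR_true, growth_sgR_false] <;> ring

theorem growth_node_insert (S : Finset ι) (ch : Bool → (ι → Bool) → ℝ) (W : ι → ℝ) {i : ι}
    (hi : i ∉ S) : dExt (insert i S) (fun z => ch (z i) z) W =
      ∑ b, sgR b / 2 * dExt S (ch b) (Function.update W i (sgR b)) := by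
  rw [growth_insert S _ W i, Fintype.sum_bool, growth_update S _ W hi, growth_update S _ W hi,
    Finset.mul_sum, Finset.mul_sum, ← Finset.sum_add_distrib]
  refine Finset.sum_congr rfl fun z _ => ?_
  cases z i <;> simp only [growth_sgR_true, growth_sgR_false] <;> ring

theorem growth_const (S : Finset ι) (hS : S ≠ ∅) (c : ℝ) (W : ι → ℝ) :
    dExt S (fun _ => c) W = 0 := by
  unfold dExt
  rw [← Finset.mul_sum]
  have h2 := Finset.prod_univ_sum (fun _ : ι => (Finset.univ : Finset Bool))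
    (fun i b => if i ∈ S then sgR b / 2 else (1 + sgR b * W i) / 2)
  rw [Fintype.piFinset_univ] at h2
  rw [← h2]
  obtain ⟨i, hi⟩ := Finset.nonempty_iff_ne_empty.2 hS
  rw [Finset.prod_eq_zero (Finset.mem_univ i), mul_zero]
  rw [Fintype.sum_bool, if_pos hi, if_pos hi, growth_sgR_true, growth_sgR_false]
  ring

end basic

theorem growth_pow_taylor (a h s : ℝ) (ha : |a| ≤ s) (hx : |a + h| ≤ s) (p : ℕ) :
    |(a + h) ^ (p + 2) - a ^ (p + 2) - (p + 2) * a ^ (p + 1) * h| ≤ (p + 2) ^ 2 * h ^ 2 * s ^ p := by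
  have hs : 0 ≤ s := (abs_nonneg _).trans ha
  induction p with
  | zero =>
    have e : (a + h) ^ (0 + 2) - a ^ (0 + 2) - (((0 : ℕ) : ℝ) + 2) * a ^ (0 + 1) * h = h ^ 2 := by
      push_cast; ring
    rw [e, abs_of_nonneg (sq_nonneg h)]
    push_cast
    nlinarith [sq_nonneg h]
  | succ p ih =>
    have e : (a + h) ^ (p + 1 + 2) - a ^ (p + 1 + 2) - (((p + 1 : ℕ) : ℝ) + 2) * a ^ (p + 1 + 1) * h
        = (a + h) * ((a + h) ^ (p + 2) - a ^ (p + 2) - (p + 2) * a ^ (p + 1) * h) +
          (p + 2) * h ^ 2 * a ^ (p + 1) := by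
      push_cast; ring
    rw [e]
    refine (abs_add_le _ _).trans ?_
    have h1 : |(a + h) * ((a + h) ^ (p + 2) - a ^ (p + 2) - (p + 2) * a ^ (p + 1) * h)| ≤
        s * ((p + 2) ^ 2 * h ^ 2 * s ^ p) := by
      rw [abs_mul]; exact mul_le_mul hx ih (abs_nonneg _) hs
    have h2 : |((p : ℝ) + 2) * h ^ 2 * a ^ (p + 1)| ≤ (p + 2) * h ^ 2 * s ^ (p + 1) := by
      rw [abs_mul, abs_of_nonneg (show (0 : ℝ) ≤ (p + 2) * h ^ 2 by positivity), abs_pow]
      exact mul_le_mul_of_nonneg_left (pow_le_pow_left₀ (abs_nonneg _) ha _) (by positivity)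
    have h3 : (0 : ℝ) ≤ h ^ 2 * s ^ (p + 1) := by positivity
    have h4 : (0 : ℝ) ≤ p := Nat.cast_nonneg p
    have e2 : s * (((p : ℝ) + 2) ^ 2 * h ^ 2 * s ^ p) = (p + 2) ^ 2 * (h ^ 2 * s ^ (p + 1)) := by
      ring
    push_cast
    nlinarith [mul_nonneg h4 h3]

theorem growth_moment_one (r : ℕ) (a c h η : ℝ) (hη0 : 0 ≤ η) (hη : η ≤ 1 / 2)
    (hh : |h| ≤ 2 * η * |c|) :
    (a + h) ^ (2 * r + 2) ≤ a ^ (2 * r + 2) + (2 * r + 2) * a ^ (2 * r + 1) * h +
      (2 * r + 2) ^ 2 * 4 ^ (r + 1) * η ^ 2 * (a ^ (2 * r + 2) + c ^ (2 * r + 2)) := by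
  set M := max |a| |c| with hM
  have haM : |a| ≤ M := le_max_left _ _
  have hcM : |c| ≤ M := le_max_right _ _
  have hM0 : 0 ≤ M := (abs_nonneg _).trans haM
  have hc0 := abs_nonneg c
  have hh1 : |h| ≤ 2 * η * M := hh.trans (mul_le_mul_of_nonneg_left hcM (by positivity))
  have hh2 : |h| ≤ M := by nlinarith
  have h1 := growth_pow_taylor a h (2 * M) (by linarith)
    ((abs_add_le _ _).trans (by linarith)) (2 * r)
  have h2 : h ^ 2 ≤ (2 * η * M) ^ 2 := by
    rw [← sq_abs h]; exact pow_le_pow_left₀ (abs_nonneg _) hh1 2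
  have hev : Even (2 * r + 2) := ⟨r + 1, by ring⟩
  have h3 : M ^ (2 * r + 2) ≤ a ^ (2 * r + 2) + c ^ (2 * r + 2) := by
    have ha := hev.pow_nonneg a
    have hc := hev.pow_nonneg c
    rcases max_cases |a| |c| with ⟨e, _⟩ | ⟨e, _⟩
    · rw [hM, e, hev.pow_abs]; linarith
    · rw [hM, e, hev.pow_abs]; linarith
  have h4 : (((2 * r : ℕ) : ℝ) + 2) ^ 2 * h ^ 2 * (2 * M) ^ (2 * r) ≤
      (2 * r + 2) ^ 2 * 4 ^ (r + 1) * η ^ 2 * (a ^ (2 * r + 2) + c ^ (2 * r + 2)) := by
    calc (((2 * r : ℕ) : ℝ) + 2) ^ 2 * h ^ 2 * (2 * M) ^ (2 * r)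
        ≤ (((2 * r : ℕ) : ℝ) + 2) ^ 2 * (2 * η * M) ^ 2 * (2 * M) ^ (2 * r) := by gcongr
      _ = (2 * r + 2) ^ 2 * 4 ^ (r + 1) * η ^ 2 * M ^ (2 * r + 2) := by
        have e4 : (4 : ℝ) ^ (r + 1) = 2 ^ (2 * r) * 4 := by
          rw [pow_succ, pow_mul]; norm_num
        rw [e4, mul_pow 2 M]
        push_cast; ring
      _ ≤ _ := by gcongr
  have h5 := (le_abs_self _).trans (h1.trans h4)
  push_cast at h5
  linarith

theorem growth_moment (r : ℕ) (a c w η : ℝ) (hη0 : 0 ≤ η) (hη : η ≤ 1 / 2)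
    (hw : |w| ≤ 1 / 2 ∨ c = 0) :
    ∑ b, (1 + sgR b * w) / 2 * (a + sgR b / (1 + sgR b * w) * η * c) ^ (2 * r + 2) ≤
      (1 + (2 * r + 2) ^ 2 * 4 ^ (r + 1) * η ^ 2) * (a ^ (2 * r + 2) + c ^ (2 * r + 2)) := by
  have hev : Even (2 * r + 2) := ⟨r + 1, by ring⟩
  have ha := hev.pow_nonneg a
  have hc := hev.pow_nonneg c
  have hK : (0 : ℝ) ≤ (2 * r + 2) ^ 2 * 4 ^ (r + 1) * η ^ 2 := by positivity
  rw [Fintype.sum_bool, growth_sgR_true, growth_sgR_false]
  rcases hw with hw | rfl
  · have hw' := abs_le.1 hw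
    have hp1 : 0 < 1 + -1 * w := by linarith
    have hp2 : 0 < 1 + 1 * w := by linarith
    have hb : ∀ (σ p : ℝ), |σ| = 1 → 1 / 2 ≤ p → |σ / p * η * c| ≤ 2 * η * |c| := by
      intro σ p hσ hp
      have hp0 : 0 < p := by linarith
      rw [abs_mul, abs_mul, abs_div, hσ, abs_of_pos hp0, abs_of_nonneg hη0]
      have : 1 / p ≤ 2 := by rw [div_le_iff₀ hp0]; linarith
      gcongr
    have h1 := growth_moment_one r a c _ η hη0 hη (hb (-1) (1 + -1 * w) (by simp) (by linarith))
    have h2 := growth_moment_one r a c _ η hη0 hη (hb 1 (1 + 1 * w) (by simp) (by linarith))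
    have h3 := mul_le_mul_of_nonneg_left h1 (show 0 ≤ (1 + -1 * w) / 2 by linarith)
    have h4 := mul_le_mul_of_nonneg_left h2 (show 0 ≤ (1 + 1 * w) / 2 by linarith)
    set K := ((2 * r + 2) ^ 2 * 4 ^ (r + 1) * η ^ 2 : ℝ)
    set A := a ^ (2 * r + 2)
    set B := c ^ (2 * r + 2)
    set L := ((2 * r + 2) * a ^ (2 * r + 1) : ℝ)
    have e : (1 + -1 * w) / 2 * (A + L * (-1 / (1 + -1 * w) * η * c) + K * (A + B)) +
        (1 + 1 * w) / 2 * (A + L * (1 / (1 + 1 * w) * η * c) + K * (A + B)) =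
        A + K * (A + B) := by
      have e1 := mul_div_cancel₀ (-1 : ℝ) hp1.ne'
      have e2 := mul_div_cancel₀ (1 : ℝ) hp2.ne'
      linear_combination (L * η * c / 2) * e1 + (L * η * c / 2) * e2
    linarith
  · simp only [mul_zero, add_zero]
    rw [zero_pow (by omega)]
    nlinarith [mul_nonneg hK ha]

theorem growth_main (r : ℕ) {ι : Type} [Fintype ι] [DecidableEq ι] (η θ : ℝ) (hη0 : 0 ≤ η)
    (hη : η ≤ 1 / 2) (hθ : 0 < θ) (t : DTree ι) : ∀ (u : Finset ι → ℝ) (W : ι → ℝ),
    (∀ i, |W i| ≤ 1 / 2 ∨ (|W i| = 1 ∧ ∀ T, i ∈ T → u T = 0)) →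
    |∑ T, u T * η ^ T.card * dExt T t.ind W| ≤
      θ * (1 + (1 + (2 * r + 2) ^ 2 * 4 ^ (r + 1) * η ^ 2) ^ t.depth *
        (∑ T, u T ^ (2 * r + 2)) / θ ^ (2 * r + 2)) := by
  have hev : Even (2 * r + 2) := ⟨r + 1, by ring⟩
  set K : ℝ := 1 + (2 * r + 2) ^ 2 * 4 ^ (r + 1) * η ^ 2 with hK
  have hK1 : 1 ≤ K := le_add_of_nonneg_right (by positivity)
  have hW1 : ∀ (u : Finset ι → ℝ) (W : ι → ℝ),
      (∀ i, |W i| ≤ 1 / 2 ∨ (|W i| = 1 ∧ ∀ T, i ∈ T → u T = 0)) → ∀ i, |W i| ≤ 1 := by
    intro u W h i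
    rcases h i with h | h
    · linarith
    · exact h.1.le
  induction t with
  | leaf b =>
    intro u W hW
    have hind : (DTree.leaf b : DTree ι).ind = fun _ => if b = true then (1 : ℝ) else 0 := rfl
    rw [Finset.sum_eq_single (∅ : Finset ι)
      (fun T _ hT => by rw [hind, growth_const T hT, mul_zero]) (fun h => absurd (by simp) h)]
    have h1 : |dExt ∅ (DTree.leaf b : DTree ι).ind W| ≤ 1 := by
      refine dExt_abs_le _ (fun z => ?_) (hW1 u W hW)
      unfold DTree.ind; split_ifs <;> simp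
    have h2 : |u ∅ * η ^ (∅ : Finset ι).card * dExt ∅ (DTree.leaf b : DTree ι).ind W| ≤ |u ∅| := by
      rw [Finset.card_empty, pow_zero, mul_one, abs_mul]
      exact mul_le_of_le_one_right (abs_nonneg _) h1
    refine h2.trans ?_
    have h3 : u ∅ ^ (2 * r + 2) ≤ ∑ T, u T ^ (2 * r + 2) :=
      Finset.single_le_sum (f := fun T => u T ^ (2 * r + 2)) (fun T _ => hev.pow_nonneg _)
        (Finset.mem_univ _)
    have h4 : |u ∅| / θ ≤ 1 + (|u ∅| / θ) ^ (2 * r + 2) := by
      rcases le_total (|u ∅| / θ) 1 with h | h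
      · linarith [hev.pow_nonneg (|u ∅| / θ)]
      · linarith [le_self_pow₀ h (show 2 * r + 2 ≠ 0 by omega)]
    rw [div_pow, hev.pow_abs, div_le_iff₀ hθ] at h4
    refine h4.trans ?_
    rw [mul_comm θ]
    simp only [DTree.depth, pow_zero, one_mul]
    gcongr
  | node i l rr ihl ihr =>
    intro u W hW
    let ch : Bool → DTree ι := fun b => if b = true then rr else l
    have hind : (DTree.node i l rr).ind = fun z => (ch (z i)).ind z := by
      funext z
      cases hz : z i <;> simp [DTree.ind, DTree.eval, ch, hz]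
    let p : Bool → ℝ := fun b => (1 + sgR b * W i) / 2
    let v : Bool → Finset ι → ℝ := fun b T =>
      if i ∈ T then 0 else u T + sgR b / (1 + sgR b * W i) * η * u (insert i T)
    have hWi := abs_le.1 (hW1 u W hW i)
    have hp0 : ∀ b, 0 ≤ p b := by
      intro b
      cases b <;> simp only [p, growth_sgR_true, growth_sgR_false] <;> linarith
    have hp1 : p true + p false = 1 := by
      simp only [p, growth_sgR_true, growth_sgR_false]; ring
    have hcase : ∀ T, |W i| ≤ 1 / 2 ∨ u (insert i T) = 0 := fun T =>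
      (hW i).imp id fun h => h.2 _ (Finset.mem_insert_self _ _)
    have hpe : ∀ b T, p b * (sgR b / (1 + sgR b * W i) * η * u (insert i T)) =
        sgR b / 2 * η * u (insert i T) := by
      intro b T
      rcases hcase T with h | h
      · have h' := abs_le.1 h
        have hne : 1 + sgR b * W i ≠ 0 := by
          cases b <;> simp only [growth_sgR_true, growth_sgR_false] <;> linarith
        simp only [p]
        field_simp
      · rw [h]; ring
    have hv : ∀ b j, |Function.update W i (sgR b) j| ≤ 1 / 2 ∨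
        (|Function.update W i (sgR b) j| = 1 ∧ ∀ T, j ∈ T → v b T = 0) := by
      intro b j
      by_cases hj : j = i
      · subst hj
        right
        rw [Function.update_self]
        exact ⟨growth_sgR_abs b, fun T hT => if_pos hT⟩
      · rw [Function.update_of_ne hj]
        refine (hW j).imp id fun h => ⟨h.1, fun T hT => ?_⟩
        simp only [v]
        rw [h.2 T hT, h.2 _ (Finset.mem_insert_of_mem hT)]
        simp
    have hsum : ∑ T, u T * η ^ T.card * dExt T (DTree.node i l rr).ind W =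
        ∑ b, p b * ∑ T, v b T * η ^ T.card * dExt T (ch b).ind (Function.update W i (sgR b)) := by
      simp only [Finset.mul_sum]
      rw [Finset.sum_comm, growth_split _ i, growth_split _ i]
      refine Finset.sum_congr rfl fun T hT => ?_
      have hiT : i ∉ T := fun h =>
        Finset.notMem_erase i _ (Finset.mem_powerset.1 hT h)
      rw [hind, growth_node_notMem T (fun b => (ch b).ind) W hiT,
        growth_node_insert T (fun b => (ch b).ind) W hiT, Finset.card_insert_of_notMem hiT]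
      simp only [v, if_neg hiT, if_pos (Finset.mem_insert_self i T), zero_mul, mul_zero,
        Finset.sum_const_zero, add_zero, Finset.mul_sum, ← Finset.sum_add_distrib]
      refine Finset.sum_congr rfl fun b _ => ?_
      have h := hpe b T
      simp only [p] at h ⊢
      linear_combination (-(η ^ T.card * dExt T (ch b).ind (Function.update W i (sgR b)))) * h
    have hmom : ∑ b, p b * ∑ T, v b T ^ (2 * r + 2) ≤ K * ∑ T, u T ^ (2 * r + 2) := by
      simp only [Finset.mul_sum]
      rw [Finset.sum_comm, growth_split _ i, growth_split (fun T => K * u T ^ (2 * r + 2)) i]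
      refine Finset.sum_le_sum fun T hT => ?_
      have hiT : i ∉ T := fun h =>
        Finset.notMem_erase i _ (Finset.mem_powerset.1 hT h)
      simp only [v, if_neg hiT, if_pos (Finset.mem_insert_self i T)]
      rw [zero_pow (by omega)]
      simp only [mul_zero, Finset.sum_const_zero, add_zero]
      rw [← mul_add]
      exact growth_moment r (u T) (u (insert i T)) (W i) η hη0 hη (hcase T)
    have hch : ∀ b, |∑ T, v b T * η ^ T.card * dExt T (ch b).ind (Function.update W i (sgR b))| ≤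
        θ * (1 + K ^ max l.depth rr.depth * (∑ T, v b T ^ (2 * r + 2)) / θ ^ (2 * r + 2)) := by
      intro b
      have hs : 0 ≤ ∑ T, v b T ^ (2 * r + 2) := Finset.sum_nonneg fun T _ => hev.pow_nonneg _
      cases b
      · refine (ihl _ _ (hv false)).trans ?_
        have := pow_le_pow_right₀ hK1 (le_max_left l.depth rr.depth)
        gcongr
      · refine (ihr _ _ (hv true)).trans ?_
        have := pow_le_pow_right₀ hK1 (le_max_right l.depth rr.depth)
        gcongr
    rw [hsum]
    refine (Finset.abs_sum_le_sum_abs _ _).trans ?_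
    have h1 : ∑ b, |p b * ∑ T, v b T * η ^ T.card *
        dExt T (ch b).ind (Function.update W i (sgR b))| ≤
        ∑ b, p b * (θ * (1 + K ^ max l.depth rr.depth * (∑ T, v b T ^ (2 * r + 2)) /
          θ ^ (2 * r + 2))) := by
      refine Finset.sum_le_sum fun b _ => ?_
      rw [abs_mul, abs_of_nonneg (hp0 b)]
      exact mul_le_mul_of_nonneg_left (hch b) (hp0 b)
    refine h1.trans ?_
    have e : ∑ b, p b * (θ * (1 + K ^ max l.depth rr.depth * (∑ T, v b T ^ (2 * r + 2)) /
          θ ^ (2 * r + 2))) = θ * (1 + K ^ max l.depth rr.depth *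
            (∑ b, p b * ∑ T, v b T ^ (2 * r + 2)) / θ ^ (2 * r + 2)) := by
      rw [Fintype.sum_bool, Fintype.sum_bool]
      linear_combination θ * hp1
    rw [e]
    simp only [DTree.depth]
    rw [pow_succ K, mul_assoc (K ^ max l.depth rr.depth)]
    gcongr

theorem growth (q : ℕ) (hq : 1 ≤ q) : ∃ C : ℝ, 0 < C ∧
    ∀ (ι : Type) [Fintype ι] [DecidableEq ι] (t : DTree ι) (W : ι → ℝ) (η θ : ℝ) (k : ℕ)
      (𝒮 : Finset (Finset ι)), (∀ i, |W i| ≤ 1 / 2) → 0 ≤ η → η ≤ 1 / 2 → 0 < θ →
      C * η ^ 2 * t.depth ≤ 1 → (∀ S ∈ 𝒮, S.card = k) → (𝒮.card : ℝ) ≤ θ ^ (2 * q) →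
      η ^ k * ∑ S ∈ 𝒮, |dExt S t.ind W| ≤ 4 * θ := by
  obtain ⟨r, rfl⟩ : ∃ r, q = r + 1 := ⟨q - 1, by omega⟩
  refine ⟨(2 * r + 2) ^ 2 * 4 ^ (r + 1), by positivity, ?_⟩
  intro ι _ _ t W η θ k 𝒮 hW hη0 hη hθ hC hk hcard
  let u : Finset ι → ℝ := fun T => if T ∈ 𝒮 then (if 0 ≤ dExt T t.ind W then 1 else -1) else 0
  have h := growth_main r η θ hη0 hη hθ t u W fun i => Or.inl (hW i)
  have hev : Even (2 * r + 2) := ⟨r + 1, by ring⟩
  have e1 : ∑ T, u T * η ^ T.card * dExt T t.ind W = η ^ k * ∑ S ∈ 𝒮, |dExt S t.ind W| := by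
    rw [Finset.mul_sum, ← Finset.sum_subset (Finset.subset_univ 𝒮)]
    · refine Finset.sum_congr rfl fun T hT => ?_
      simp only [u, if_pos hT, hk T hT]
      split_ifs with h0
      · rw [abs_of_nonneg h0]; ring
      · rw [abs_of_neg (not_le.1 h0)]; ring
    · intro T _ hT
      simp only [u, if_neg hT, zero_mul]
  have e2 : ∑ T, u T ^ (2 * r + 2) = 𝒮.card := by
    rw [← Finset.sum_subset (Finset.subset_univ 𝒮), Finset.card_eq_sum_ones, Nat.cast_sum]
    · refine Finset.sum_congr rfl fun T hT => ?_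
      simp only [u, if_pos hT]
      split_ifs
      · simp
      · rw [hev.neg_one_pow]; simp
    · intro T _ hT
      simp only [u, if_neg hT]
      exact zero_pow (by omega)
  rw [e1, e2] at h
  set x : ℝ := (2 * r + 2) ^ 2 * 4 ^ (r + 1) * η ^ 2 with hx
  have hx0 : 0 ≤ x := by positivity
  have h3 : (1 + x) ^ t.depth ≤ 3 := by
    calc (1 + x) ^ t.depth ≤ Real.exp x ^ t.depth := by
          gcongr
          linarith [Real.add_one_le_exp x]
      _ = Real.exp (x * t.depth) := by rw [← Real.exp_nat_mul, mul_comm]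
      _ ≤ Real.exp 1 := Real.exp_le_exp.2 hC
      _ ≤ 3 := Real.exp_one_lt_three.le
  have hθp : 0 < θ ^ (2 * r + 2) := by positivity
  have h4 : (1 + x) ^ t.depth * (𝒮.card : ℝ) / θ ^ (2 * r + 2) ≤ 3 := by
    rw [div_le_iff₀ hθp]
    have e : 2 * (r + 1) = 2 * r + 2 := by ring
    rw [e] at hcard
    exact mul_le_mul h3 hcard (Nat.cast_nonneg _) (by norm_num)
  have h5 := (le_abs_self _).trans h
  nlinarith

end Vale.Agent.P362
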