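import Vale.Agent.P362.Walsh
import Vale.Agent.P362.Growth

/-! The hard distributions: definitions. -/

namespace Vale.Agent.P362

/-- Sequences of `j` independent layers. -/
def Om (A : Type) : ℕ → Type
  | 0 => Unit
  | j + 1 => A × Om A j

instance Om.fintype (A : Type) [Fintype A] : ∀ j, Fintype (Om A j)
  | 0 => inferInstanceAs (Fintype Unit)
  | j + 1 => @instFintypeProd A (Om A j) _ (Om.fintype A j)

/-- The grid point number `m` in `[-1, 1]`. -/
noncomputable def grid {M : ℕ} (m : Fin (M + 1)) : ℝ := (2 * (m : ℝ) - M) / M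

/-- The clipping function. -/
noncomputable def clip (s : ℝ) : ℝ := max (-1) (min 1 (s / 6)) / 2

/-- The normalised Walsh transform of a grid layer. -/
noncomputable def wal {M r : ℕ} (w : BV r → Fin (M + 1)) (x : BV r) : ℝ :=
  (∑ y, chi x y * grid (w y)) / √(2 ^ r)

/-- Put `clip (wal w)` on the layer `j` and multiply the layer `j + 1` by `grid w`. -/
noncomputable def stepF {K M r : ℕ} (j : ℕ) (w : BV r → Fin (M + 1))
    (W : Fin (K + 1) × BV r → ℝ) (p : Fin (K + 1) × BV r) : ℝ :=
  if (p.1 : ℕ) = j then clip (wal w p.2) else if (p.1 : ℕ) = j + 1 then grid (w p.2) * W p else W p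

/-- The random field of biases. -/
noncomputable def fld {K M r : ℕ} : ∀ j : ℕ, Om (BV r → Fin (M + 1)) j →
    (Fin (K + 1) × BV r → ℝ) → Fin (K + 1) × BV r → ℝ
  | 0, _, W => W
  | j + 1, ω, W => fld j ω.2 (stepF j ω.1 W)

/-- The left factor on the layer `j`. -/
noncomputable def lf {M r : ℕ} : ∀ j : ℕ, Om (BV r → Fin (M + 1)) j → BV r → ℝ
  | 0, _, _ => 1
  | _ + 1, ω, x => grid (ω.1 x)

/-- The average over a finite type. -/
noncomputable def avg {A : Type} [Fintype A] (g : A → ℝ) : ℝ := (∑ a, g a) / Fintype.card A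

/-- The field with top layer `top` (the lower layers are overwritten). -/
def topF {K r : ℕ} (top : BV r → ℝ) (p : Fin (K + 1) × BV r) : ℝ :=
  if (p.1 : ℕ) = K then top p.2 else 0

/-- The distribution of the bits. -/
noncomputable def nu (K M : ℕ) {r : ℕ} (top : BV r → ℝ) (z : Fin (K + 1) × BV r → Bool) : ℝ :=
  avg fun ω : Om (BV r → Fin (M + 1)) K => ∏ p, (1 + sgR (z p) * fld K ω (topF top) p) / 2

/-- The set with one point `ξ j` on each layer `j`. -/
def graph {K r : ℕ} (ξ : Fin (K + 1) → BV r) : Finset (Fin (K + 1) × BV r) :=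
  Finset.univ.image fun j => (j, ξ j)

end Vale.Agent.P362
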