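import Vale.Agent.P362.FAdv

/-! The planted amplitude is large with constant probability. -/

namespace Vale.Agent.P362

namespace FMean

open Finset

/-! Averages -/

section avg

variable {A B : Type} [Fintype A] [Fintype B]

theorem avg_prod (g : A × B → ℝ) : avg g = avg fun a => avg fun b => g (a, b) := by
  simp only [avg, Fintype.sum_prod_type, Fintype.card_prod, Nat.cast_mul, ← Finset.sum_div]
  rw [div_div, mul_comm]

theorem avg_succ (j : ℕ) (g : Om A (j + 1) → ℝ) :
    avg g = avg fun a : A => avg fun ω : Om A j => g (a, ω) :=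
  avg_prod (A := A) (B := Om A j) g

theorem avg_zero (g : Om A 0 → ℝ) : avg g = g () := by
  have : ∀ h : Unit → ℝ, avg h = h () := fun h => by simp [avg]
  exact this g

theorem avg_const_mul (c : ℝ) (g : A → ℝ) : avg (fun a => c * g a) = c * avg g := by
  simp only [avg, ← Finset.mul_sum, mul_div_assoc]

theorem avg_mul_const (c : ℝ) (g : A → ℝ) : avg (fun a => g a * c) = avg g * c := by
  simp only [avg, ← Finset.sum_mul]
  ring

theorem avg_sum (g : B → A → ℝ) : avg (fun a => ∑ b, g b a) = ∑ b, avg (g b) := by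
  simp only [avg]
  rw [Finset.sum_comm, Finset.sum_div]

theorem avg_equiv (e : A ≃ A) (g : A → ℝ) : avg (fun a => g (e a)) = avg g := by
  simp only [avg, Equiv.sum_comp e g]

end avg

/-! Multilinearity -/

theorem sum_prod_sgR {ι : Type} [Fintype ι] [DecidableEq ι] (W : ι → ℝ) (S : Finset ι) :
    ∑ z : ι → Bool, (∏ p, (1 + sgR (z p) * W p) / 2) * ∏ p ∈ S, sgR (z p) = ∏ p ∈ S, W p := by
  have e1 : ∀ z : ι → Bool, (∏ p, (1 + sgR (z p) * W p) / 2) * ∏ p ∈ S, sgR (z p)
      = ∏ p, (1 + sgR (z p) * W p) / 2 * (if p ∈ S then sgR (z p) else 1) := by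
    intro z
    rw [Finset.prod_mul_distrib, Finset.prod_ite_mem, Finset.univ_inter]
  simp only [e1]
  rw [← Fintype.piFinset_univ, ← Finset.prod_univ_sum (fun _ : ι => (univ : Finset Bool))
    fun p b => (1 + sgR b * W p) / 2 * (if p ∈ S then sgR b else 1)]
  rw [← Finset.univ_inter S, ← Finset.prod_ite_mem, Finset.univ_inter]
  refine Finset.prod_congr rfl fun p _ => ?_
  split_ifs <;> simp [sgR] <;> ring

theorem sum_vv {K r : ℕ} (W : Fin (K + 1) × BV r → ℝ) (j : ℕ) (hj : j ≤ K + 1) (x : BV r)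
    (S : Finset (Fin (K + 1) × BV r)) (hS : ∀ p ∈ S, j ≤ (p.1 : ℕ)) :
    ∑ z : Fin (K + 1) × BV r → Bool, (∏ p, (1 + sgR (z p) * W p) / 2) *
      (vv (lay fun p => sgR (z p)) j x * ∏ p ∈ S, sgR (z p)) = vv (lay W) j x * ∏ p ∈ S, W p := by
  induction j generalizing x S with
  | zero => simpa only [vv, one_mul] using sum_prod_sgR W S
  | succ j ih =>
    have hj' : j < K + 1 := hj
    simp only [vv, lay, dif_pos hj', Finset.sum_mul, Finset.mul_sum]
    rw [Finset.sum_comm]
    refine Finset.sum_congr rfl fun y _ => ?_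
    have hn : ((⟨j, hj'⟩ : Fin (K + 1)), y) ∉ S := fun h => by
      have := hS _ h
      simp at this
    have h1 := ih hj'.le y (insert (⟨j, hj'⟩, y) S) fun p hp => by
      rcases mem_insert.1 hp with rfl | hp
      · exact le_rfl
      · exact (Nat.le_succ j).trans (hS p hp)
    simp only [Finset.prod_insert hn] at h1
    calc _ = chi x y * ∑ z : Fin (K + 1) × BV r → Bool, (∏ p, (1 + sgR (z p) * W p) / 2) *
          (vv (lay fun p => sgR (z p)) j y * (sgR (z (⟨j, hj'⟩, y)) * ∏ p ∈ S, sgR (z p))) := by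
          rw [Finset.mul_sum]
          exact Finset.sum_congr rfl fun z _ => by ring
      _ = _ := by rw [h1]; ring

theorem sum_amp {K r : ℕ} (W : Fin (K + 1) × BV r → ℝ) (a : BV r) :
    ∑ z : Fin (K + 1) × BV r → Bool, (∏ p, (1 + sgR (z p) * W p) / 2) * amp z a
      = vv (lay W) (K + 1) a := by
  simpa only [amp, Finset.prod_empty, mul_one] using sum_vv W (K + 1) le_rfl a ∅ (by simp)

/-! One layer -/

theorem grid_rev {M : ℕ} (m : Fin (M + 1)) : grid (Fin.rev m) = -grid m := by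
  have h : (m : ℕ) ≤ M := Nat.lt_succ_iff.1 m.2
  have e : ((Fin.rev m : ℕ) : ℝ) = M - m := by
    rw [Fin.val_rev, Nat.add_sub_add_right, Nat.cast_sub h]
  simp only [grid, e]
  ring

theorem chi_eq {r : ℕ} (x y : BV r) : chi x y = 1 ∨ chi x y = -1 :=
  mul_self_eq_one_iff.1 (chi_mul_self x y)

/-- The sign flip along a character. -/
noncomputable def flip {M r : ℕ} (x : BV r) : (BV r → Fin (M + 1)) ≃ (BV r → Fin (M + 1)) :=
  Equiv.piCongrRight fun y => if chi x y = 1 then Equiv.refl _ else Fin.revPerm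

theorem grid_flip {M r : ℕ} (x : BV r) (w : BV r → Fin (M + 1)) (y : BV r) :
    grid (flip x w y) = chi x y * grid (w y) := by
  simp only [flip, Equiv.piCongrRight_apply, Pi.map_apply]
  split_ifs with h
  · rw [h, one_mul]; rfl
  · rw [(chi_eq x y).resolve_left h, Fin.revPerm_apply, grid_rev]; ring

/-- The normalised sum of a layer. -/
noncomputable def sm {M r : ℕ} (w : BV r → Fin (M + 1)) : ℝ := (∑ y, grid (w y)) / √(2 ^ r)

/-- The correlation constant. -/
noncomputable def cc (M r : ℕ) : ℝ := avg fun w : BV r → Fin (M + 1) => sm w * clip (sm w)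

theorem avg_grid_sm (M : ℕ) {r : ℕ} (y : BV r) :
    (avg fun w : BV r → Fin (M + 1) => grid (w y) * clip (sm w)) = cc M r / √(2 ^ r) := by
  have h1 : ∀ y' : BV r, (avg fun w : BV r → Fin (M + 1) => grid (w y') * clip (sm w))
      = avg fun w : BV r → Fin (M + 1) => grid (w y) * clip (sm w) := by
    intro y'
    rw [← avg_equiv ((Equiv.swap y y').arrowCongr (Equiv.refl _))]
    congr 1
    funext w
    have : sm ((Equiv.swap y y').arrowCongr (Equiv.refl (Fin (M + 1))) w) = sm w := by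
      simp only [sm, Equiv.arrowCongr_apply, Equiv.coe_refl, Function.comp, id]
      rw [Equiv.sum_comp (Equiv.swap y y').symm fun y => grid (w y)]
    rw [this]
    simp
  have hs : (0 : ℝ) < √(2 ^ r) := by positivity
  have h2 : cc M r = (∑ y' : BV r, avg fun w : BV r → Fin (M + 1) => grid (w y') * clip (sm w))
      * (√(2 ^ r))⁻¹ := by
    rw [← avg_sum, ← avg_mul_const, cc]
    congr 1
    funext w
    rw [← Finset.sum_mul, sm]
    ring
  simp only [h1, Finset.sum_const, Finset.card_univ, card_BV, nsmul_eq_mul] at h2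
  have h3 : √(2 ^ r) * √(2 ^ r) = (2 : ℝ) ^ r := Real.mul_self_sqrt (by positivity)
  rw [h2, eq_div_iff hs.ne']
  push_cast
  field_simp
  rw [sq, h3]

theorem avg_grid_wal (M : ℕ) {r : ℕ} (x y : BV r) :
    (avg fun w : BV r → Fin (M + 1) => grid (w y) * clip (wal w x))
      = chi x y * (cc M r / √(2 ^ r)) := by
  rw [← avg_equiv (flip x), ← avg_grid_sm M y, ← avg_const_mul]
  congr 1
  funext w
  have : wal (flip x w) x = sm w := by
    simp only [wal, sm, grid_flip, ← mul_assoc, chi_mul_self, one_mul]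
  rw [this, grid_flip, mul_assoc]

/-! All layers -/

theorem fld_gt {K M r : ℕ} (j : ℕ) (ω : Om (BV r → Fin (M + 1)) j) (W : Fin (K + 1) × BV r → ℝ)
    (p : Fin (K + 1) × BV r) (hp : j < (p.1 : ℕ)) : fld j ω W p = W p := by
  induction j generalizing W with
  | zero => rfl
  | succ j ih =>
    rw [fld, ih _ _ (by omega), stepF, if_neg (by omega), if_neg (by omega)]

theorem fld_eq {K M r : ℕ} (j : ℕ) (ω : Om (BV r → Fin (M + 1)) j) (W : Fin (K + 1) × BV r → ℝ)
    (p : Fin (K + 1) × BV r) (hp : (p.1 : ℕ) = j) : fld j ω W p = lf j ω p.2 * W p := by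
  cases j with
  | zero => simp [fld, lf]
  | succ j => rw [fld, fld_gt _ _ _ _ (by omega), stepF, if_neg (by omega), if_pos hp, lf]

theorem avg_lf {K M r : ℕ} (j : ℕ) (hj : j ≤ K) (W : Fin (K + 1) × BV r → ℝ) (y : BV r) :
    (avg fun ω : Om (BV r → Fin (M + 1)) j => lf j ω y * vv (lay (fld j ω W)) j y)
      = (cc M r * √(2 ^ r)) ^ j := by
  induction j generalizing W y with
  | zero => rw [avg_zero]; simp [lf, vv]
  | succ j ih =>
    have hj' : j < K + 1 := by omega
    rw [avg_succ]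
    have e1 : ∀ w : BV r → Fin (M + 1), (avg fun ω : Om (BV r → Fin (M + 1)) j =>
        lf (j + 1) (w, ω) y * vv (lay (fld (j + 1) (w, ω) W)) (j + 1) y)
        = ∑ x, chi y x * (cc M r * √(2 ^ r)) ^ j * (grid (w y) * clip (wal w x)) := by
      intro w
      have e2 : ∀ ω : Om (BV r → Fin (M + 1)) j,
          lf (j + 1) (w, ω) y * vv (lay (fld (j + 1) (w, ω) W)) (j + 1) y
          = ∑ x, chi y x * (grid (w y) * clip (wal w x)) *
            (lf j ω x * vv (lay (fld j ω (stepF j w W))) j x) := by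
        intro ω
        change grid (w y) * ∑ x, chi y x * (lay (fld j ω (stepF j w W)) j x *
          vv (lay (fld j ω (stepF j w W))) j x) = _
        rw [Finset.mul_sum]
        refine Finset.sum_congr rfl fun x _ => ?_
        rw [lay, dif_pos hj', fld_eq j ω _ _ rfl, stepF, if_pos rfl]
        ring
      simp only [e2]
      rw [avg_sum]
      refine Finset.sum_congr rfl fun x _ => ?_
      rw [avg_const_mul, ih (by omega)]
      ring
    simp only [e1]
    rw [avg_sum]
    have e3 : ∀ x : BV r, (avg fun w : BV r → Fin (M + 1) =>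
        chi y x * (cc M r * √(2 ^ r)) ^ j * (grid (w y) * clip (wal w x)))
        = (cc M r * √(2 ^ r)) ^ j * (cc M r / √(2 ^ r)) := by
      intro x
      rw [avg_const_mul, avg_grid_wal, chi_comm x y]
      have := chi_mul_self y x
      linear_combination ((cc M r * √(2 ^ r)) ^ j * (cc M r / √(2 ^ r))) * this
    simp only [e3, Finset.sum_const, Finset.card_univ, card_BV, nsmul_eq_mul]
    have hs : (0 : ℝ) < √(2 ^ r) := by positivity
    have h3 : √(2 ^ r) * √(2 ^ r) = (2 : ℝ) ^ r := Real.mul_self_sqrt (by positivity)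
    push_cast
    rw [pow_succ]
    field_simp
    rw [sq, h3]
    ring

theorem mean_amp (K M : ℕ) {r : ℕ} (a : BV r) :
    ∑ z : Fin (K + 1) × BV r → Bool, nu K M (fun y => chi a y / 2) z * amp z a
      = 2 ^ r / 2 * (cc M r * √(2 ^ r)) ^ K := by
  simp only [nu, ← avg_mul_const]
  rw [← avg_sum]
  simp only [sum_amp]
  have e2 : ∀ ω : Om (BV r → Fin (M + 1)) K,
      vv (lay (fld K ω (topF (K := K) fun y => chi a y / 2))) (K + 1) a
      = ∑ x, 1 / 2 * (lf K ω x * vv (lay (fld K ω (topF (K := K) fun y => chi a y / 2))) K x) := by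
    intro ω
    simp only [vv]
    refine Finset.sum_congr rfl fun x _ => ?_
    rw [lay, dif_pos (Nat.lt_succ_self K), fld_eq K ω _ _ rfl, topF, if_pos rfl]
    have := chi_mul_self a x
    linear_combination
      (1 / 2 * (lf K ω x * vv (lay (fld K ω (topF (K := K) fun y => chi a y / 2))) K x)) * this
  simp only [e2]
  rw [avg_sum]
  simp only [avg_const_mul, avg_lf K le_rfl, Finset.sum_const, Finset.card_univ, card_BV,
    nsmul_eq_mul]
  push_cast
  ring

/-! The constant -/

theorem moments {A : Type} [Fintype A] (g : A → ℝ) {s : ℝ} (h1 : ∑ a, g a = 0)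
    (h2 : ∑ a, g a ^ 2 = s * Fintype.card A) (h4 : ∑ a, g a ^ 4 ≤ s * Fintype.card A)
    (hs0 : 0 ≤ s) (hs1 : s ≤ 1) (k : ℕ) :
    ∑ w : Fin k → A, (∑ i, g (w i)) = 0 ∧
    ∑ w : Fin k → A, (∑ i, g (w i)) ^ 2 = k * s * (Fintype.card A : ℝ) ^ k ∧
    ∑ w : Fin k → A, (∑ i, g (w i)) ^ 4 ≤ 3 * k ^ 2 * s * (Fintype.card A : ℝ) ^ k := by
  induction k with
  | zero => simp
  | succ k ih =>
    obtain ⟨i1, i2, i4⟩ := ih
    have hsplit : ∀ F : ℝ → ℝ, ∑ w : Fin (k + 1) → A, F (∑ i, g (w i))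
        = ∑ a, ∑ w : Fin k → A, F (g a + ∑ i, g (w i)) := by
      intro F
      rw [← (Fin.consEquiv fun _ : Fin (k + 1) => A).sum_comp, Fintype.sum_prod_type]
      simp [Fin.consEquiv, Fin.sum_univ_succ]
    set N : ℝ := (Fintype.card A : ℝ) with hN
    have hN0 : 0 ≤ N := Nat.cast_nonneg _
    have hc : ((Finset.univ : Finset (Fin k → A)).card : ℝ) = N ^ k := by simp [hN]
    have hc' : ((Finset.univ : Finset A).card : ℝ) = N := by simp [hN]
    refine ⟨?_, ?_, ?_⟩
    · rw [hsplit fun t => t]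
      simp only [Finset.sum_add_distrib, Finset.sum_const, nsmul_eq_mul, i1, ← Finset.mul_sum, h1]
      simp
    · rw [hsplit fun t => t ^ 2]
      simp only [add_sq, Finset.sum_add_distrib, Finset.sum_const, nsmul_eq_mul, i1, i2,
        ← Finset.mul_sum, h2, hc, hc', mul_zero]
      push_cast
      ring
    · rw [hsplit fun t => t ^ 4]
      have e : ∀ u v : ℝ, (u + v) ^ 4
          = u ^ 4 + u ^ 3 * (4 * v) + u ^ 2 * (6 * v ^ 2) + u * (4 * v ^ 3) + v ^ 4 := fun u v => by
        ring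
      simp only [e, Finset.sum_add_distrib, Finset.sum_const, nsmul_eq_mul, i1, i2,
        ← Finset.mul_sum, ← Finset.sum_mul, h1, h2, hc, hc', mul_zero, zero_mul, add_zero]
      have hNk : 0 ≤ N ^ k := by positivity
      have a1 := mul_le_mul_of_nonneg_left h4 hNk
      have a2 := mul_le_mul_of_nonneg_left i4 hN0
      have a3 : 0 ≤ (k : ℝ) * s * (1 - s) * (N * N ^ k) := by
        have : 0 ≤ 1 - s := by linarith
        positivity
      have a4 : 0 ≤ s * (N * N ^ k) := by positivity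
      push_cast
      rw [pow_succ N k]
      nlinarith

theorem sum_range_sq (M : ℝ) (k : ℕ) : ∑ m ∈ range k, (2 * (m : ℝ) - M) ^ 2
    = 2 * (k - 1) * k * (2 * k - 1) / 3 - 2 * M * k * (k - 1) + k * M ^ 2 := by
  induction k with
  | zero => simp
  | succ k ih => rw [Finset.sum_range_succ, ih]; push_cast; ring

theorem abs_grid_le {M : ℕ} (hM : 1 ≤ M) (m : Fin (M + 1)) : grid m ^ 2 ≤ 1 := by
  have h : ((m : ℕ) : ℝ) ≤ M := Nat.cast_le.2 (Nat.lt_succ_iff.1 m.2)
  have h0 : (0 : ℝ) ≤ (m : ℕ) := Nat.cast_nonneg _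
  have hM' : (0 : ℝ) < M := Nat.cast_pos.2 hM
  rw [grid, div_pow, div_le_one (by positivity)]
  nlinarith

theorem sum_grid (M : ℕ) : ∑ m : Fin (M + 1), grid m = 0 := by
  have h := Equiv.sum_comp (Fin.revPerm (n := M + 1)) fun m => grid m
  simp only [Fin.revPerm_apply, grid_rev, Finset.sum_neg_distrib] at h
  linarith

theorem sum_grid_sq {M : ℕ} (hM : 1 ≤ M) :
    ∑ m : Fin (M + 1), grid m ^ 2 = (M + 2) / (3 * M) * Fintype.card (Fin (M + 1)) := by
  have hM' : (0 : ℝ) < M := Nat.cast_pos.2 hM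
  simp only [grid, div_pow, ← Finset.sum_div]
  rw [Fin.sum_univ_eq_sum_range (fun m => (2 * (m : ℝ) - M) ^ 2), sum_range_sq, Fintype.card_fin]
  push_cast
  field_simp
  ring

theorem mul_clip_ge (s : ℝ) : s ^ 2 / 12 - s ^ 4 / 432 ≤ s * clip s := by
  unfold clip
  rcases le_total s 6 with h | h
  · rw [min_eq_right (by linarith)]
    rcases le_total (-6) s with h' | h'
    · rw [max_eq_right (by linarith)]
      nlinarith [sq_nonneg (s ^ 2)]
    · rw [max_eq_left (by linarith)]
      have : 36 ≤ s ^ 2 := by nlinarith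
      nlinarith
  · rw [min_eq_left (by linarith), max_eq_right (by norm_num)]
    have : 36 ≤ s ^ 2 := by nlinarith
    nlinarith

theorem cc_ge {M : ℕ} (hM : 1 ≤ M) (r : ℕ) : 1 / 72 ≤ cc M r := by
  have hM' : (1 : ℝ) ≤ M := Nat.one_le_cast.2 hM
  set s : ℝ := (M + 2) / (3 * M) with hs
  have hs0 : 1 / 3 ≤ s := by rw [hs, le_div_iff₀ (by positivity)]; linarith
  have hs1 : s ≤ 1 := by rw [hs, div_le_one (by positivity)]; linarith
  have h4 : ∑ m : Fin (M + 1), grid m ^ 4 ≤ s * Fintype.card (Fin (M + 1)) := by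
    rw [← sum_grid_sq hM]
    refine Finset.sum_le_sum fun m _ => ?_
    nlinarith [abs_grid_le hM m, sq_nonneg (grid m)]
  obtain ⟨-, i2, i4⟩ := moments (fun m : Fin (M + 1) => grid m) (sum_grid M) (sum_grid_sq hM) h4
    (by linarith) hs1 (2 ^ r)
  rw [← hs] at i2 i4
  let e : BV r ≃ Fin (2 ^ r) := Fintype.equivFinOfCardEq (card_BV r)
  have htr : ∀ F : ℝ → ℝ, ∑ w : BV r → Fin (M + 1), F (∑ y, grid (w y))
      = ∑ w : Fin (2 ^ r) → Fin (M + 1), F (∑ i, grid (w i)) := by
    intro F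
    refine Fintype.sum_equiv (e.arrowCongr (Equiv.refl _)) _ _ fun w => ?_
    simp only [Equiv.arrowCongr_apply, Equiv.coe_refl, Function.comp, id]
    rw [Equiv.sum_comp e.symm fun y => grid (w y)]
  rw [← htr fun t => t ^ 2] at i2
  rw [← htr fun t => t ^ 4] at i4
  set N : ℝ := (Fintype.card (Fin (M + 1)) : ℝ) ^ 2 ^ r with hN
  have hN0 : 0 < N := by rw [hN, Fintype.card_fin]; positivity
  have hc : (Fintype.card (BV r → Fin (M + 1)) : ℝ) = N := by
    rw [Fintype.card_fun, card_BV, Nat.cast_pow]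
  have h3 : √(2 ^ r) ^ 2 = (2 : ℝ) ^ r := Real.sq_sqrt (by positivity)
  have h5 : √(2 ^ r) ^ 4 = ((2 : ℝ) ^ r) ^ 2 := by rw [← h3, Real.sqrt_sq (by positivity)]; ring
  have j2 : ∑ w : BV r → Fin (M + 1), sm w ^ 2 = s * N := by
    simp only [sm, div_pow, ← Finset.sum_div, i2, h3]
    push_cast
    field_simp
  have j4 : ∑ w : BV r → Fin (M + 1), sm w ^ 4 ≤ 3 * s * N := by
    simp only [sm, div_pow, ← Finset.sum_div, h5]
    rw [div_le_iff₀ (by positivity)]
    push_cast at i4
    linarith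
  have key := Finset.sum_le_sum (s := (univ : Finset (BV r → Fin (M + 1))))
    fun w _ => mul_clip_ge (sm w)
  rw [Finset.sum_sub_distrib, ← Finset.sum_div, ← Finset.sum_div, j2] at key
  rw [cc, avg, hc, le_div_iff₀ hN0]
  nlinarith

end FMean

open FMean in
theorem nu_good (K M : ℕ) (hM : 1 ≤ M) {r : ℕ} (a : BV r) :
    1 / (4 * 72 ^ K) ≤ ∑ z : Fin (K + 1) × BV r → Bool,
      if goodAmp a z = true then nu K M (fun y => chi a y / 2) z else 0 := by
  have hnn : ∀ z, 0 ≤ nu K M (fun y => chi a y / 2) z :=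
    nu_nonneg K M fun x => by rw [abs_div, abs_chi, abs_two]
  set t : ℝ := 1 / (4 * 72 ^ K) with ht
  set B : ℝ := √(2 ^ r) ^ (K + 2) with hB
  have hs : (0 : ℝ) < √(2 ^ r) := by positivity
  have h3 : √(2 ^ r) ^ 2 = (2 : ℝ) ^ r := Real.sq_sqrt (by positivity)
  have hB0 : 0 < B := by positivity
  have ht0 : 0 < t := by positivity
  have hB2 : B ^ 2 = ((2 : ℝ) ^ r) ^ (K + 2) := by rw [hB, ← pow_mul, mul_comm, pow_mul, h3]
  have hkd : (kd K : ℝ) * t ^ 2 = 1 := by
    rw [kd, ht, mul_comm 2 K]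
    push_cast
    rw [pow_mul]
    field_simp
    norm_num
  have hmean : 2 * t * B ≤ ∑ z : Fin (K + 1) × BV r → Bool,
      nu K M (fun y => chi a y / 2) z * amp z a := by
    rw [mean_amp, mul_pow]
    have h1 : (1 / 72 : ℝ) ^ K ≤ cc M r ^ K := pow_le_pow_left₀ (by norm_num) (cc_ge hM r) K
    calc 2 * t * B = 2 ^ r / 2 * ((1 / 72) ^ K * √(2 ^ r) ^ K) := by
          rw [hB, pow_add, h3, ht, one_div_pow]
          field_simp
          norm_num
      _ ≤ _ := by gcongr
  have hpt : ∀ z : Fin (K + 1) × BV r → Bool, nu K M (fun y => chi a y / 2) z * amp z a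
      ≤ t * B * nu K M (fun y => chi a y / 2) z
        + B * (if goodAmp a z = true then nu K M (fun y => chi a y / 2) z else 0) := by
    intro z
    have h0 := hnn z
    split_ifs with hg
    · have h1 : amp z a ^ 2 ≤ B ^ 2 := by
        rw [hB2, ← sum_sq_amp z]
        exact Finset.single_le_sum (f := fun a => amp z a ^ 2) (fun _ _ => sq_nonneg _)
          (Finset.mem_univ a)
      have h2 := (abs_le_of_sq_le_sq' h1 hB0.le).2
      have h4 := mul_le_mul_of_nonneg_left h2 h0
      have h5 : 0 ≤ t * B * nu K M (fun y => chi a y / 2) z := by positivity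
      linarith
    · have h1 : (kd K : ℝ) * amp z a ^ 2 < B ^ 2 := by
        rw [hB2]
        simpa [goodAmp] using hg
      have h2 : amp z a ^ 2 ≤ (t * B) ^ 2 := by
        have h6 := mul_le_mul_of_nonneg_left h1.le (sq_nonneg t)
        calc amp z a ^ 2 = (kd K * t ^ 2) * amp z a ^ 2 := by rw [hkd, one_mul]
          _ = t ^ 2 * (kd K * amp z a ^ 2) := by ring
          _ ≤ t ^ 2 * B ^ 2 := h6
          _ = (t * B) ^ 2 := by ring
      have h4 := mul_le_mul_of_nonneg_left (abs_le_of_sq_le_sq' h2 (by positivity)).2 h0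
      linarith
  have key := hmean.trans (Finset.sum_le_sum fun z _ => hpt z)
  rw [Finset.sum_add_distrib, ← Finset.mul_sum, ← Finset.mul_sum, nu_sum] at key
  refine le_of_mul_le_mul_left ?_ hB0
  linarith

end Vale.Agent.P362
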