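import Vale.Agent.P362.FnDefs

/-! Soundness and completeness of the local checks. -/

namespace Vale.Agent.P362

variable {K r : ℕ}

namespace FnCert

/-- the butterfly network -/
noncomputable def bf (u : BV r → ℝ) : ℕ → BV r → ℝ
  | 0 => u
  | t + 1 => fun y => if h : t < r then bf u t (Function.update y ⟨t, h⟩ false) +
      sgR (y ⟨t, h⟩) * bf u t (Function.update y ⟨t, h⟩ true) else bf u t y

/-- the kernel of the first `t` stages -/
def kappa (t : ℕ) (x y : BV r) : ℝ :=
  ∏ s : Fin r, if (s : ℕ) < t then sgR (x s && y s) else if x s = y s then 1 else 0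

theorem kappa_succ (t : Fin r) (x y : BV r) :
    kappa (t + 1) x y = kappa t (Function.update x t false) y +
      sgR (x t) * kappa t (Function.update x t true) y := by
  have key : ∀ b, kappa t (Function.update x t b) y = (if b = y t then 1 else 0) *
      ∏ s ∈ Finset.univ.erase t,
        if (s : ℕ) < t + 1 then sgR (x s && y s) else if x s = y s then 1 else 0 := by
    intro b
    unfold kappa
    rw [← Finset.mul_prod_erase _ _ (Finset.mem_univ t)]
    congr 1
    · simp
    · refine Finset.prod_congr rfl fun s hs => ?_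
      have hst : s ≠ t := Finset.ne_of_mem_erase hs
      have h1 : (s : ℕ) ≠ t := fun h => hst (Fin.ext h)
      have h2 : ((s : ℕ) < t + 1) ↔ (s : ℕ) < t := by omega
      simp only [Function.update_of_ne hst, h2]
  rw [key, key, ← mul_assoc, ← add_mul]
  unfold kappa
  rw [← Finset.mul_prod_erase _ _ (Finset.mem_univ t)]
  congr 1
  cases x t <;> cases y t <;> simp [sgR]

theorem bf_eq (u : BV r → ℝ) (t : ℕ) (ht : t ≤ r) (x : BV r) :
    bf u t x = ∑ y, kappa t x y * u y := by
  induction t generalizing x with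
  | zero =>
    rw [Finset.sum_eq_single x]
    · simp [bf, kappa]
    · intro y _ hy
      obtain ⟨s, hs⟩ := Function.ne_iff.1 hy
      rw [kappa, Finset.prod_eq_zero (Finset.mem_univ s) (by simp [hs.symm]), zero_mul]
    · simp
  | succ t ih =>
    have h : t < r := ht
    simp only [bf, dif_pos h, ih h.le, Finset.mul_sum, ← Finset.sum_add_distrib]
    refine Finset.sum_congr rfl fun y _ => ?_
    rw [kappa_succ ⟨t, h⟩]
    ring

theorem bf_last (u : BV r → ℝ) (x : BV r) : bf u r x = ∑ y, chi x y * u y := by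
  rw [bf_eq u r le_rfl]
  simp [kappa, chi]

/-- an integer of bounded size -/
def IntB (M : ℕ) (v : ℝ) : Prop := ∃ n : ℤ, v = n ∧ |n| ≤ 2 ^ M

theorem IntB.sg {M : ℕ} {v : ℝ} (h : IntB M v) (b : Bool) : IntB M (sgR b * v) := by
  obtain ⟨n, rfl, hn⟩ := h
  cases b
  · exact ⟨n, by simp [sgR], hn⟩
  · exact ⟨-n, by simp [sgR], by rwa [abs_neg]⟩

theorem IntB.add {M : ℕ} {v w : ℝ} (h : IntB M v) (h' : IntB M w) : IntB (M + 1) (v + w) := by
  obtain ⟨n, rfl, hn⟩ := h
  obtain ⟨n', rfl, hn'⟩ := h'
  refine ⟨n + n', by simp, (abs_add_le _ _).trans ?_⟩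
  rw [pow_succ]
  omega

theorem IntB.mono {M M' : ℕ} {v : ℝ} (h : IntB M v) (hM : M ≤ M') : IntB M' v := by
  obtain ⟨n, rfl, hn⟩ := h
  exact ⟨n, rfl, hn.trans (pow_le_pow_right₀ (by norm_num) hM)⟩

theorem intB_bf {M : ℕ} {u : BV r → ℝ} (hu : ∀ y, IntB M (u y)) (t : ℕ) (y : BV r) :
    IntB (M + t) (bf u t y) := by
  induction t generalizing y with
  | zero => exact hu y
  | succ t ih =>
    simp only [bf]
    split_ifs with h
    · exact (ih _).add ((ih _).sg _)
    · exact (ih y).mono (by omega)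

theorem intB_lay (z : Fin (K + 1) × BV r → Bool) {M : ℕ} {v : ℝ} (h : IntB M v) (j : ℕ)
    (y : BV r) : IntB M (lay (fun p => sgR (z p)) j y * v) := by
  unfold lay
  split_ifs
  · exact h.sg _
  · rwa [one_mul]

theorem intB_vv (z : Fin (K + 1) × BV r → Bool) (j : ℕ) (y : BV r) :
    IntB (r * j) (vv (lay fun p => sgR (z p)) j y) := by
  induction j generalizing y with
  | zero => exact ⟨1, by simp [vv], by simp⟩
  | succ j ih =>
    simp only [vv]
    rw [← bf_last]
    exact intB_bf (fun y => intB_lay z (ih y) j y) r y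

theorem IntB.exists_dec {M : ℕ} {v : ℝ} (h : IntB M v) :
    ∃ w : Fin (M + 2) → Bool, ((dec w : ℤ) : ℝ) = v := by
  obtain ⟨n, rfl, hn⟩ := h
  have h1 := abs_le.1 hn
  have h2 : (0 : ℤ) < 2 ^ M := by positivity
  have h3 : (2 : ℤ) ^ (M + 1) = 2 * 2 ^ M := by ring
  have h4 : ((2 ^ (M + 2) : ℕ) : ℤ) = 4 * 2 ^ M := by push_cast; ring
  refine ⟨(Fintype.equivFinOfCardEq (card_BV (M + 2))).symm
    ⟨(n + 2 ^ (M + 1)).toNat, by omega⟩, ?_⟩
  congr 1
  simp only [dec, Equiv.apply_symm_apply, Nat.add_succ_sub_one]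
  omega

/-- the intended table -/
noncomputable def tb (z : Fin (K + 1) × BV r → Bool) (j t : ℕ) (y : BV r) : ℝ :=
  bf (fun y => lay (fun p => sgR (z p)) j y * vv (lay fun p => sgR (z p)) j y) t y

theorem tb_last (z : Fin (K + 1) × BV r → Bool) (j : ℕ) (y : BV r) :
    tb z j r y = vv (lay fun p => sgR (z p)) (j + 1) y := bf_last _ _

theorem exists_bits (z : Fin (K + 1) × BV r → Bool) (j : Fin (K + 1)) (t : Fin (r + 1))
    (y : BV r) : ∃ w : Fin (nb K r) → Bool, ((dec w : ℤ) : ℝ) = tb z j t y := by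
  refine IntB.exists_dec (M := r * (K + 1))
    ((intB_bf (fun y => intB_lay z (intB_vv z j y) j y) t y).mono ?_)
  have h1 : r * j ≤ r * K := Nat.mul_le_mul_left _ (by omega)
  have h2 := t.2
  rw [Nat.mul_succ]
  omega

end FnCert

open FnCert

theorem goodAmp_of_chk {x : Idx K r → Bool} {c : BV r × BV r} (h : ∀ m, chk c m x = true) :
    goodAmp c.2 (fun k => x (c.1, .inl k)) = true := by
  have h1 : ∀ (j : Fin (K + 1)) (t : Fin (r + 1)) (y : BV r),
      tab x c j t y = bf (tab x c j 0) t y := by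
    intro j t
    induction t using Fin.induction with
    | zero => intro y; rfl
    | succ t ih =>
      intro y
      have h2 := h (.inr (.inr (.inr (.inl (j, t, y)))))
      simp only [chk, decide_eq_true_eq] at h2
      rw [h2, ih, ih]
      simp only [Fin.val_succ, bf, dif_pos t.2, Fin.val_castSucc]
  have h3 : ∀ (j : ℕ) (hj : j < K + 1) (y : BV r), tab x c ⟨j, hj⟩ (Fin.last r) y =
      vv (lay fun p => sgR (x (c.1, .inl p))) (j + 1) y := by
    intro j
    induction j using Nat.strong_induction_on with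
    | _ j ih =>
      intro hj y
      rw [h1, Fin.val_last, bf_last, vv]
      refine Finset.sum_congr rfl fun y' _ => ?_
      have h2 := h (.inr (.inr (.inl (⟨j, hj⟩, y'))))
      simp only [chk, decide_eq_true_eq] at h2
      rw [h2, lay, dif_pos hj]
      congr 2
      unfold prev
      rcases j with _ | j
      · simp [vv]
      · rw [dif_neg (by simp)]
        exact ih j (by omega) _ y'
  have h4 := h (.inr (.inr (.inr (.inr ()))))
  simp only [chk, decide_eq_true_eq] at h4
  simp only [goodAmp, decide_eq_true_eq]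
  rw [amp, ← h3 K (by omega)]
  exact h4

theorem sepF_zero (x : Idx K r → Bool)
    (h : ∀ i, ∃ p, x (i, .inr (.inl p)) = false) : sepF K r x = false := by
  simp only [sepF, decide_eq_false_iff_not]
  rintro ⟨c, hc⟩
  obtain ⟨p, hp⟩ := h c.1
  have h1 := hc (.inl p)
  simp only [chk, col] at h1
  rw [hp] at h1
  exact Bool.false_ne_true h1

theorem sepF_one (K r : ℕ) :
    ∃ cert : (Fin (K + 1) × BV r → Bool) → (BV r → BV r) → Cell K r → Bool,
      ∀ (x : Idx K r → Bool) (i a : BV r) (p : BV r → BV r),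
        goodAmp a (fun k => x (i, .inl k)) = true → (∀ y, x (i, .inr (.inl y)) = true) →
        (∀ i', i' ≠ i → x (i', .inr (.inl (p i'))) = false) →
        (∀ c, x (i, .inr (.inr (a, c))) = cert (fun k => x (i, .inl k)) p c) →
        sepF K r x = true := by
  choose w hw using exists_bits (K := K) (r := r)
  refine ⟨fun z p c => Sum.elim (fun q => w z q.1 q.2.1 q.2.2.1 q.2.2.2) (fun q => p q.1 q.2) c,
    fun x i a p hg h1 h2 h3 => ?_⟩
  have ht : ∀ j t y, tab x (i, a) j t y = tb (fun k => x (i, .inl k)) j t y := by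
    intro j t y
    rw [← hw]
    simp only [tab, h3, Sum.elim_inl]
  have hp : ∀ i', ptr x (i, a) i' = p i' := by
    intro i'
    funext s
    simp only [ptr, h3, Sum.elim_inr]
  simp only [sepF, decide_eq_true_eq]
  refine ⟨(i, a), ?_⟩
  rintro (y | i' | ⟨j, y⟩ | ⟨j, t, y⟩ | u)
  · exact h1 y
  · simp only [chk, hp, col]
    by_cases h : i' = i
    · simp [h]
    · simp [h2 i' h]
  · simp only [chk, decide_eq_true_eq, ht]
    simp only [tb, Fin.val_zero, bf]
    rw [lay, dif_pos j.2]
    congr 1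
    unfold prev
    obtain ⟨_ | j, hj⟩ := j
    · simp [vv]
    · rw [dif_neg (by simp), ht, Fin.val_last, tb_last]
      rfl
  · simp only [chk, decide_eq_true_eq, ht]
    simp only [tb, Fin.val_succ, bf, dif_pos t.2, Fin.val_castSucc]
  · simp only [chk, decide_eq_true_eq, ht, Fin.val_last, tb_last]
    exact of_decide_eq_true hg

end Vale.Agent.P362
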