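import Vale.Agent.P362.Walsh

/-! The separating function: definitions. -/

namespace Vale.Agent.P362

/-- The number of bits of a table entry. -/
def nb (K r : ℕ) : ℕ := r * (K + 1) + 2

/-- The positions inside a cell: a table of integers and a list of pointers. -/
abbrev Cell (K r : ℕ) : Type :=
  (Fin (K + 1) × Fin (r + 1) × BV r × Fin (nb K r)) ⊕ (BV r × Fin r)

/-- The input positions: for every block an instance, a column and an array of cells. -/
abbrev Idx (K r : ℕ) : Type := BV r × ((Fin (K + 1) × BV r) ⊕ BV r ⊕ BV r × Cell K r)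

/-- The integer written by a string of `B` bits. -/
noncomputable def dec {B : ℕ} (w : Fin B → Bool) : ℤ :=
  ((Fintype.equivFinOfCardEq (card_BV B) w : ℕ) : ℤ) - 2 ^ (B - 1)

variable {K r : ℕ}

/-- The table entry `(j, t, y)` of the cell `c`. -/
noncomputable def tab (x : Idx K r → Bool) (c : BV r × BV r) (j : Fin (K + 1)) (t : Fin (r + 1))
    (y : BV r) : ℝ :=
  (dec fun s => x (c.1, .inr (.inr (c.2, .inl (j, t, y, s)))) : ℤ)

/-- The pointer of the cell `c` into the column `i`. -/
def ptr (x : Idx K r → Bool) (c : BV r × BV r) (i : BV r) : BV r :=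
  fun s => x (c.1, .inr (.inr (c.2, .inr (i, s))))

/-- The bit `y` of the column `i`. -/
def col (x : Idx K r → Bool) (i y : BV r) : Bool := x (i, .inr (.inl y))

/-- The table entry that feeds the layer `j`. -/
noncomputable def prev (x : Idx K r → Bool) (c : BV r × BV r) (j : Fin (K + 1)) (y : BV r) : ℝ :=
  if h : (j : ℕ) = 0 then 1 else tab x c ⟨j - 1, by omega⟩ (Fin.last r) y

/-- The local checks. -/
abbrev Chk (K r : ℕ) : Type :=
  BV r ⊕ BV r ⊕ (Fin (K + 1) × BV r) ⊕ (Fin (K + 1) × Fin r × BV r) ⊕ Unit

/-- The outcome of a local check of the cell `c`. -/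
noncomputable def chk (c : BV r × BV r) : Chk K r → (Idx K r → Bool) → Bool
  | .inl y, x => col x c.1 y
  | .inr (.inl i), x => decide (i = c.1) || !col x i (ptr x c i)
  | .inr (.inr (.inl (j, y))), x =>
      decide (tab x c j 0 y = sgR (x (c.1, .inl (j, y))) * prev x c j y)
  | .inr (.inr (.inr (.inl (j, t, y)))), x =>
      decide (tab x c j t.succ y = tab x c j t.castSucc (Function.update y t false) +
        sgR (y t) * tab x c j t.castSucc (Function.update y t true))
  | .inr (.inr (.inr (.inr _))), x =>
      decide (((2 : ℝ) ^ r) ^ (K + 2) ≤ kd K * tab x c (Fin.last K) (Fin.last r) c.2 ^ 2)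

/-- The separating function. -/
noncomputable def sepF (K r : ℕ) (x : Idx K r → Bool) : Bool :=
  decide (∃ c : BV r × BV r, ∀ m : Chk K r, chk c m x = true)

end Vale.Agent.P362
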