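import Vale.Agent.P362.QAmp

/-! The tournament algorithm. -/

namespace Vale.Agent.P362

open Matrix

theorem qalg_pow_mul_le {t : ℝ} (h0 : 0 ≤ t) (h1 : t ≤ 1) (n : ℕ) :
    (1 - t) ^ n * (1 + n * t) ≤ 1 := by
  have h2 : 1 + n * t ≤ (1 + t) ^ n := one_add_mul_le_pow (by linarith) n
  have h3 : 0 ≤ (1 - t) ^ n := pow_nonneg (by linarith) n
  calc (1 - t) ^ n * (1 + n * t) ≤ (1 - t) ^ n * (1 + t) ^ n := mul_le_mul_of_nonneg_left h2 h3
    _ = ((1 - t) * (1 + t)) ^ n := (mul_pow _ _ _).symm
    _ ≤ 1 := pow_le_one₀ (by nlinarith) (by nlinarith)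

theorem qalg_const {ι A : Type} {T : ℕ} {E : (ι → Bool) → (A → ℝ) → ℝ} (h : QE T E)
    (x : ι → Bool) (d : ℝ) : E x (fun _ => d) = d := by
  have := h.lin x (fun _ => 0) 0 d
  simpa using this

theorem qalg_not {ι : Type} {T : ℕ} {E : (ι → Bool) → (Bool → ℝ) → ℝ} (h : QE T E)
    (x : ι → Bool) :
    E x (fun b => if (!b) = true then 1 else 0) = 1 - E x (fun b => if b = true then 1 else 0) := by
  have h1 := h.lin x (fun b => if b = true then 1 else 0) (-1) 1
  have h2 : (fun b : Bool => if (!b) = true then (1 : ℝ) else 0)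
      = fun b => -1 * (if b = true then 1 else 0) + 1 := by
    funext b
    cases b <;> simp
  rw [h2, h1]
  ring

theorem qalg_nonneg {ι : Type} {T : ℕ} {E : (ι → Bool) → (Bool → ℝ) → ℝ} (h : QE T E)
    (x : ι → Bool) : 0 ≤ E x (fun b => if b = true then 1 else 0) := by
  refine le_trans (qalg_const h x 0).ge (h.le x fun b => ?_)
  split_ifs <;> norm_num

theorem qalg_le_one {ι : Type} {T : ℕ} {E : (ι → Bool) → (Bool → ℝ) → ℝ} (h : QE T E)
    (x : ι → Bool) : E x (fun b => if b = true then 1 else 0) ≤ 1 := by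
  refine le_trans (h.le x (g' := fun _ => 1) fun b => ?_) (qalg_const h x 1).le
  split_ifs <;> norm_num

/-- The pair-counting inequality of a tournament. -/
theorem qalg_pairs {S Cl : Type} [Fintype S] [DecidableEq Cl] (w : S → ℝ) (hw : ∀ s, 0 ≤ w s)
    (cls : S → Cl) (b : S → S → Bool) (good : S → Bool) (ω : ℝ)
    (h₁ : ∀ c π, cls c ≠ cls π → b c π = true → b π c = false)
    (h₂ : ∀ k, (∑ c, if cls c = k then w c else 0) ≤ ω) :
    2 * (∑ π, if good π = true then w π * ∑ c, (if (b c π && good c) = true then w c else 0) else 0)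
      ≤ (∑ s, if good s = true then w s else 0) ^ 2
        + ω * ∑ s, if good s = true then w s else 0 := by
  set v : S → ℝ := fun s => if good s = true then w s else 0 with hv
  have hv0 : ∀ s, 0 ≤ v s := fun s => by
    simp only [hv]
    split_ifs
    · exact hw s
    · exact le_rfl
  have hvw : ∀ s, v s ≤ w s := fun s => by
    simp only [hv]
    split_ifs
    · exact le_rfl
    · exact hw s
  have e1 : (∑ π, if good π = true then w π * ∑ c, (if (b c π && good c) = true then w c else 0)
      else 0) = ∑ π, ∑ c, v π * v c * (if b c π = true then 1 else 0) := by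
    refine Finset.sum_congr rfl fun π _ => ?_
    by_cases hπ : good π = true
    · rw [if_pos hπ, Finset.mul_sum]
      refine Finset.sum_congr rfl fun c _ => ?_
      by_cases hc : good c = true <;> by_cases hb : b c π = true <;> simp [hv, hπ, hc, hb]
    · simp [hv, hπ]
  have e2 : ∑ π, ∑ c, v π * v c * (if b c π = true then 1 else 0)
      = ∑ π, ∑ c, v π * v c * (if b π c = true then 1 else 0) := by
    rw [Finset.sum_comm]
    refine Finset.sum_congr rfl fun π _ => Finset.sum_congr rfl fun c _ => ?_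
    ring
  have e3 : (∑ s, v s) ^ 2 = ∑ π, ∑ c, v π * v c := by
    rw [sq, Finset.sum_mul_sum]
  have e4 : ∑ π, ∑ c, v π * v c * (if cls c = cls π then 1 else 0) ≤ ω * ∑ s, v s := by
    rw [Finset.mul_sum]
    refine Finset.sum_le_sum fun π _ => ?_
    have h3 : ∑ c, v π * v c * (if cls c = cls π then 1 else 0)
        = v π * ∑ c, v c * (if cls c = cls π then 1 else 0) := by
      rw [Finset.mul_sum]
      exact Finset.sum_congr rfl fun c _ => by ring
    have h4 : ∑ c, v c * (if cls c = cls π then 1 else 0) ≤ ω := by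
      refine le_trans (Finset.sum_le_sum fun c _ => ?_) (h₂ (cls π))
      split_ifs
      · simpa using hvw c
      · simp
    rw [h3, mul_comm]
    exact mul_le_mul_of_nonneg_right h4 (hv0 π)
  have e5 : ∑ π, ∑ c, v π * v c * (if b c π = true then 1 else 0)
      + ∑ π, ∑ c, v π * v c * (if b π c = true then 1 else 0)
      ≤ ∑ π, ∑ c, v π * v c + ∑ π, ∑ c, v π * v c * (if cls c = cls π then 1 else 0) := by
    rw [← Finset.sum_add_distrib, ← Finset.sum_add_distrib]
    refine Finset.sum_le_sum fun π _ => ?_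
    rw [← Finset.sum_add_distrib, ← Finset.sum_add_distrib]
    refine Finset.sum_le_sum fun c _ => ?_
    have h0 : 0 ≤ v π * v c := mul_nonneg (hv0 π) (hv0 c)
    by_cases hk : cls c = cls π
    · rw [if_pos hk]
      split_ifs <;> nlinarith
    · rw [if_neg hk]
      by_cases hb : b c π = true
      · have := h₁ c π hk hb
        simp [hb, this]
      · rw [if_neg hb]
        split_ifs <;> nlinarith
  rw [e1, e3]
  linarith

/-- The weight of the candidates beating all pivots of a list. -/
noncomputable def qalgW {S : Type} [Fintype S] (w : S → ℝ) (b : S → S → Bool) (l : List S) : ℝ :=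
  ∑ s, if (l.all fun π => b s π) = true then w s else 0

theorem qalgW_cons_le {S : Type} [Fintype S] (w : S → ℝ) (hw : ∀ s, 0 ≤ w s) (b : S → S → Bool)
    (π : S) (l : List S) : qalgW w b (π :: l) ≤ qalgW w b l := by
  refine Finset.sum_le_sum fun s _ => ?_
  rw [List.all_cons]
  by_cases h : (l.all fun π => b s π) = true
  · rw [if_pos h]
    split_ifs
    · exact le_rfl
    · exact hw s
  · simp [h]

theorem qalgW_ge {S : Type} [Fintype S] (w : S → ℝ) (hw : ∀ s, 0 ≤ w s) (b : S → S → Bool)
    (c : S) (hc : ∀ π, b c π = true) (l : List S) : w c ≤ qalgW w b l := by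
  have h1 : (l.all fun π => b c π) = true := List.all_eq_true.2 fun π _ => hc π
  have h2 := Finset.single_le_sum (f := fun s => if (l.all fun π => b s π) = true then w s else 0)
    (s := Finset.univ) (fun s _ => by
      split_ifs
      · exact hw s
      · exact le_rfl) (Finset.mem_univ c)
  simp only [h1, if_true] at h2
  exact h2

/-- The search phase: a candidate beating everybody is found with probability `1 / (16 K)`. -/
theorem qalg_find {ι S Cl : Type} [Fintype S] [DecidableEq S] [DecidableEq Cl]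
    {TA D₁ T₁ L K : ℕ} {A : (ι → Bool) → Matrix S S ℝ} (hA : Circ TA A) (s₀ : S)
    (cls : S → Cl) (beat : S → S → (ι → Bool) → Bool) (hbeat : ∀ c π, DT D₁ (beat c π))
    (ω : ℝ) (hK : 1 ≤ K) (hL : 1 ≤ 2 ^ L * ω) (hT₁ : (K : ℝ) ≤ (T₁ : ℝ) ^ 2 * ω)
    (h₁ : ∀ x c π, cls c ≠ cls π → beat c π x = true → beat π c x = false)
    (h₂ : ∀ x k, (∑ c, if cls c = k then A x c s₀ ^ 2 else 0) ≤ ω) :
    ∃ E : (ι → Bool) → (S → ℝ) → ℝ,
      QE ((11 * L + 1) * (TA + T₁ * (2 * TA + 2 * (11 * L * D₁)))) E ∧
      ∀ x c, (∀ π, beat c π x = true) → ω ≤ K * A x c s₀ ^ 2 →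
        1 / (16 * K) ≤ E x (fun s => if s = c then 1 else 0) := by
  have hK' : (1 : ℝ) ≤ K := by exact_mod_cast hK
  have hω : 0 < ω := by
    by_contra h
    have h2 : (0 : ℝ) < 2 ^ L := by positivity
    nlinarith
  have hT1 : 1 ≤ T₁ := by
    rcases Nat.eq_zero_or_pos T₁ with h | h
    · rw [h] at hT₁
      simp at hT₁
      omega
    · exact h
  set R := TA + T₁ * (2 * TA + 2 * (11 * L * D₁)) with hR
  have hamp : ∀ l : List S, l.length ≤ 11 * L → ∃ E : (ι → Bool) → (S → ℝ) → ℝ, QE R E ∧
      ∀ x c, (∀ π, beat c π x = true) → ω ≤ K * A x c s₀ ^ 2 → ∀ g : S → ℝ, (∀ s, 0 ≤ g s) →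
        1 / 8 * (∑ s, if (l.all fun π => beat s π x) = true then A x s s₀ ^ 2 * g s else 0) ≤
          qalgW (fun s => A x s s₀ ^ 2) (fun c π => beat c π x) l * E x g := by
    intro l hl
    obtain ⟨E, hE, hE'⟩ := QE.amp (T := T₁) hA s₀ (fun s x => l.all fun π => beat s π x)
      (fun s => (DT.all_list (g := fun π x => beat s π x) (fun π => hbeat s π) l).mono
        (Nat.mul_le_mul_right _ hl)) hT1
    refine ⟨E, hE, fun x c hc hc' g hg => hE' x ?_ g hg⟩
    have h1 := qalgW_ge (fun s => A x s s₀ ^ 2) (fun s => sq_nonneg _) (fun c π => beat c π x)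
      c hc l
    have h2 : (K : ℝ) * 1 ≤ K * ((T₁ : ℝ) ^ 2 * A x c s₀ ^ 2) := by
      have h3 : (T₁ : ℝ) ^ 2 * ω ≤ (T₁ : ℝ) ^ 2 * (K * A x c s₀ ^ 2) :=
        mul_le_mul_of_nonneg_left hc' (sq_nonneg _)
      nlinarith
    have h4 := le_of_mul_le_mul_left h2 (by linarith)
    exact h4.trans (mul_le_mul_of_nonneg_left h1 (sq_nonneg _))
  have hind : ∀ j, j ≤ 11 * L → ∃ E : (ι → Bool) → ({l : List S // l.length = j} → ℝ) → ℝ,
      QE (j * R) E ∧ ∀ x c, (∀ π, beat c π x = true) → ω ≤ K * A x c s₀ ^ 2 →
        E x (fun l => qalgW (fun s => A x s s₀ ^ 2) (fun c π => beat c π x) l.1)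
          ≤ (15 / 16) ^ j + ω := by
    intro j
    induction j with
    | zero =>
      intro _
      refine ⟨fun _ g => g ⟨[], rfl⟩, by simpa using QE.pure _, fun x c _ _ => ?_⟩
      have := hA.sum_sq x s₀
      simp only [qalgW, List.all_nil, if_true, this, pow_zero]
      linarith
    | succ j ih =>
      intro hj
      obtain ⟨E, hE, hE'⟩ := ih (by omega)
      have hamp' : ∀ l : {l : List S // l.length = j}, l.1.length ≤ 11 * L := fun l => by
        rw [l.2]
        omega
      choose F hF hF' using fun l : {l : List S // l.length = j} => hamp l.1 (hamp' l)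
      refine ⟨fun x g => E x fun l => F l x fun π => g ⟨π :: l.1, by rw [List.length_cons, l.2]⟩,
        ?_, fun x c hc hc' => ?_⟩
      · rw [Nat.succ_mul]
        exact hE.bind (F := fun l x (g : {l : List S // l.length = j + 1} → ℝ) =>
          F l x fun π => g ⟨π :: l.1, by rw [List.length_cons, l.2]⟩) fun l => (hF l).map _
      · set w : S → ℝ := fun s => A x s s₀ ^ 2 with hw
        set b : S → S → Bool := fun c π => beat c π x with hb
        have hw0 : ∀ s, 0 ≤ w s := fun s => sq_nonneg _
        have hstep : ∀ l : {l : List S // l.length = j},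
            F l x (fun π => qalgW w b (π :: l.1)) ≤ 15 / 16 * qalgW w b l.1 + ω / 16 := by
          intro l
          have h1 := hF' l x c hc hc' (fun π => -1 * qalgW w b (π :: l.1) + qalgW w b l.1)
            (fun π => by linarith [qalgW_cons_le w hw0 b π l.1])
          rw [(hF l).lin] at h1
          have h2 := qalg_pairs w hw0 cls b (fun s => l.1.all fun π => b s π) ω (h₁ x) (h₂ x)
          have h3 : (∑ s, if (l.1.all fun π => beat s π x) = true then
              A x s s₀ ^ 2 * (-1 * qalgW w b (s :: l.1) + qalgW w b l.1) else 0)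
              = qalgW w b l.1 ^ 2 - ∑ π, if (l.1.all fun π' => b π π') = true then
                w π * ∑ c, (if (b c π && l.1.all fun π' => b c π') = true then w c else 0)
                else 0 := by
            rw [sq]
            conv_rhs => rw [qalgW, Finset.sum_mul, ← Finset.sum_sub_distrib]
            refine Finset.sum_congr rfl fun s _ => ?_
            have h5 : qalgW w b (s :: l.1)
                = ∑ c, (if (b c s && l.1.all fun π' => b c π') = true then w c else 0) := rfl
            rw [h5]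
            split_ifs
            · simp only [hw, qalgW]
              ring
            · simp
          rw [h3] at h1
          have hWpos : 0 < qalgW w b l.1 := by
            have h6 := qalgW_ge w hw0 b c hc l.1
            have h7 : 0 < w c := by
              by_contra h8
              have h9 : w c = 0 := le_antisymm (not_lt.1 h8) (hw0 c)
              have h10 : A x c s₀ ^ 2 = 0 := h9
              rw [h10] at hc'
              linarith
            linarith
          have h2' : 2 * (∑ π, if (l.1.all fun π' => b π π') = true then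
                w π * ∑ c, (if (b c π && l.1.all fun π' => b c π') = true then w c else 0)
                else 0) ≤ qalgW w b l.1 ^ 2 + ω * qalgW w b l.1 := h2
          have h8 : qalgW w b l.1 * F l x (fun π => qalgW w b (π :: l.1))
              ≤ qalgW w b l.1 * (15 / 16 * qalgW w b l.1 + ω / 16) := by nlinarith
          exact le_of_mul_le_mul_left h8 hWpos
        refine le_trans (hE.le x hstep) ?_
        rw [hE.lin, pow_succ]
        have := hE' x c hc hc'
        linarith
  obtain ⟨E, hE, hE'⟩ := hind (11 * L) le_rfl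
  choose F hF hF' using fun l : {l : List S // l.length = 11 * L} => hamp l.1 l.2.le
  refine ⟨fun x g => E x fun l => F l x g, ?_, fun x c hc hc' => ?_⟩
  · rw [Nat.succ_mul]
    exact hE.bind hF
  · set w : S → ℝ := fun s => A x s s₀ ^ 2 with hw
    set b : S → S → Bool := fun c π => beat c π x with hb
    have hw0 : ∀ s, 0 ≤ w s := fun s => sq_nonneg _
    have hwc : ω ≤ K * w c := hc'
    have hstep : ∀ l : {l : List S // l.length = 11 * L},
        -(1 / (32 * K * ω)) * qalgW w b l.1 + 1 / (8 * K)
          ≤ F l x (fun s => if s = c then 1 else 0) := by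
      intro l
      have h1 := hF' l x c hc hc' (fun s => if s = c then 1 else 0) (fun s => by
        split_ifs <;> norm_num)
      have h2 : (∑ s, if (l.1.all fun π => beat s π x) = true then
          A x s s₀ ^ 2 * (if s = c then 1 else 0) else 0) = w c := by
        rw [Finset.sum_eq_single c]
        · have : (l.1.all fun π => beat c π x) = true := List.all_eq_true.2 fun π _ => hc π
          simp [this, hw]
        · intro s _ hs
          simp [hs]
        · simp
      rw [h2] at h1
      have h6 := qalgW_ge w hw0 b c hc l.1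
      have h7 : 0 < w c := by
        by_contra h8
        have h9 : w c = 0 := le_antisymm (not_lt.1 h8) (hw0 c)
        rw [h9] at hwc
        linarith
      have hWpos : 0 < qalgW w b l.1 := by linarith
      set W := qalgW w b l.1 with hW
      have h8 : W * (-(1 / (32 * K * ω)) * W + 1 / (8 * K)) ≤ ω / (8 * K) := by
        have h9 : ω / (8 * K) - W * (-(1 / (32 * K * ω)) * W + 1 / (8 * K))
            = (2 * ω - W) ^ 2 / (32 * K * ω) := by
          field_simp
          ring
        have h10 : 0 ≤ (2 * ω - W) ^ 2 / (32 * K * ω) := by positivity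
        linarith
      have h11 : ω / (8 * K) ≤ 1 / 8 * w c := by
        rw [div_le_iff₀ (by positivity)]
        nlinarith
      exact le_of_mul_le_mul_left (h8.trans (h11.trans h1)) hWpos
    refine le_trans ?_ (hE.le x hstep)
    rw [hE.lin]
    have h1 := hE' x c hc hc'
    have h2 : ((15 : ℝ) / 16) ^ (11 * L) ≤ ω := by
      have h3 : ((15 : ℝ) / 16) ^ (11 * L) ≤ (1 / 2) ^ L := by
        rw [pow_mul]
        exact pow_le_pow_left₀ (by positivity) (by norm_num) L
      have h4 : ((1 : ℝ) / 2) ^ L * 2 ^ L = 1 := by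
        rw [← mul_pow]
        norm_num
      have h5 : (0 : ℝ) < (1 / 2) ^ L := by positivity
      nlinarith
    have h3 : 1 / (32 * K * ω) * E x (fun l => qalgW w b l.1) ≤ 1 / (32 * K * ω) * (2 * ω) :=
      mul_le_mul_of_nonneg_left (by linarith) (by positivity)
    have h4 : 1 / (32 * K * ω) * (2 * ω) = 1 / (16 * K) := by
      field_simp
      norm_num
    have h5 : (1 : ℝ) / (8 * K) = 1 / (16 * K) + 1 / (16 * K) := by
      field_simp
      norm_num
    linarith

/-- The verification phase. -/
theorem qalg_verify {ι M : Type} [Fintype M] [Nonempty M] {D₂ T₂ K : ℕ}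
    (chk : M → (ι → Bool) → Bool) (hchk : ∀ m, DT D₂ (chk m)) (hK : 1 ≤ K)
    (hT₂ : Fintype.card M ≤ T₂ ^ 2) :
    ∃ E : (ι → Bool) → (Bool → ℝ) → ℝ, QE (1008 * K * (T₂ * (2 * D₂) + 2 * D₂)) E ∧ ∀ x,
      ((∀ m, chk m x = true) → E x (fun b => if b = true then 1 else 0) = 1) ∧
      (¬ (∀ m, chk m x = true) → E x (fun b => if b = true then 1 else 0) ≤ 1 / (144 * K)) := by
  classical
  have hK' : (1 : ℝ) ≤ K := by exact_mod_cast hK
  have hM : 0 < Fintype.card M := Fintype.card_pos
  have hM' : (0 : ℝ) < Fintype.card M := by exact_mod_cast hM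
  have hT2 : 1 ≤ T₂ := by
    rcases Nat.eq_zero_or_pos T₂ with h | h
    · rw [h] at hT₂
      omega
    · exact h
  obtain ⟨m₀⟩ := ‹Nonempty M›
  have hsq : (Real.sqrt (1 / Fintype.card M)) ^ 2 = 1 / Fintype.card M :=
    Real.sq_sqrt (by positivity)
  obtain ⟨U, hU, hU'⟩ := exists_orth_col (fun _ : M => Real.sqrt (1 / Fintype.card M))
    (by
      simp only [hsq, Finset.sum_const, Finset.card_univ, nsmul_eq_mul]
      field_simp) m₀
  obtain ⟨E, hE, hE'⟩ := QE.amp (T := T₂) (Circ.const (ι := ι) hU) m₀ (fun m x => !chk m x)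
    (fun m => (hchk m).not) hT2
  have hE1 := hE.bind (F := fun m x (h : Bool → ℝ) => h (chk m x)) fun m => QE.tree (hchk m)
  simp only [Nat.mul_zero, Nat.zero_add] at hE1
  obtain ⟨E', hE2, hE3⟩ := hE1.and_rep (1008 * K)
  refine ⟨E', hE2, fun x => ⟨fun h => ?_, fun h => ?_⟩⟩
  · rw [hE3]
    simp only [h, if_true]
    rw [qalg_const hE, one_pow]
  · rw [hE3]
    push Not at h
    obtain ⟨m₁, hm₁⟩ := h
    simp only [hU', hsq] at hE'
    have hp : 1 / (Fintype.card M : ℝ)
        ≤ ∑ s, if (!chk s x) = true then 1 / (Fintype.card M : ℝ) else 0 := by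
      have h2 := Finset.single_le_sum
        (f := fun s => if (!chk s x) = true then 1 / (Fintype.card M : ℝ) else 0)
        (s := Finset.univ) (fun s _ => by
          split_ifs
          · positivity
          · exact le_rfl) (Finset.mem_univ m₁)
      have h3 : (!chk m₁ x) = true := by simpa using hm₁
      simp only [h3, if_true] at h2
      exact h2
    have hT : (Fintype.card M : ℝ) ≤ (T₂ : ℝ) ^ 2 := by exact_mod_cast hT₂
    have h1 := hE' x (by
      refine le_trans ?_ (mul_le_mul_of_nonneg_left hp (sq_nonneg _))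
      rw [mul_one_div, le_div_iff₀ hM']
      linarith) (fun m => -1 * (if chk m x = true then 1 else 0) + 1) (fun m => by
        split_ifs <;> norm_num)
    rw [hE.lin] at h1
    have h2 : (∑ s, if (!chk s x) = true then 1 / (Fintype.card M : ℝ) *
        (-1 * (if chk s x = true then 1 else 0) + 1) else 0)
        = ∑ s, if (!chk s x) = true then 1 / (Fintype.card M : ℝ) else 0 := by
      refine Finset.sum_congr rfl fun s _ => ?_
      cases chk s x <;> simp
    rw [h2] at h1
    have hp0 : 0 < ∑ s, if (!chk s x) = true then 1 / (Fintype.card M : ℝ) else 0 :=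
      lt_of_lt_of_le (by positivity) hp
    have h3 : E x (fun m => if chk m x = true then 1 else 0) ≤ 1 - 1 / 8 := by
      have h4 := le_of_mul_le_mul_left (a := ∑ s, if (!chk s x) = true then
        1 / (Fintype.card M : ℝ) else 0) (b := 1 / 8)
        (c := -1 * E x (fun m => if chk m x = true then 1 else 0) + 1) (by linarith) hp0
      linarith
    have h4 : 0 ≤ E x (fun m => if chk m x = true then 1 else 0) := qalg_nonneg hE1 x
    have h6 := pow_le_pow_left₀ h4 h3 (1008 * K)
    refine h6.trans ?_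
    have h7 : ((1 : ℝ) - 1 / 8) ^ (1008 * K) = ((1 - 1 / 8) ^ 7) ^ (144 * K) := by
      rw [← pow_mul]
      congr 1
      ring
    have h8 : (((1 : ℝ) - 1 / 8) ^ 7) ^ (144 * K) ≤ (1 / 2) ^ (144 * K) :=
      pow_le_pow_left₀ (by positivity) (by norm_num) _
    have h9 : ((144 * K : ℕ) : ℝ) ≤ 2 ^ (144 * K) := by
      exact_mod_cast (Nat.lt_two_pow_self (n := 144 * K)).le
    rw [h7]
    refine h8.trans ?_
    rw [_root_.one_div_pow]
    refine one_div_le_one_div_of_le (by positivity) ?_
    push_cast at h9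
    exact h9

theorem tournament {ι S Cl M : Type} [Fintype S] [DecidableEq S] [DecidableEq Cl] [Fintype M]
    [Nonempty M] {TA D₁ D₂ T₁ T₂ L K : ℕ} {A : (ι → Bool) → Matrix S S ℝ} (hA : Circ TA A) (s₀ : S)
    (cls : S → Cl) (beat : S → S → (ι → Bool) → Bool) (hbeat : ∀ c π, DT D₁ (beat c π))
    (chk : S → M → (ι → Bool) → Bool) (hchk : ∀ c m, DT D₂ (chk c m))
    (f : (ι → Bool) → Bool) (hf : ∀ x, f x = true ↔ ∃ c, ∀ m, chk c m x = true)
    (ω : ℝ) (hK : 1 ≤ K) (hL : 1 ≤ 2 ^ L * ω) (hT₁ : (K : ℝ) ≤ (T₁ : ℝ) ^ 2 * ω)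
    (hT₂ : Fintype.card M ≤ T₂ ^ 2)
    (h₁ : ∀ x c π, cls c ≠ cls π → beat c π x = true → beat π c x = false)
    (h₂ : ∀ x k, (∑ c, if cls c = k then A x c s₀ ^ 2 else 0) ≤ ω)
    (h₃ : ∀ x c, (∀ m, chk c m x = true) →
      (∀ π, beat c π x = true) ∧ ω ≤ K * A x c s₀ ^ 2) :
    QC (48 * K * ((11 * L + 1) * (TA + T₁ * (2 * TA + 2 * (11 * L * D₁))) +
      1008 * K * (T₂ * (2 * D₂) + 2 * D₂))) f := by
  have hK' : (1 : ℝ) ≤ K := by exact_mod_cast hK
  obtain ⟨E, hE, hE'⟩ := qalg_find hA s₀ cls beat hbeat ω hK hL hT₁ h₁ h₂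
  choose V hV hV' using fun c => qalg_verify (chk c) (hchk c) hK hT₂
  have hE1 := hE.bind hV
  obtain ⟨E2, hE2, hE2'⟩ := (hE1.map (fun b => !b)).and_rep (48 * K)
  refine ⟨_, hE2.map (fun b => !b), fun x => ?_⟩
  have hq := hE2' x
  have hq1 := qalg_not hE1 x
  beta_reduce at hq hq1
  rw [hq1] at hq
  have hq0 := qalg_nonneg hE1 x
  have hq2 := qalg_le_one hE1 x
  beta_reduce at hq0 hq2
  set q := E x fun c => V c x fun b => if b = true then 1 else 0 with hqdef
  cases hfx : f x
  · have hne : ∀ c, ¬ ∀ m, chk c m x = true := fun c hc => by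
      have := (hf x).2 ⟨c, hc⟩
      rw [hfx] at this
      exact Bool.false_ne_true this
    have h1 : q ≤ 1 / (144 * K) :=
      (hE.le x fun c => (hV' c x).2 (hne c)).trans (qalg_const hE x _).le
    have h2 : (fun b : Bool => if (!b) = false then (1 : ℝ) else 0)
        = fun b => if b = true then 1 else 0 := by
      funext b
      cases b <;> simp
    beta_reduce
    rw [h2, hq]
    have h3 : 1 + ((48 * K : ℕ) : ℝ) * (-q) ≤ (1 + -q) ^ (48 * K) :=
      one_add_mul_le_pow (by linarith) _
    have h4 : ((48 * K : ℕ) : ℝ) * q ≤ 1 / 3 := by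
      have h5 : ((48 * K : ℕ) : ℝ) * q ≤ ((48 * K : ℕ) : ℝ) * (1 / (144 * K)) :=
        mul_le_mul_of_nonneg_left h1 (Nat.cast_nonneg _)
      refine h5.trans (le_of_eq ?_)
      push_cast
      field_simp
      norm_num
    rw [sub_eq_add_neg]
    linarith
  · obtain ⟨c, hc⟩ := (hf x).1 hfx
    obtain ⟨hc1, hc2⟩ := h₃ x c hc
    have h1 : 1 / (16 * K) ≤ q := by
      refine (hE' x c hc1 hc2).trans (hE.le x fun s => ?_)
      split_ifs with hs
      · rw [hs]
        exact ((hV' c x).1 hc).ge
      · exact qalg_nonneg (hV s) x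
    beta_reduce
    rw [qalg_not hE2 x, hq]
    have h3 := qalg_pow_mul_le hq0 hq2 (48 * K)
    have h4 : 3 ≤ ((48 * K : ℕ) : ℝ) * q := by
      have h5 : ((48 * K : ℕ) : ℝ) * (1 / (16 * K)) ≤ ((48 * K : ℕ) : ℝ) * q :=
        mul_le_mul_of_nonneg_left h1 (Nat.cast_nonneg _)
      refine le_trans (le_of_eq ?_) h5
      push_cast
      field_simp
      norm_num
    have h6 : 0 ≤ (1 - q) ^ (48 * K) := pow_nonneg (by linarith) _
    nlinarith

end Vale.Agent.P362
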