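import Vale.Agent.P362.FnCert
import Vale.Agent.P362.QAlg

/-! The quantum upper bound for the separating function. -/

namespace Vale.Agent.P362

namespace FnQ

open Matrix Kronecker

variable {K r : ℕ}

/-- the normalised Walsh matrix -/
noncomputable def had (r : ℕ) (m : ℝ) : Matrix (BV r) (BV r) ℝ := Matrix.of fun x y => chi x y / m

theorem had_orth {m : ℝ} (hm : m ^ 2 = 2 ^ r) : (had r m)ᵀ * had r m = 1 := by
  ext x y
  have h0 : (2 : ℝ) ^ r ≠ 0 := by positivity
  simp only [had, Matrix.mul_apply, Matrix.transpose_apply, Matrix.of_apply, div_mul_div_comm,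
    ← Finset.sum_div, ← sq m, hm, chi_comm _ x, chi_comm _ y, sum_chi_mul, Matrix.one_apply]
  split_ifs
  · exact div_self h0
  · exact zero_div _

/-- the query of the layer `j` -/
def qq (K r j : ℕ) (s : BV r × BV r) : Option (Idx K r) :=
  if h : j < K + 1 then some (s.1, .inl (⟨j, h⟩, s.2)) else none

/-- the circuit -/
noncomputable def cc (K r : ℕ) (m : ℝ) :
    ℕ → (Idx K r → Bool) → Matrix (BV r × BV r) (BV r × BV r) ℝ
  | 0 => fun _ => had r m ⊗ₖ had r m
  | j + 1 => fun x => ((1 : Matrix (BV r) (BV r) ℝ) ⊗ₖ had r m) * phase (qq K r j) x * cc K r m j x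

theorem circ_cc {m : ℝ} (hm : m ^ 2 = 2 ^ r) (j : ℕ) : Circ j (cc K r m j) := by
  induction j with
  | zero =>
    refine ⟨had r m ⊗ₖ had r m, ?_, fun _ => rfl⟩
    rw [← Matrix.kroneckerMap_transpose, ← Matrix.mul_kronecker_mul, had_orth hm,
      Matrix.one_kronecker_one]
  | succ j ih =>
    refine ⟨(1 : Matrix (BV r) (BV r) ℝ) ⊗ₖ had r m, qq K r j, cc K r m j, ?_, ih, fun _ => rfl⟩
    rw [← Matrix.kroneckerMap_transpose, ← Matrix.mul_kronecker_mul, had_orth hm,
      Matrix.transpose_one, Matrix.mul_one, Matrix.one_kronecker_one]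

theorem cc_apply (m : ℝ) (x : Idx K r → Bool) (j : ℕ) (i y : BV r) :
    cc K r m j x (i, y) (fun _ => false, fun _ => false) =
      vv (lay fun p => sgR (x (i, .inl p))) j y / m ^ (j + 2) := by
  induction j generalizing y with
  | zero => simp [cc, had, chi_zero, vv, sq]
  | succ j ih =>
    have hq : ∀ y' : BV r, (qq K r j (i, y')).elim 1 (fun k => sgR (x k)) =
        lay (fun p => sgR (x (i, .inl p))) j y' := by
      intro y'
      unfold qq lay
      split_ifs <;> rfl
    simp only [cc, vv]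
    rw [Matrix.mul_apply, Fintype.sum_prod_type, Finset.sum_eq_single i]
    · rw [Finset.sum_div]
      refine Finset.sum_congr rfl fun y' _ => ?_
      rw [ih, phase, Matrix.mul_diagonal, hq]
      simp only [Matrix.kroneckerMap_apply, Matrix.one_apply_eq, had, Matrix.of_apply]
      ring
    · intro i' _ hi
      refine Finset.sum_eq_zero fun y' _ => ?_
      rw [phase, Matrix.mul_diagonal]
      simp [Matrix.one_apply_ne hi.symm]
    · simp

theorem cc_sq {m : ℝ} (hm : m ^ 2 = 2 ^ r) (x : Idx K r → Bool) (c : BV r × BV r) :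
    cc K r m (K + 1) x c (fun _ => false, fun _ => false) ^ 2 =
      amp (fun p => x (c.1, .inl p)) c.2 ^ 2 / ((2 : ℝ) ^ r) ^ (K + 3) := by
  obtain ⟨i, y⟩ := c
  rw [cc_apply, div_pow, ← pow_mul m, mul_comm, pow_mul, hm]
  rfl

/-- the tournament -/
def beat (c π : BV r × BV r) (x : Idx K r → Bool) : Bool :=
  decide (c.1 = π.1) || (!col x π.1 (ptr x c π.1) && col x c.1 (ptr x π c.1))

theorem dt_bit {ι : Type} (i : ι) : DT 1 fun x : ι → Bool => x i :=
  DT.query (d := 0) i (u := fun b _ => b) fun b => DT.const 0 b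

theorem dt_col (c : BV r × BV r) (i : BV r) :
    DT (1 + r) fun x : Idx K r → Bool => col x i (ptr x c i) :=
  DT.read (d := 1) (fun s => ((c.1, .inr (.inr (c.2, .inr (i, s)))) : Idx K r))
    (u := fun w x => col x i w) fun _ => dt_bit _

theorem dt_or {ι : Type} {d : ℕ} {g : (ι → Bool) → Bool} (h : DT d g) (b : Bool) :
    DT d fun x => b || g x := by
  cases b
  · exact h
  · exact DT.const d true

theorem dt_beat (c π : BV r × BV r) : DT (1 + r + (1 + r)) (beat (K := K) c π) :=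
  dt_or ((dt_col c π.1).not.and (dt_col π c.1)) _

theorem dt_tab {d : ℕ} (c : BV r × BV r) (j : Fin (K + 1)) (t : Fin (r + 1)) (y : BV r)
    {u : ℝ → (Idx K r → Bool) → Bool} (hu : ∀ v, DT d (u v)) :
    DT (d + nb K r) fun x => u (tab x c j t y) x :=
  DT.read (fun s => ((c.1, .inr (.inr (c.2, .inl (j, t, y, s)))) : Idx K r))
    (u := fun w x => u (dec w : ℤ) x) fun _ => hu _

theorem dt_prev {d : ℕ} (c : BV r × BV r) (j : Fin (K + 1)) (y : BV r)
    {u : ℝ → (Idx K r → Bool) → Bool} (hu : ∀ v, DT d (u v)) :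
    DT (d + nb K r) fun x => u (prev x c j y) x := by
  unfold prev
  by_cases h : (j : ℕ) = 0
  · simp only [dif_pos h]
    exact (hu 1).mono (Nat.le_add_right _ _)
  · simp only [dif_neg h]
    exact dt_tab c _ _ y hu

theorem dt_chk (c : BV r × BV r) (m : Chk K r) : DT (3 * nb K r + r + 1) (chk c m) := by
  rcases m with y | i | ⟨j, y⟩ | ⟨j, t, y⟩ | u
  · exact (dt_bit _).mono (by omega)
  · exact (dt_or (dt_col c i).not _).mono (by omega)
  · refine (dt_tab (d := 0 + nb K r + 1) c j 0 y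
      (u := fun v x => decide (v = sgR (x (c.1, .inl (j, y))) * prev x c j y)) fun v =>
        DT.query (c.1, .inl (j, y)) (u := fun b x => decide (v = sgR b * prev x c j y)) fun b =>
          dt_prev c j y (u := fun v' _ => decide (v = sgR b * v')) fun _ => DT.const 0 _).mono ?_
    omega
  · refine (dt_tab (d := 0 + nb K r + nb K r) c j t.succ y
      (u := fun v x => decide (v = tab x c j t.castSucc (Function.update y t false) +
        sgR (y t) * tab x c j t.castSucc (Function.update y t true))) fun v =>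
        dt_tab c j t.castSucc (Function.update y t false) (u := fun v' x => decide (v = v' +
          sgR (y t) * tab x c j t.castSucc (Function.update y t true))) fun v' =>
          dt_tab c j t.castSucc (Function.update y t true)
            (u := fun v'' _ => decide (v = v' + sgR (y t) * v'')) fun _ => DT.const 0 _).mono ?_
    omega
  · refine (dt_tab (d := 0) c (Fin.last K) (Fin.last r) c.2
      (u := fun v _ => decide (((2 : ℝ) ^ r) ^ (K + 2) ≤ kd K * v ^ 2))
      fun _ => DT.const 0 _).mono ?_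
    omega

theorem card_chk (K ρ : ℕ) :
    Fintype.card (Chk K (2 * ρ)) ≤ (((K + 1) * (2 * ρ + 1) + 3) * 2 ^ ρ) ^ 2 := by
  have h1 : (2 ^ ρ) ^ 2 = 2 ^ (2 * ρ) := by rw [← pow_mul, mul_comm]
  have h2 : 1 ≤ 2 ^ (2 * ρ) := Nat.one_le_two_pow
  simp only [Fintype.card_sum, Fintype.card_prod, card_BV, Fintype.card_fin, Fintype.card_unit,
    mul_pow, h1]
  generalize 2 ^ (2 * ρ) = n at h2 ⊢
  calc _ ≤ ((K + 1) * (2 * ρ + 1) + 3) * n := by nlinarith
    _ ≤ _ := Nat.mul_le_mul_right _ (Nat.le_self_pow (by norm_num) _)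

theorem numer (K k : ℕ) : ∃ C : ℕ, ∀ ρ m : ℕ, 1 ≤ m →
    48 * k * ((11 * (2 * ρ) + 1) * (K + 1 + k * m * (2 * (K + 1) +
      2 * (11 * (2 * ρ) * (1 + 2 * ρ + (1 + 2 * ρ))))) +
      1008 * k * (((K + 1) * (2 * ρ + 1) + 3) * m * (2 * (3 * nb K (2 * ρ) + 2 * ρ + 1)) +
        2 * (3 * nb K (2 * ρ) + 2 * ρ + 1))) ≤ C * (ρ + 1) ^ 3 * m := by
  refine ⟨48 * k * (22 * (K + 1 + k * (2 * (K + 1) + 176)) +
    1008 * k * ((2 * K + 5) * (2 * (6 * K + 15)) + 2 * (6 * K + 15))), fun ρ m hm => ?_⟩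
  set u := ρ + 1 with hu
  have h0 : 1 ≤ u := by omega
  have h1 : 11 * (2 * ρ) + 1 ≤ 22 * u := by omega
  have hu2 : 1 ≤ u ^ 2 := Nat.one_le_pow _ _ h0
  have h2 : K + 1 ≤ (K + 1) * (u ^ 2 * m) := Nat.le_mul_of_pos_right _ (by positivity)
  have h3 : 2 * (K + 1) + 2 * (11 * (2 * ρ) * (1 + 2 * ρ + (1 + 2 * ρ))) ≤
      (2 * (K + 1) + 176) * u ^ 2 := by
    have : 2 * (11 * (2 * ρ) * (1 + 2 * ρ + (1 + 2 * ρ))) ≤ 176 * u ^ 2 := by
      rw [hu]
      nlinarith
    nlinarith
  have h4 : (K + 1) * (2 * ρ + 1) + 3 ≤ (2 * K + 5) * u ^ 2 := by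
    have : (K + 1) * (2 * ρ + 1) + 3 ≤ (2 * K + 5) * u := by
      rw [hu]
      nlinarith
    exact this.trans (Nat.mul_le_mul_left _ (Nat.le_self_pow (by norm_num) _))
  have h5 : 3 * nb K (2 * ρ) + 2 * ρ + 1 ≤ (6 * K + 15) * u := by
    rw [hu, nb]
    nlinarith
  have h6 : 2 * (3 * nb K (2 * ρ) + 2 * ρ + 1) ≤ 2 * ((6 * K + 15) * u) * (u ^ 2 * m) :=
    le_trans (by omega) (Nat.le_mul_of_pos_right _ (by positivity))
  calc _ ≤ 48 * k * ((22 * u) * ((K + 1) * (u ^ 2 * m) + k * m * ((2 * (K + 1) + 176) * u ^ 2)) +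
      1008 * k * ((2 * K + 5) * u ^ 2 * m * (2 * ((6 * K + 15) * u)) +
        2 * ((6 * K + 15) * u) * (u ^ 2 * m))) := by gcongr
    _ = _ := by ring

end FnQ

open FnQ in
theorem sepF_QC (K : ℕ) : ∃ C : ℕ, ∀ ρ : ℕ, QC (C * (ρ + 1) ^ 3 * 2 ^ ρ) (sepF K (2 * ρ)) := by
  obtain ⟨C, hC⟩ := numer K (kd K)
  refine ⟨C, fun ρ => ?_⟩
  have hm : ((2 : ℝ) ^ ρ) ^ 2 = 2 ^ (2 * ρ) := by rw [← pow_mul, mul_comm]
  have hn : (0 : ℝ) < 2 ^ (2 * ρ) := by positivity
  have hk : 1 ≤ kd K := Nat.mul_pos (by norm_num) (by positivity)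
  have hk' : (1 : ℝ) ≤ kd K := by exact_mod_cast hk
  obtain ⟨E, h1, h2⟩ := tournament (T₁ := kd K * 2 ^ ρ) (L := 2 * ρ)
    (circ_cc (K := K) hm (K + 1)) (fun _ => false, fun _ => false) Prod.fst beat dt_beat chk dt_chk
    (sepF K (2 * ρ)) (fun x => by simp only [sepF, decide_eq_true_eq]) (1 / 2 ^ (2 * ρ)) hk
    (by rw [mul_one_div_cancel hn.ne'])
    (by
      push_cast
      rw [mul_pow, hm, mul_assoc, mul_one_div_cancel hn.ne']
      nlinarith)
    (card_chk K ρ)
    (fun x c π hne hb => by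
      have h3 : c.1 ≠ π.1 := hne
      simp only [beat, h3, decide_false, Bool.false_or, Bool.and_eq_true] at hb
      simp only [beat, h3.symm, decide_false, Bool.false_or, hb.2, Bool.not_true, Bool.false_and])
    (fun x k => by
      rw [Fintype.sum_prod_type, Finset.sum_eq_single k]
      · simp only [if_true, cc_sq hm]
        rw [← Finset.sum_div, sum_sq_amp, pow_succ _ (K + 2), div_mul_eq_div_div,
          div_self (by positivity)]
      · intro i _ hi
        simp [hi]
      · simp)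
    (fun x c hc => by
      refine ⟨fun π => ?_, ?_⟩
      · have h3 := hc (.inr (.inl π.1))
        have h4 := hc (.inl (ptr x π c.1))
        simp only [chk] at h3 h4
        by_cases h : c.1 = π.1
        · simp [beat, h]
        · simp only [Ne.symm h, decide_false, Bool.false_or] at h3
          simp only [beat, h3, h4, Bool.and_self, Bool.or_true]
      · have h3 := goodAmp_of_chk hc
        simp only [goodAmp, decide_eq_true_eq] at h3
        rw [cc_sq hm, ← mul_div_assoc, div_le_div_iff₀ hn (by positivity), one_mul,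
          pow_succ _ (K + 2)]
        exact mul_le_mul_of_nonneg_right h3 hn.le)
  exact ⟨E, h1.mono (hC ρ (2 ^ ρ) Nat.one_le_two_pow), h2⟩

end Vale.Agent.P362
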