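import Vale.Agent.P362.Tree

/-! The classical hybrid argument. -/

namespace Vale.Agent.P362

open Finset

/-- Indicator of a Boolean value. -/
noncomputable def lowerInd (b : Bool) : ℝ := if b = true then 1 else 0

theorem lowerInd_nonneg (b : Bool) : 0 ≤ lowerInd b := by cases b <;> simp [lowerInd]

theorem lowerInd_mono {b b' : Bool} (h : b = true → b' = true) : lowerInd b ≤ lowerInd b' := by
  cases b <;> cases b' <;> simp_all [lowerInd]

theorem lowerInd_mul (r : ℝ) (b : Bool) : r * lowerInd b = if b = true then r else 0 := by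
  simp [lowerInd]

theorem lower_amplify {ι Ω₀ Ω₁ : Type} [Fintype Ω₀] [Fintype Ω₁] {f : (ι → Bool) → Bool}
    {μ₀ : Ω₀ → ℝ} {μ₁ : Ω₁ → ℝ} (h₀ : ∀ ω, 0 ≤ μ₀ ω) (h₀' : ∑ ω, μ₀ ω = 1) (h₁ : ∀ ω, 0 ≤ μ₁ ω)
    {X₀ : Ω₀ → ι → Bool} {X₁ : Ω₁ → ι → Bool} (hf₀ : ∀ ω, f (X₀ ω) = false) {δ η : ℝ}
    (hf₁ : δ ≤ ∑ ω, μ₁ ω * lowerInd (f (X₁ ω))) {T : ℕ} (hT : RandComputes f T) (m : ℕ)
    (h : ∀ t : DTree ι, t.depth ≤ m * T → ∑ ω, μ₁ ω * lowerInd (t.eval (X₁ ω)) ≤
      ∑ ω, μ₀ ω * lowerInd (t.eval (X₀ ω)) + η) : δ * (2 / 3) ^ m - (1 / 3) ^ m ≤ η := by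
  obtain ⟨M, p, t, h1, h2, h3, h4⟩ := hT
  have h5 : ∀ j : Fin m → Fin M, ∃ s : DTree ι, s.depth ≤ m * T ∧
      ∀ x, lowerInd (s.eval x) = ∏ k, lowerInd ((t (j k)).eval x) := fun j => by
    obtain ⟨s, a1, a2⟩ := DT.all_list (d := T) (g := fun k x => (t (j k)).eval x)
      (fun k => ⟨_, h3 _, fun _ => rfl⟩) (List.finRange m)
    refine ⟨s, by simpa using a1, fun x => ?_⟩
    simp only [a2, lowerInd, prod_boole]
    simp
  choose s hs hs' using h5
  let acc : (ι → Bool) → ℝ := fun x => ∑ j, p j * lowerInd ((t j).eval x)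
  have h6 : ∀ x, ∑ j : Fin m → Fin M, (∏ k, p (j k)) * lowerInd ((s j).eval x) = acc x ^ m := by
    intro x
    simp only [hs', ← prod_mul_distrib]
    rw [← Fintype.piFinset_univ, ← prod_univ_sum (fun _ => univ)
      fun _ j => p j * lowerInd ((t j).eval x)]
    simp [acc]
  have h7 : ∑ j : Fin m → Fin M, ∏ k, p (j k) = 1 := by
    rw [← Fintype.piFinset_univ, ← prod_univ_sum (fun _ => univ) fun _ j => p j]
    simp [h2]
  have h8 : ∀ {Ω : Type} [Fintype Ω] (μ : Ω → ℝ) (X : Ω → ι → Bool),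
      ∑ j : Fin m → Fin M, (∏ k, p (j k)) * ∑ ω, μ ω * lowerInd ((s j).eval (X ω)) =
        ∑ ω, μ ω * acc (X ω) ^ m := by
    intro Ω _ μ X
    simp only [← h6, mul_sum]
    rw [sum_comm]
    exact sum_congr rfl fun _ _ => sum_congr rfl fun _ _ => mul_left_comm _ _ _
  have h9 := sum_le_sum (s := univ) fun (j : Fin m → Fin M) _ =>
    mul_le_mul_of_nonneg_left (h _ (hs j)) (prod_nonneg (s := univ) fun k _ => h1 (j k))
  simp only [mul_add, sum_add_distrib, h8, ← sum_mul, h7, one_mul] at h9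
  have ha : ∀ x, 0 ≤ acc x := fun x =>
    sum_nonneg fun j _ => mul_nonneg (h1 j) (lowerInd_nonneg _)
  have a0 : ∑ ω, μ₀ ω * acc (X₀ ω) ^ m ≤ ∑ ω, μ₀ ω * (1 / 3) ^ m := by
    refine sum_le_sum fun ω _ => mul_le_mul_of_nonneg_left (pow_le_pow_left₀ (ha _) ?_ m) (h₀ ω)
    have := h4 (X₀ ω)
    rw [hf₀] at this
    have e : acc (X₀ ω) + ∑ j, (if (t j).eval (X₀ ω) = false then p j else 0) = 1 := by
      rw [← h2, ← sum_add_distrib]
      refine sum_congr rfl fun j _ => ?_
      cases (t j).eval (X₀ ω) <;> simp [lowerInd]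
    linarith
  have a1 : ∑ ω, μ₁ ω * lowerInd (f (X₁ ω)) * (2 / 3) ^ m ≤ ∑ ω, μ₁ ω * acc (X₁ ω) ^ m := by
    refine sum_le_sum fun ω _ => ?_
    rw [mul_assoc]
    refine mul_le_mul_of_nonneg_left ?_ (h₁ ω)
    have := h4 (X₁ ω)
    cases hx : f (X₁ ω)
    · simpa [lowerInd] using pow_nonneg (ha _) m
    · rw [hx] at this
      simp only [lowerInd, if_true, one_mul]
      exact pow_le_pow_left₀ (by norm_num) (by simpa only [acc, lowerInd_mul] using this) m
  rw [← sum_mul] at a0 a1
  rw [h₀'] at a0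
  nlinarith [mul_le_mul_of_nonneg_right hf₁ (show (0 : ℝ) ≤ (2 / 3) ^ m by positivity)]

theorem lower_resample {I S : Type} [Fintype I] [DecidableEq I] [Fintype S] {ν : S → ℝ}
    (hν : ∑ s, ν s = 1) (i : I) (G : (I → S) → ℝ) :
    ∑ u : I → S, (∏ k, ν (u k)) * ∑ s, ν s * G (Function.update u i s) =
      ∑ u : I → S, (∏ k, ν (u k)) * G u := by
  have hi : Function.Involutive fun x : (I → S) × S => (Function.update x.1 i x.2, x.1 i) :=
    fun x => by simp
  have h1 := Equiv.sum_comp hi.toPerm fun x => (∏ k, ν (x.1 k)) * G x.1 * ν x.2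
  simp only [Fintype.sum_prod_type, ← mul_sum, hν, mul_one, Function.Involutive.coe_toPerm] at h1
  rw [← h1]
  refine sum_congr rfl fun u _ => ?_
  rw [mul_sum]
  refine sum_congr rfl fun s _ => ?_
  have : ∏ k, ν (Function.update u i s k) = ν s * ∏ k ∈ univ \ {i}, ν (u k) := by
    rw [← prod_update_of_mem (mem_univ i)]
    exact prod_congr rfl fun k _ => Function.apply_update (fun _ => ν) u i s k
  rw [this, prod_eq_mul_prod_sdiff_singleton_of_mem (mem_univ i)]
  ring

/-- The variables queried on the input `x`. -/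
def DTree.lowerPath {ι : Type} : DTree ι → (ι → Bool) → List ι
  | .leaf _, _ => []
  | .node i l r, x => i :: if x i = true then r.lowerPath x else l.lowerPath x

theorem DTree.lowerPath_length {ι : Type} (t : DTree ι) (x : ι → Bool) :
    (t.lowerPath x).length ≤ t.depth := by
  induction t with
  | leaf b => exact le_rfl
  | node i l r ihl ihr =>
    simp only [DTree.lowerPath, DTree.depth, List.length_cons]
    split_ifs <;> omega

theorem DTree.eval_of_lowerPath {ι : Type} (t : DTree ι) {x y : ι → Bool}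
    (h : ∀ i ∈ t.lowerPath x, y i = x i) : t.eval y = t.eval x := by
  induction t with
  | leaf b => rfl
  | node i l r ihl ihr =>
    simp only [DTree.lowerPath, List.mem_cons, forall_eq_or_imp] at h
    simp only [DTree.eval, h.1]
    split_ifs with hx
    · exact ihr (by simpa [hx] using h.2)
    · exact ihl (by simpa [hx] using h.2)

theorem lower_avg {A B : Type} [Fintype A] [Nonempty A] (g : B → Option A) (L : List B) {d : ℕ}
    (hL : L.length ≤ d) {F G : A → Bool} (h : ∀ a, (∀ b ∈ L, g b ≠ some a) → F a = G a) :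
    ∑ a, lowerInd (F a) ≤ ∑ a, lowerInd (G a) + d := by
  classical
  have h1 : ∑ a, lowerInd (F a) ≤
      ∑ a, (lowerInd (G a) + if a ∈ (L.filterMap g).toFinset then 1 else 0) := by
    refine sum_le_sum fun a _ => ?_
    split_ifs with ha
    · cases F a <;> cases G a <;> simp [lowerInd]
    · rw [h a (by simpa using ha), add_zero]
  rw [sum_add_distrib, sum_boole, filter_mem_eq_inter, univ_inter] at h1
  have : ((L.filterMap g).toFinset.card : ℝ) ≤ d := by
    exact_mod_cast (List.toFinset_card_le _).trans ((List.length_filterMap_le _ _).trans hL)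
  linarith

section block

variable {I B : Type} [DecidableEq I]

/-- Restriction of a tree to one block, truncated after `d` queries. -/
def lowerRt (i : I) (x : I × B → Bool) : DTree (I × B) → ℕ → DTree B
  | .leaf b, _ => .leaf b
  | .node v l r, 0 => if v.1 = i then .leaf true else
      if x v = true then lowerRt i x r 0 else lowerRt i x l 0
  | .node v l r, d + 1 => if v.1 = i then .node v.2 (lowerRt i x l d) (lowerRt i x r d) else
      if x v = true then lowerRt i x r (d + 1) else lowerRt i x l (d + 1)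

theorem lowerRt_depth (i : I) (x : I × B → Bool) (t : DTree (I × B)) (d : ℕ) :
    (lowerRt i x t d).depth ≤ d := by
  induction t generalizing d with
  | leaf b => exact Nat.zero_le _
  | node v l r ihl ihr =>
    cases d <;> simp only [lowerRt] <;> split_ifs <;> simp [DTree.depth, ihl, ihr]

theorem lowerRt_congr (i : I) {x x' : I × B → Bool} (h : ∀ v, v.1 ≠ i → x v = x' v)
    (t : DTree (I × B)) (d : ℕ) : lowerRt i x t d = lowerRt i x' t d := by
  induction t generalizing d with
  | leaf b => rfl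
  | node v l r ihl ihr =>
    by_cases hv : v.1 = i <;> cases d <;> simp [lowerRt, ihl, ihr, hv, h v]

theorem lowerRt_of_eval (i : I) (x : I × B → Bool) (t : DTree (I × B)) (d : ℕ)
    (h : t.eval x = true) : (lowerRt i x t d).eval (fun b => x (i, b)) = true := by
  induction t generalizing d with
  | leaf b => exact h
  | node v l r ihl ihr =>
    obtain ⟨j, b⟩ := v
    simp only [DTree.eval] at h
    by_cases hv : j = i <;> cases d <;> cases hx : x (j, b) <;>
      simp_all [lowerRt, DTree.eval]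

theorem eval_of_lowerRt (i : I) (x : I × B → Bool) (t : DTree (I × B)) (d : ℕ)
    (h : (lowerRt i x t d).eval (fun b => x (i, b)) = true) :
    t.eval x = true ∨ d + 1 ≤ ((t.lowerPath x).map Prod.fst).count i := by
  induction t generalizing d with
  | leaf b => exact Or.inl h
  | node v l r ihl ihr =>
    obtain ⟨j, b⟩ := v
    by_cases hv : j = i
    · subst hv
      cases d with
      | zero => right; simp [DTree.lowerPath]
      | succ d =>
        cases hx : x (j, b) <;> simp only [lowerRt, DTree.eval, hx, if_true, DTree.lowerPath,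
          List.map_cons, List.count_cons_self, Bool.false_eq_true, if_false] at h ⊢
        · simpa using ihl d h
        · simpa using ihr d h
    · cases d <;> cases hx : x (j, b) <;> simp only [lowerRt, DTree.eval, hx, if_true, hv,
        DTree.lowerPath, List.map_cons, List.count_cons_of_ne hv, Bool.false_eq_true,
        if_false] at h ⊢
      exacts [ihl _ h, ihr _ h, ihl _ h, ihr _ h]

theorem lowerRt_sum [Fintype I] (x : I × B → Bool) (t : DTree (I × B)) (d : ℕ) :
    ∑ i, lowerInd ((lowerRt i x t d).eval fun b => x (i, b)) ≤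
      Fintype.card I * lowerInd (t.eval x) + t.depth / (d + 1) := by
  have h1 : ∀ i, lowerInd ((lowerRt i x t d).eval fun b => x (i, b)) ≤ lowerInd (t.eval x) +
      ((t.lowerPath x).map Prod.fst).count i / (d + 1) := by
    intro i
    have : (0 : ℝ) ≤ ((t.lowerPath x).map Prod.fst).count i / (d + 1) := by positivity
    cases h : (lowerRt i x t d).eval fun b => x (i, b)
    · simpa [lowerInd] using add_nonneg (lowerInd_nonneg (t.eval x)) this
    rcases eval_of_lowerRt i x t d h with h | h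
    · rw [h]; linarith
    · have : (1 : ℝ) ≤ ((t.lowerPath x).map Prod.fst).count i / (d + 1) := by
        rw [le_div_iff₀ (by positivity), one_mul]; exact_mod_cast h
      simp only [lowerInd, if_true]
      linarith [lowerInd_nonneg (t.eval x), lowerInd.eq_1 (t.eval x)]
  refine (sum_le_sum fun i _ => h1 i).trans ?_
  rw [sum_add_distrib, sum_const, card_univ, nsmul_eq_mul, ← sum_div]
  gcongr
  have := List.sum_toFinset_count_eq_length ((t.lowerPath x).map Prod.fst)
  rw [sum_subset (subset_univ _) fun i _ hi =>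
    List.count_eq_zero_of_not_mem (by simpa using hi), List.length_map] at this
  exact_mod_cast this.le.trans (t.lowerPath_length x)

end block

section cell

variable {Z P Ad Cl : Type} [DecidableEq Ad]

/-- The tree on the first part of a block obtained by stopping at the cell `a`. -/
def lowerSt (a : Ad) : DTree (Z ⊕ P ⊕ Ad × Cl) → DTree Z
  | .leaf b => .leaf b
  | .node (.inl z) l r => .node z (lowerSt a l) (lowerSt a r)
  | .node (.inr (.inl _)) _ r => lowerSt a r
  | .node (.inr (.inr c)) l _ => if c.1 = a then .leaf true else lowerSt a l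

theorem lowerSt_depth (a : Ad) (s : DTree (Z ⊕ P ⊕ Ad × Cl)) : (lowerSt a s).depth ≤ s.depth := by
  induction s with
  | leaf b => exact le_rfl
  | node v l r ihl ihr =>
    rcases v with z | q | c <;> simp only [lowerSt, DTree.depth]
    · omega
    · omega
    · split_ifs
      · exact Nat.zero_le _
      · omega

theorem lowerSt_of_eval (a : Ad) (s : DTree (Z ⊕ P ⊕ Ad × Cl)) (w : Z → Bool) (c : Cl → Bool)
    (h : s.eval (Sum.elim w (Sum.elim (fun _ => true) fun v => decide (v.1 = a) && c v.2)) = true) :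
    (lowerSt a s).eval w = true := by
  induction s with
  | leaf b => exact h
  | node v l r ihl ihr =>
    rcases v with z | q | v
    · cases hz : w z <;> simp_all [lowerSt, DTree.eval]
    · simp_all [lowerSt, DTree.eval]
    · by_cases hv : v.1 = a <;> simp_all [lowerSt, DTree.eval]

theorem lowerSt_eval (a : Ad) (s : DTree (Z ⊕ P ⊕ Ad × Cl)) (w : Z → Bool)
    (h : ∀ b ∈ s.lowerPath (Sum.elim w (Sum.elim (fun _ => true) fun _ => false)),
      Sum.elim (fun _ => none) (Sum.elim (fun _ => none) fun v => some v.1) b ≠ some a) :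
    (lowerSt a s).eval w = s.eval (Sum.elim w (Sum.elim (fun _ => true) fun _ => false)) := by
  induction s with
  | leaf b => rfl
  | node v l r ihl ihr =>
    rcases v with z | q | v
    · cases hz : w z <;> simp_all [lowerSt, DTree.eval, DTree.lowerPath]
    · simp_all [lowerSt, DTree.eval, DTree.lowerPath]
    · simp_all [lowerSt, DTree.eval, DTree.lowerPath]

theorem lower_block [Fintype Z] [DecidableEq Z] [Fintype P] [DecidableEq P] [Nonempty P]
    [Fintype Ad] [Nonempty Ad] {ν₀ : (Z → Bool) → ℝ} {ν₁ : Ad → (Z → Bool) → ℝ}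
    (h₀ : ∀ z, 0 ≤ ν₀ z) (h₀' : ∑ z, ν₀ z = 1) (h₁ : ∀ a z, 0 ≤ ν₁ a z) {d : ℕ} {ε : ℝ}
    (hadv : ∀ a (t : DTree Z), t.depth ≤ d →
      (∑ z, if t.eval z = true then ν₁ a z else 0) ≤
        (∑ z, if t.eval z = true then ν₀ z else 0) + ε)
    (c : (Z → Bool) → Cl → Bool) {s : DTree (Z ⊕ P ⊕ Ad × Cl)} (hs : s.depth ≤ d) :
    ∑ a, ∑ w, ν₁ a w / Fintype.card Ad * lowerInd (s.eval (Sum.elim w
      (Sum.elim (fun _ => true) fun v => decide (v.1 = a) && c w v.2))) ≤
    ∑ u : (Z → Bool) × P, ν₀ u.1 / Fintype.card P * lowerInd (s.eval (Sum.elim u.1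
      (Sum.elim (fun y => decide (y ≠ u.2)) fun _ => false))) +
      (d / Fintype.card P + d / Fintype.card Ad + ε) := by
  have hA : (0 : ℝ) < Fintype.card Ad := by exact_mod_cast Fintype.card_pos
  have hP : (0 : ℝ) < Fintype.card P := by exact_mod_cast Fintype.card_pos
  have a1 : ∀ a, ∑ w, ν₁ a w * lowerInd (s.eval (Sum.elim w
      (Sum.elim (fun _ => true) fun v => decide (v.1 = a) && c w v.2))) ≤
      ∑ w, ν₀ w * lowerInd ((lowerSt a s).eval w) + ε := fun a => by
    refine (sum_le_sum fun w _ => mul_le_mul_of_nonneg_left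
      (lowerInd_mono (lowerSt_of_eval a s w (c w))) (h₁ a w)).trans ?_
    simpa only [lowerInd_mul] using hadv a _ ((lowerSt_depth a s).trans hs)
  have a2 : ∀ w, (∑ a, lowerInd ((lowerSt a s).eval w)) / Fintype.card Ad ≤
      (∑ q : P, lowerInd (s.eval (Sum.elim w (Sum.elim (fun y => decide (y ≠ q))
        fun _ => false)))) / Fintype.card P + (d / Fintype.card P + d / Fintype.card Ad) := by
    intro w
    have b1 := lower_avg _ _ ((s.lowerPath_length _).trans hs) fun a => lowerSt_eval a s w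
    have b2 := lower_avg (Sum.elim (fun _ => none) (Sum.elim some fun _ => none)) _
      ((s.lowerPath_length (Sum.elim w (Sum.elim (fun _ => true) fun _ => false))).trans hs)
      (G := fun q : P => s.eval (Sum.elim w (Sum.elim (fun y => decide (y ≠ q)) fun _ => false)))
      fun q h => (s.eval_of_lowerPath fun b hb => by
        have := h b hb
        rcases b with z | y | v <;> simp_all).symm
    rw [sum_const, card_univ, nsmul_eq_mul, mul_comm] at b1 b2
    rw [← le_div_iff₀ hP, add_div] at b2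
    rw [div_le_iff₀ hA, ← add_assoc, add_mul, div_mul_cancel₀ _ hA.ne']
    nlinarith
  have a3 := sum_le_sum (s := univ) fun w _ => mul_le_mul_of_nonneg_left (a2 w) (h₀ w)
  have a4 := div_le_div_of_nonneg_right (sum_le_sum (s := univ) fun a _ => a1 a) hA.le
  rw [sum_add_distrib, sum_comm (f := fun a w => ν₀ w * lowerInd ((lowerSt a s).eval w)),
    sum_const, card_univ, nsmul_eq_mul, add_div, mul_div_cancel_left₀ _ hA.ne'] at a4
  simp only [mul_add, sum_add_distrib, ← sum_mul, h₀', one_mul] at a3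
  simp only [Fintype.sum_prod_type, div_mul_eq_mul_div, ← sum_div, ← mul_sum, ← mul_div_assoc]
    at a3 a4 ⊢
  linarith

end cell

theorem lower {I Z P Ad Cl : Type} [Fintype I] [DecidableEq I] [Nonempty I] [Fintype Z]
    [DecidableEq Z] [Fintype P] [DecidableEq P] [Nonempty P] [Fintype Ad] [DecidableEq Ad]
    [Nonempty Ad] (f : (I × (Z ⊕ P ⊕ Ad × Cl) → Bool) → Bool)
    (ν₀ : (Z → Bool) → ℝ) (ν₁ : Ad → (Z → Bool) → ℝ)
    (h₀ : ∀ z, 0 ≤ ν₀ z) (h₀' : ∑ z, ν₀ z = 1) (h₁ : ∀ a z, 0 ≤ ν₁ a z)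
    (h₁' : ∀ a, ∑ z, ν₁ a z = 1) (d : ℕ) (ε δ : ℝ)
    (hadv : ∀ a (t : DTree Z), t.depth ≤ d →
      (∑ z, if t.eval z = true then ν₁ a z else 0) ≤
        (∑ z, if t.eval z = true then ν₀ z else 0) + ε)
    (good : Ad → (Z → Bool) → Bool) (hgood : ∀ a, δ ≤ ∑ z, if good a z = true then ν₁ a z else 0)
    (hf₀ : ∀ x, (∀ i, ∃ p, x (i, .inr (.inl p)) = false) → f x = false)
    (cert : (Z → Bool) → (I → P) → Cl → Bool)
    (hf₁ : ∀ x i a (p : I → P), good a (fun k => x (i, .inl k)) = true →
      (∀ y, x (i, .inr (.inl y)) = true) → (∀ i', i' ≠ i → x (i', .inr (.inl (p i'))) = false) →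
      (∀ c, x (i, .inr (.inr (a, c))) = cert (fun k => x (i, .inl k)) p c) → f x = true)
    {T : ℕ} (hT : RandComputes f T) (m : ℕ) :
    δ * (2 / 3) ^ m - (1 / 3) ^ m ≤ (m * T : ℝ) / (Fintype.card I * (d + 1)) +
      d / Fintype.card P + d / Fintype.card Ad + ε := by
  have hI : (0 : ℝ) < Fintype.card I := by exact_mod_cast Fintype.card_pos
  have hA : (0 : ℝ) < Fintype.card Ad := by exact_mod_cast Fintype.card_pos
  have hP : (0 : ℝ) < Fintype.card P := by exact_mod_cast Fintype.card_pos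
  let ν : (Z → Bool) × P → ℝ := fun u => ν₀ u.1 / Fintype.card P
  have hν : ∑ u, ν u = 1 := by
    simp [ν, Fintype.sum_prod_type, mul_div_cancel₀ _ hP.ne', h₀']
  have hW : ∀ u : I → (Z → Bool) × P, 0 ≤ ∏ k, ν (u k) := fun u =>
    prod_nonneg fun k _ => div_nonneg (h₀ _) hP.le
  have hW' : ∑ u : I → (Z → Bool) × P, ∏ k, ν (u k) = 1 := by
    rw [← Fintype.piFinset_univ, ← prod_univ_sum (fun _ => univ) fun _ j => ν j]
    simp [hν]
  let X₀ : (I → (Z → Bool) × P) → I × (Z ⊕ P ⊕ Ad × Cl) → Bool := fun u v =>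
    Sum.elim (u v.1).1 (Sum.elim (fun y => decide (y ≠ (u v.1).2)) fun _ => false) v.2
  let X₁ : (I → (Z → Bool) × P) × I × Ad × (Z → Bool) → I × (Z ⊕ P ⊕ Ad × Cl) → Bool := fun ω v =>
    if v.1 = ω.2.1 then Sum.elim ω.2.2.2 (Sum.elim (fun _ => true) fun c =>
      decide (c.1 = ω.2.2.1) && cert ω.2.2.2 (fun k => (ω.1 k).2) c.2) v.2 else X₀ ω.1 v
  refine lower_amplify (μ₀ := fun u => ∏ k, ν (u k)) (μ₁ := fun ω => (∏ k, ν (ω.1 k)) *
    (ν₁ ω.2.2.1 ω.2.2.2 / Fintype.card Ad / Fintype.card I)) hW hW'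
    (fun ω => mul_nonneg (hW ω.1) (div_nonneg (div_nonneg (h₁ ω.2.2.1 ω.2.2.2) hA.le) hI.le)) (X₀ := X₀)
    (X₁ := X₁) (fun u => hf₀ _ fun i => ⟨(u i).2, by simp [X₀]⟩) ?_ hT m fun t ht => ?_
  · have : ∀ u i a, δ ≤ ∑ w, ν₁ a w * lowerInd (f (X₁ (u, i, a, w))) := fun u i a => by
      refine (hgood a).trans (sum_le_sum fun w _ => ?_)
      rw [← lowerInd_mul]
      exact mul_le_mul_of_nonneg_left (lowerInd_mono fun h => hf₁ _ i a (fun k => (u k).2)
        (by simpa [X₁] using h) (by simp [X₁]) (fun i' hi => by simp [X₁, X₀, hi])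
        (by simp [X₁])) (h₁ a w)
    calc δ = ∑ u : I → (Z → Bool) × P, (∏ k, ν (u k)) *
          ∑ _i : I, ∑ _a : Ad, δ / Fintype.card Ad / Fintype.card I := by
          rw [← sum_mul, hW']; simp; field_simp
      _ ≤ _ := by
          simp only [Fintype.sum_prod_type, mul_assoc, ← mul_sum, div_mul_eq_mul_div, ← sum_div]
          gcongr
          · exact hW _
          · exact this _ _ _
  have a1 : ∀ u i, ∑ a, ∑ w, ν₁ a w / Fintype.card Ad * lowerInd (t.eval (X₁ (u, i, a, w))) ≤
      ∑ s, ν s * lowerInd ((lowerRt i (X₀ (Function.update u i s)) t d).eval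
        fun b => X₀ (Function.update u i s) (i, b)) +
      (d / Fintype.card P + d / Fintype.card Ad + ε) := fun u i => by
    have b1 := lower_block (P := P) h₀ h₀' h₁ hadv (fun w => cert w fun k => (u k).2)
      (lowerRt_depth i (X₀ u) t d)
    refine le_trans (sum_le_sum fun a _ => sum_le_sum fun w _ => mul_le_mul_of_nonneg_left
      (lowerInd_mono fun h => ?_) (div_nonneg (h₁ a w) hA.le)) (b1.trans (le_of_eq ?_))
    · have := lowerRt_of_eval i _ t d h
      rw [lowerRt_congr i (x' := X₀ u) fun v hv => if_neg hv] at this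
      simpa [X₁] using this
    · congr 1
      refine sum_congr rfl fun s _ => ?_
      rw [lowerRt_congr i (x := X₀ (Function.update u i s)) (x' := X₀ u) fun v hv => by
        simp [X₀, hv]]
      simp [X₀, ν]
  have a2 := sum_le_sum (s := univ) fun i _ => sum_le_sum (s := univ) fun u _ =>
    mul_le_mul_of_nonneg_left (a1 u i) (hW u)
  simp only [mul_add, sum_add_distrib, ← sum_mul, hW', one_mul] at a2
  rw [sum_congr rfl fun i _ => lower_resample hν i fun u =>
    lowerInd ((lowerRt i (X₀ u) t d).eval fun b => X₀ u (i, b)), sum_comm (s := univ (α := I)),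
    sum_comm (s := univ (α := I))] at a2
  have a3 := sum_le_sum (s := univ) fun u _ =>
    mul_le_mul_of_nonneg_left (lowerRt_sum (X₀ u) t d) (hW u)
  simp only [mul_add, sum_add_distrib, ← sum_mul, hW', one_mul, mul_left_comm _
    (Fintype.card I : ℝ)] at a3
  simp only [← mul_sum, sum_const, card_univ, nsmul_eq_mul] at a2 a3
  have a4 : (t.depth : ℝ) / (d + 1) ≤ m * T / (d + 1) := by
    gcongr; exact_mod_cast ht
  simp only [Fintype.sum_prod_type, mul_assoc, ← mul_sum, div_mul_eq_mul_div _ (Fintype.card I : ℝ),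
    ← sum_div]
  simp only [← mul_div_assoc, ← sum_div]
  rw [div_le_iff₀ hI, mul_comm (Fintype.card I : ℝ), ← div_div]
  simp only [add_mul, div_mul_cancel₀ _ hI.ne']
  linarith

end Vale.Agent.P362
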