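import Vale.Agent.P362.Upper
import Vale.Agent.P362.FMean
import Vale.Agent.P362.FnQ
import Vale.Agent.P362.Lower

/-! The separation and the value of the exponent. -/

namespace Vale.Agent.P362

open Filter

theorem graph_injective {K r : ℕ} : Function.Injective (graph (K := K) (r := r)) := by
  intro ξ ξ' h
  funext j
  have h1 : (j, ξ j) ∈ graph ξ' := h ▸ Finset.mem_image_of_mem _ (Finset.mem_univ j)
  obtain ⟨l, -, hl⟩ := Finset.mem_image.1 h1
  obtain ⟨rfl, h2⟩ := Prod.mk.inj hl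
  exact h2.symm

theorem card_graph {K r : ℕ} (ξ : Fin (K + 1) → BV r) : (graph ξ).card = K + 1 := by
  rw [graph, Finset.card_image_of_injective _ fun j l h => (Prod.mk.inj h).1]
  simp

theorem abs_ind_le {ι : Type} (t : DTree ι) (z : ι → Bool) : |t.ind z| ≤ 1 := by
  unfold DTree.ind
  split_ifs <;> simp

theorem sum_ind_mul {ι : Type} [Fintype ι] [DecidableEq ι] (t : DTree ι) (ν : (ι → Bool) → ℝ) :
    ∑ z, t.ind z * ν z = ∑ z, if t.eval z = true then ν z else 0 := by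
  simp only [DTree.ind, ite_mul, one_mul, zero_mul]

/-- The advantage of shallow trees. -/
theorem adv_tree (J : ℕ) : ∃ C : ℝ, 0 < C ∧ ∀ s : ℕ, 1 ≤ s → ∀ ε : ℝ, 0 < ε → ∃ M : ℕ, 1 ≤ M ∧
    ∀ (a : BV (2 * ((J + 4) * s))) (t : DTree (Fin (J + 3 + 1) × BV (2 * ((J + 4) * s)))),
      C * t.depth ≤ 4 ^ ((J + 1) * s) →
      (∑ z, if t.eval z = true then nu (J + 3) M (fun y => chi a y / 2) z else 0) ≤
        (∑ z, if t.eval z = true then nu (J + 3) M (fun _ => 0) z else 0) + (4 / 2 ^ s + ε) := by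
  obtain ⟨C, hC, hg⟩ := growth (J + 4) (by omega)
  refine ⟨C, hC, fun s hs ε hε => ?_⟩
  obtain ⟨C', hC'⟩ := nu_adv (J + 3) (2 * ((J + 4) * s))
  obtain ⟨M, hM⟩ := exists_nat_gt (max 1 (C' / ε))
  have hM1 : (1 : ℝ) < M := (le_max_left _ _).trans_lt hM
  refine ⟨M, by exact_mod_cast hM1.le, fun a t ht => ?_⟩
  have hη : (0 : ℝ) < 2 ^ ((J + 1) * s) := by positivity
  have h := hC' M (by exact_mod_cast hM1.le) (fun y => chi a y / 2)
    (fun y => by rw [abs_div, abs_chi]; norm_num) t.ind (abs_ind_le t)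
    (4 * 2 ^ ((J + 4) * s) * (2 ^ ((J + 1) * s)) ^ (J + 4)) fun W hW => ?_
  · rw [sum_ind_mul, sum_ind_mul] at h
    refine h.trans (add_le_add le_rfl (add_le_add ?_ ?_))
    · have h1 : √((2 : ℝ) ^ (2 * ((J + 4) * s))) = 2 ^ ((J + 4) * s) := by
        rw [mul_comm, pow_mul, Real.sqrt_sq (by positivity)]
      rw [h1, div_le_div_iff₀ (by positivity) (by positivity)]
      simp only [← pow_mul, mul_assoc, ← pow_add]
      refine mul_le_mul_of_nonneg_left (pow_le_pow_right₀ one_le_two ?_) (by norm_num)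
      nlinarith [Nat.zero_le (J * s), Nat.zero_le s]
    · rw [div_le_iff₀ (by positivity)]
      have h1 := (le_max_right _ _).trans hM.le
      rw [div_le_iff₀ hε] at h1
      linarith
  · have h1 := hg _ t W (1 / 2 ^ ((J + 1) * s)) (2 ^ ((J + 4) * s)) (J + 4)
      (Finset.univ.image graph) hW (by positivity) ?_ (by positivity) ?_ ?_ ?_
    · rw [Finset.sum_image fun _ _ _ _ h => graph_injective h, div_pow, one_pow, div_mul_eq_mul_div,
        one_mul, div_le_iff₀ (by positivity)] at h1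
      exact h1
    · refine one_div_le_one_div_of_le two_pos ?_
      exact le_self_pow₀ one_le_two (by positivity)
    · rw [div_pow, one_pow, ← pow_mul, mul_comm _ 2, pow_mul, mul_one_div, div_mul_eq_mul_div,
        div_le_one (by positivity)]
      norm_num
      exact ht
    · intro S hS
      obtain ⟨ξ, -, rfl⟩ := Finset.mem_image.1 hS
      exact card_graph ξ
    · have h2 := Finset.card_image_le (s := (Finset.univ : Finset (Fin (J + 3 + 1) → BV _)))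
        (f := graph (r := 2 * ((J + 4) * s)))
      rw [Finset.card_univ, Fintype.card_fun, card_BV, Fintype.card_fin] at h2
      refine (Nat.cast_le.2 h2).trans (le_of_eq ?_)
      push_cast
      simp only [← pow_mul]
      congr 1
      ring

/-- The randomized lower bound. -/
theorem lowerR (J : ℕ) : ∃ c : ℝ, 0 < c ∧ ∀ᶠ s : ℕ in atTop, ∀ T : ℕ,
    RandComputes (sepF (J + 3) (2 * ((J + 4) * s))) T → c * 2 ^ ((4 * J + 10) * s) ≤ T := by
  obtain ⟨C, hC, hadv⟩ := adv_tree J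
  set m : ℕ := 3 + 7 * (J + 3) with hm
  set γ : ℝ := (1 / 3) ^ m with hγ
  have hγ0 : 0 < γ := by positivity
  have hm0 : (0 : ℝ) < m := by positivity
  refine ⟨γ / (4 * m * C), by positivity, ?_⟩
  have hlim : Tendsto (fun s : ℕ => (2 / C + 4) * (1 / 2 : ℝ) ^ s) atTop (nhds 0) := by
    simpa using (tendsto_pow_atTop_nhds_zero_of_lt_one (r := (1 / 2 : ℝ)) (by norm_num)
      (by norm_num)).const_mul (2 / C + 4)
  filter_upwards [hlim.eventually (gt_mem_nhds (half_pos hγ0)), eventually_ge_atTop 1]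
    with s hs hs1 T hT
  obtain ⟨M, hM, hA⟩ := hadv s hs1 (γ / 4) (by positivity)
  obtain ⟨cert, hcert⟩ := sepF_one (J + 3) (2 * ((J + 4) * s))
  set d : ℕ := ⌊(4 : ℝ) ^ ((J + 1) * s) / C⌋₊ with hd
  have hd1 : (d : ℝ) ≤ 4 ^ ((J + 1) * s) / C := Nat.floor_le (by positivity)
  have hd2 : (4 : ℝ) ^ ((J + 1) * s) / C < d + 1 := Nat.lt_floor_add_one _
  have h := lower (sepF (J + 3) (2 * ((J + 4) * s))) (nu (J + 3) M fun _ => 0)
    (fun a => nu (J + 3) M fun y => chi a y / 2)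
    (nu_nonneg _ _ fun _ => by norm_num) (nu_sum _ _ _)
    (fun a => nu_nonneg _ _ fun y => by rw [abs_div, abs_chi]; norm_num) (fun a => nu_sum _ _ _)
    d (4 / 2 ^ s + γ / 4) (1 / (4 * 72 ^ (J + 3)))
    (fun a t ht => hA a t (by
      have h1 : (t.depth : ℝ) ≤ d := by exact_mod_cast ht
      have h2 := h1.trans hd1
      rw [le_div_iff₀ hC] at h2
      linarith))
    goodAmp (fun a => nu_good _ M hM a) sepF_zero cert hcert hT m
  rw [card_BV] at h
  push_cast at h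
  have h1 : 2 * γ ≤ 1 / (4 * 72 ^ (J + 3)) * (2 / 3 : ℝ) ^ m := by
    have h2 : (2 / 3 : ℝ) ^ m = 2 ^ m * γ := by
      rw [hγ, ← mul_pow]
      norm_num
    have h3 : (72 : ℝ) ^ (J + 3) ≤ (2 ^ 7) ^ (J + 3) :=
      pow_le_pow_left₀ (by norm_num) (by norm_num) _
    have h4 : (2 : ℝ) ^ m = 8 * (2 ^ 7) ^ (J + 3) := by
      rw [hm, pow_add, pow_mul]
      norm_num
    rw [h2, ← mul_assoc]
    refine mul_le_mul_of_nonneg_right ?_ hγ0.le
    rw [div_mul_eq_mul_div, le_div_iff₀ (by positivity)]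
    linarith
  have h2 : (d : ℝ) / 2 ^ (2 * ((J + 4) * s)) ≤ 1 / C * (1 / 2) ^ s := by
    rw [div_le_iff₀ (by positivity)]
    refine hd1.trans ?_
    have h3 : (4 : ℝ) ^ ((J + 1) * s) * 2 ^ s ≤ 2 ^ (2 * ((J + 4) * s)) := by
      rw [show (4 : ℝ) = 2 ^ 2 by norm_num, ← pow_mul, ← pow_add]
      exact pow_le_pow_right₀ one_le_two (by nlinarith [Nat.zero_le s])
    rw [one_div_pow, div_le_iff₀ hC]
    field_simp
    exact h3
  have h3 : (4 : ℝ) / 2 ^ s = 4 * (1 / 2) ^ s := by rw [one_div_pow]; ring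
  have h4 : γ / 4 ≤ (m * T : ℝ) / (2 ^ (2 * ((J + 4) * s)) * (d + 1)) := by
    have h5 : (2 / C + 4) * (1 / 2 : ℝ) ^ s = 2 * (1 / C * (1 / 2) ^ s) + 4 * (1 / 2) ^ s := by
      ring
    linarith
  rw [le_div_iff₀ (by positivity)] at h4
  have h5 : (2 : ℝ) ^ ((4 * J + 10) * s) = 2 ^ (2 * ((J + 4) * s)) * 4 ^ ((J + 1) * s) := by
    rw [show (4 : ℝ) = 2 ^ 2 by norm_num, ← pow_mul, ← pow_add]
    congr 1
    ring
  rw [h5, div_mul_eq_mul_div, div_le_iff₀ (by positivity)]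
  rw [div_lt_iff₀ hC] at hd2
  have h6 : γ * (2 ^ (2 * ((J + 4) * s)) * 4 ^ ((J + 1) * s)) ≤
      γ * (2 ^ (2 * ((J + 4) * s)) * ((d + 1) * C)) := by gcongr
  nlinarith

theorem not_bound {α C : ℝ} (hα0 : 0 ≤ α) (hα : α < 4)
    (h : ∀ n : ℕ, 1 ≤ n → ∀ f : (Fin n → Bool) → Bool,
      (randQC f : ℝ) ≤ C * (1 + (quantQC f : ℝ)) ^ α) : False := by
  obtain ⟨J, hJ⟩ := exists_nat_gt (7 / (4 - α))
  rw [div_lt_iff₀ (by linarith)] at hJ
  obtain ⟨c, hc, hR⟩ := lowerR J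
  obtain ⟨C₁, hQ⟩ := sepF_QC (J + 3)
  have hlim : Tendsto (fun s : ℕ => (|C| * (1 + C₁) ^ 4 * (J + 5) ^ 12) * ((s : ℝ) ^ 12 / 2 ^ s))
      atTop (nhds 0) := by
    simpa using (tendsto_pow_const_div_const_pow_of_one_lt 12 (r := (2 : ℝ)) one_lt_two).const_mul
      (|C| * (1 + C₁) ^ 4 * (J + 5) ^ 12)
  obtain ⟨s, hs1, hs2, hs3⟩ :=
    (hR.and ((hlim.eventually (gt_mem_nhds hc)).and (eventually_ge_atTop 1))).exists
  set ρ : ℕ := (J + 4) * s with hρ
  let e := Fintype.equivFin (Idx (J + 3) (2 * ρ))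
  have hn : 1 ≤ Fintype.card (Idx (J + 3) (2 * ρ)) := Fintype.card_pos
  have h1 := h _ hn fun y => sepF (J + 3) (2 * ρ) fun i => y (e i)
  have h2 := hs1 _ (RandComputes.of_equiv e (randComputes_randQC _))
  have h3 : quantQC (fun y => sepF (J + 3) (2 * ρ) fun i => y (e i)) ≤
      C₁ * (ρ + 1) ^ 3 * 2 ^ ρ :=
    Nat.sInf_le (s := {T | QuantComputes _ T}) ((hQ ρ).quantComputes hn e)
  set Q : ℕ := quantQC (fun y => sepF (J + 3) (2 * ρ) fun i => y (e i))
  have hs : (1 : ℝ) ≤ s := by exact_mod_cast hs3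
  have h4 : (1 + Q : ℝ) ≤ ((1 + C₁) * ((J + 5) * s) ^ 3) * 2 ^ ρ := by
    have h5 : (Q : ℝ) ≤ C₁ * (ρ + 1) ^ 3 * 2 ^ ρ := by exact_mod_cast h3
    have h6 : (ρ + 1 : ℝ) ≤ (J + 5) * s := by
      rw [hρ]
      push_cast
      linarith
    have h7 : (1 : ℝ) ≤ (ρ + 1) ^ 3 * 2 ^ ρ :=
      one_le_mul_of_one_le_of_one_le (one_le_pow₀ (by linarith [Nat.cast_nonneg (α := ℝ) ρ]))
        (one_le_pow₀ one_le_two)
    calc (1 + Q : ℝ) ≤ (1 + C₁) * (ρ + 1) ^ 3 * 2 ^ ρ := by linarith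
      _ ≤ _ := by gcongr
  have hb : (1 : ℝ) ≤ (1 + C₁) * ((J + 5) * s) ^ 3 :=
    one_le_mul_of_one_le_of_one_le (by linarith [Nat.cast_nonneg (α := ℝ) C₁])
      (one_le_pow₀ (by nlinarith [Nat.cast_nonneg (α := ℝ) J]))
  have h5 : (1 + Q : ℝ) ^ α ≤ ((1 + C₁) * ((J + 5) * s) ^ 3) ^ 4 * 2 ^ ((4 * J + 9) * s) := by
    refine (Real.rpow_le_rpow (by positivity) h4 hα0).trans ?_
    rw [Real.mul_rpow (by positivity) (by positivity)]
    refine mul_le_mul ?_ ?_ (by positivity) (by positivity)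
    · refine (Real.rpow_le_rpow_of_exponent_le hb hα.le).trans (le_of_eq ?_)
      exact Real.rpow_ofNat _ 4
    · rw [← Real.rpow_natCast, ← Real.rpow_mul zero_le_two, ← Real.rpow_natCast]
      refine Real.rpow_le_rpow_of_exponent_le one_le_two ?_
      rw [hρ]
      push_cast
      have h6 : ((J : ℝ) + 4) * α ≤ 4 * J + 9 := by nlinarith
      nlinarith
  have h6 : C * (1 + Q : ℝ) ^ α ≤
      |C| * (((1 + C₁) * ((J + 5) * s) ^ 3) ^ 4 * 2 ^ ((4 * J + 9) * s)) :=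
    mul_le_mul (le_abs_self C) h5 (by positivity) (abs_nonneg C)
  have h7 : (2 : ℝ) ^ ((4 * J + 10) * s) = 2 ^ s * 2 ^ ((4 * J + 9) * s) := by
    rw [← pow_add]
    congr 1
    ring
  rw [← mul_div_assoc, div_lt_iff₀ (by positivity)] at hs2
  have h8 := mul_lt_mul_of_pos_right hs2 (by positivity : (0 : ℝ) < 2 ^ ((4 * J + 9) * s))
  have h9 := (h2.trans h1).trans h6
  rw [h7] at h9
  have h10 : |C| * (((1 + C₁) * ((J + 5) * s) ^ 3) ^ 4 * 2 ^ ((4 * J + 9) * s)) =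
      |C| * (1 + C₁) ^ 4 * (J + 5) ^ 12 * (s : ℝ) ^ 12 * 2 ^ ((4 * J + 9) * s) := by ring
  linarith

theorem alphaTot_eq : alphaTot = 4 := by
  refine IsLeast.csInf_eq ⟨⟨by norm_num, 1600 ^ 2, fun n hn f => ?_⟩, fun α hα => ?_⟩
  · have h : (randQC f : ℝ) ≤ 1600 ^ 2 * (quantQC f : ℝ) ^ 4 := by exact_mod_cast upper hn f
    rw [Real.rpow_ofNat]
    refine h.trans ?_
    gcongr
    linarith
  · by_contra h
    obtain ⟨h0, C, hC⟩ := hα
    exact not_bound h0 (not_le.1 h) hC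

end Vale.Agent.P362
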