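import Vale.Agent.P362.QCirc

/-! Decision trees as phase oracles, and amplitude amplification. -/

namespace Vale.Agent.P362

open Matrix

variable {ι : Type}

namespace QAmp

section had

variable {S : Type} [Fintype S] [DecidableEq S]

/-- The Hadamard matrix on the extra bit. -/
noncomputable def had (S : Type) [DecidableEq S] : Matrix (S × Bool) (S × Bool) ℝ :=
  Matrix.of fun p q => if p.1 = q.1 then (√2)⁻¹ * sgR (p.2 && q.2) else 0

/-- Add the bit `c s` to the extra bit. -/
def flip (c : S → Bool) (p : S × Bool) : S × Bool := (p.1, xor p.2 (c p.1))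

theorem had_diag (c : S → Bool) :
    had S * diagonal (fun p : S × Bool => sgR (p.2 && c p.1)) * had S = emb (flip c) := by
  have h2 : (√2)⁻¹ * (√2)⁻¹ = (1 / 2 : ℝ) := by
    rw [← mul_inv, Real.mul_self_sqrt (by norm_num)]
    norm_num
  ext ⟨s, b⟩ ⟨s', b'⟩
  rw [Matrix.mul_apply, Fintype.sum_prod_type, Finset.sum_eq_single s]
  · simp only [mul_diagonal, had, emb, flip, of_apply, if_true, Fintype.sum_bool, Prod.mk.injEq]
    by_cases hs : s = s'
    · subst hs
      cases b <;> cases b' <;> cases c s <;> simp [sgR] <;> linarith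
    · simp [hs]
  · intro r _ hr
    simp [mul_diagonal, had, Ne.symm hr]
  · simp

omit [Fintype S] in
theorem emb_id : emb (fun p : S => p) = (1 : Matrix S S ℝ) := by
  ext p q
  simp [emb, one_apply]

theorem had_orth : (had S)ᵀ * had S = 1 := by
  have h1 : (had S)ᵀ = had S := by
    ext p q
    simp only [had, transpose_apply, of_apply, Bool.and_comm, eq_comm]
  have h2 := had_diag (S := S) fun _ => false
  have h3 : (diagonal fun p : S × Bool => sgR (p.2 && false)) = 1 := by
    simp [sgR]
  have h4 : flip (S := S) (fun _ => false) = fun p => p := by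
    funext p
    simp [flip]
  rw [h3, h4, emb_id, Matrix.mul_one] at h2
  rw [h1, h2]

theorem emb_mul_emb {S₁ S₂ : Type} [DecidableEq S₂] (e : S → S₂) (e' : S₁ → S) :
    emb e * emb e' = emb fun s => e (e' s) := by
  ext p q
  rw [Matrix.mul_apply, Finset.sum_eq_single (e' q)]
  · simp [emb]
  · intro r _ hr
    simp [emb, hr]
  · simp

theorem diag_mul_emb {S₁ : Type} [Fintype S₁] [DecidableEq S₁] (d : S → ℝ) (e : S₁ → S) :
    diagonal d * emb e = emb e * diagonal fun s => d (e s) := by
  ext p q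
  rw [diagonal_mul, mul_diagonal]
  simp only [emb, of_apply]
  split_ifs with h
  · rw [h, mul_comm]
  · simp

theorem diag_orth (d : S → Bool) :
    (diagonal fun s => sgR (d s))ᵀ * (diagonal fun s => sgR (d s)) = (1 : Matrix S S ℝ) := by
  rw [diagonal_transpose, diagonal_mul_diagonal, ← diagonal_one]
  congr 1
  funext s
  cases d s <;> simp [sgR]

theorem circ_flip (q : S → Option ι) :
    Circ 1 fun x : ι → Bool => (emb (flip fun s => (q s).elim false x) :
      Matrix (S × Bool) (S × Bool) ℝ) := by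
  have h := ((Circ.const (ι := ι) (had_orth (S := S))).mul
    (Circ.phase fun p : S × Bool => if p.2 = true then q p.1 else none)).mul
      (Circ.const (ι := ι) (had_orth (S := S)))
  refine h.congr fun x => ?_
  rw [← had_diag]
  unfold phase
  congr 3
  funext ⟨s, b⟩
  cases b
  · simp [sgR]
  · cases hq : q s <;> simp [sgR, hq]

end had

/-- The variable at the root. -/
def root : DTree ι → Option ι
  | .leaf _ => none
  | .node i _ _ => some i

/-- The subtree below the root. -/
def child : DTree ι → Bool → DTree ι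
  | .leaf b, _ => .leaf b
  | .node _ l r, b => if b = true then r else l

theorem depth_child {D : ℕ} (t : DTree ι) (ht : t.depth ≤ D + 1) (b : Bool) :
    (child t b).depth ≤ D := by
  cases t with
  | leaf c => simp [child, DTree.depth]
  | node i l r =>
    simp only [DTree.depth] at ht
    cases b <;> simp only [child, Bool.false_eq_true, if_false, if_true] <;> omega

theorem eval_child (t : DTree ι) (x : ι → Bool) :
    (child t ((root t).elim false x)).eval x = t.eval x := by
  cases t with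
  | leaf c => rfl
  | node i l r =>
    cases hx : x i <;> simp [child, root, DTree.eval, hx]

theorem eval_depth_zero (t : DTree ι) (ht : t.depth ≤ 0) (x y : ι → Bool) :
    t.eval x = t.eval y := by
  cases t with
  | leaf c => rfl
  | node i l r => simp [DTree.depth] at ht

end QAmp

open QAmp

theorem Impl.tree (D : ℕ) {S : Type} [Fintype S] [DecidableEq S] (g : S → (ι → Bool) → Bool)
    (hg : ∀ s, DT D (g s)) : Impl (2 * D) fun x => diagonal fun s => sgR (g s x) := by
  induction D generalizing S with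
  | zero =>
    choose t ht1 ht2 using hg
    have h := (Circ.const (ι := ι) (diag_orth fun s => g s fun _ => false)).impl
    refine h.congr fun x => ?_
    congr 1
    funext s
    rw [← ht2, ← ht2, eval_depth_zero (t s) (ht1 s) _ x]
  | succ D ih =>
    choose t ht1 ht2 using hg
    have h1 := ih (S := S × Bool) (fun p x => (child (t p.1) p.2).eval x)
      fun p => ⟨_, depth_child _ (ht1 p.1) p.2, fun _ => rfl⟩
    have h2 := (circ_flip fun s => root (t s)).impl
    have h3 := ((h2.mul h1).mul h2).mono (T' := 2 * (D + 1)) (by omega)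
    have hinj : Function.Injective fun s : S => (s, false) := fun a b h => (Prod.mk.inj h).1
    refine h3.slice hinj hinj fun x => ?_
    rw [Matrix.mul_assoc, Matrix.mul_assoc, emb_mul_emb, diag_mul_emb, ← Matrix.mul_assoc,
      emb_mul_emb]
    congr 2
    · funext s
      simp [QAmp.flip]
    · funext s
      simp only [QAmp.flip, Bool.false_xor]
      rw [eval_child, ht2]

theorem QE.tree {D : ℕ} {g : (ι → Bool) → Bool} (hg : DT D g) :
    QE (2 * D) fun x (h : Bool → ℝ) => h (g x) := by
  have h1 := Impl.tree D (S := Unit × Bool) (fun p x => p.2 && g x) fun p => by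
    obtain ⟨u, b⟩ := p
    cases b
    · exact (DT.const D false).congr fun _ => rfl
    · exact hg.congr fun _ => rfl
  have h2 := (Circ.const (ι := ι) (had_orth (S := Unit))).impl
  have h3 := ((h2.mul h1).mul h2).mono (T' := 2 * D) (by omega)
  have h4 : Impl (2 * D) fun x : ι → Bool =>
      (emb (QAmp.flip fun _ : Unit => g x) : Matrix (Unit × Bool) (Unit × Bool) ℝ) :=
    h3.congr fun x => had_diag fun _ : Unit => g x
  refine ((h4.qe ((), false)).map Prod.snd).congr fun x h => ?_
  rw [Finset.sum_eq_single ((), g x)]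
  · simp [emb, QAmp.flip]
  · intro p _ hp
    simp [emb, QAmp.flip, hp]
  · simp

namespace QAmp

theorem telescope (θ : ℝ) (T : ℕ) :
    2 * Real.sin (2 * θ) * ∑ t ∈ Finset.range T, Real.cos (2 * ((2 * t + 1) * θ)) =
      Real.sin (4 * T * θ) := by
  induction T with
  | zero => simp
  | succ T ih =>
    rw [Finset.sum_range_succ, mul_add, ih]
    have h1 : (4 * ((T + 1 : ℕ) : ℝ) * θ) = 2 * ((2 * T + 1) * θ) + 2 * θ := by
      push_cast
      ring
    have h2 : (4 * (T : ℝ) * θ) = 2 * ((2 * T + 1) * θ) - 2 * θ := by ring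
    rw [h1, h2, Real.sin_add, Real.sin_sub]
    ring

theorem trig_bound (θ : ℝ) (T : ℕ) (hT : 1 ≤ T) (hs : 0 ≤ Real.sin θ) (hc : 0 ≤ Real.cos θ)
    (h : 1 ≤ (T : ℝ) ^ 2 * Real.sin θ ^ 2) :
    (T : ℝ) / 4 ≤ T * Real.sin θ ^ 2 + ∑ t ∈ Finset.range T, Real.sin ((2 * t + 1) * θ) ^ 2 := by
  have hT' : (1 : ℝ) ≤ T := by exact_mod_cast hT
  have hsum : 0 ≤ ∑ t ∈ Finset.range T, Real.sin ((2 * t + 1) * θ) ^ 2 :=
    Finset.sum_nonneg fun _ _ => sq_nonneg _
  by_cases hp : 1 / 4 ≤ Real.sin θ ^ 2
  · nlinarith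
  · push Not at hp
    have hsc := Real.sin_sq_add_cos_sq θ
    have hc2 : 1 / 2 ≤ Real.cos θ := by nlinarith
    have hTs : 1 ≤ (T : ℝ) * Real.sin θ := by
      have h0 : 0 ≤ (T : ℝ) * Real.sin θ := mul_nonneg (by linarith) hs
      nlinarith
    have hspos : 0 < Real.sin θ := by
      rcases hs.eq_or_lt with h0 | h0
      · rw [← h0] at hTs
        norm_num at hTs
      · exact h0
    have h1 := telescope θ T
    have h2 := Real.sin_le_one (4 * T * θ)
    have h3 : ∑ t ∈ Finset.range T, Real.sin ((2 * t + 1) * θ) ^ 2 =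
        T / 2 - (∑ t ∈ Finset.range T, Real.cos (2 * ((2 * t + 1) * θ))) / 2 := by
      rw [Finset.sum_congr rfl fun (t : ℕ) _ => Real.sin_sq_eq_half_sub ((2 * (t : ℝ) + 1) * θ),
        Finset.sum_sub_distrib, Finset.sum_div]
      simp only [Finset.sum_const, Finset.card_range, nsmul_eq_mul]
      ring
    rw [Real.sin_two_mul] at h1
    generalize ∑ t ∈ Finset.range T, Real.cos (2 * ((2 * t + 1) * θ)) = σ at h1 h3
    have h4 : σ ≤ T / 2 := by
      by_contra h5
      push Not at h5
      have h6 : 0 < Real.sin θ * Real.cos θ := mul_pos hspos (by linarith)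
      have h7 : Real.sin θ * Real.cos θ * (T / 2) < Real.sin θ * Real.cos θ * σ :=
        mul_lt_mul_of_pos_left h5 h6
      have h8 : 1 * (1 / 2) ≤ (T : ℝ) * Real.sin θ * Real.cos θ :=
        mul_le_mul hTs hc2 (by norm_num) (by linarith)
      nlinarith
    have h9 : 0 ≤ (T : ℝ) * Real.sin θ ^ 2 := by positivity
    linarith

section grover

variable {S : Type} [Fintype S] [DecidableEq S]

/-- The reflection about the starting state. -/
def refl0 (s₀ : S) : Matrix S S ℝ := diagonal fun s => sgR (decide (s ≠ s₀))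

theorem refl_mulVec {A : Matrix S S ℝ} (hA : Aᵀ * A = 1) (s₀ : S) (w : S → ℝ) :
    (A * refl0 s₀ * Aᵀ) *ᵥ w = fun s => 2 * (∑ r, A r s₀ * w r) * A s s₀ - w s := by
  have h1 : A * Aᵀ = 1 := mul_eq_one_comm.mp hA
  have h2 : ∀ z : S → ℝ, refl0 s₀ *ᵥ z = (2 * z s₀) • Pi.single s₀ (1 : ℝ) - z := by
    intro z
    funext s
    by_cases hs : s = s₀
    · subst hs
      simp [refl0, mulVec_diagonal, sgR]
      ring
    · simp [refl0, mulVec_diagonal, sgR, hs]
  rw [← mulVec_mulVec, ← mulVec_mulVec, h2, mulVec_sub, mulVec_mulVec, h1, one_mulVec,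
    mulVec_smul]
  funext s
  simp [mulVec, dotProduct]

theorem grover_col {A : Matrix S S ℝ} (hA : Aᵀ * A = 1) (s₀ : S) (good : S → Bool) (θ : ℝ)
    (hs : ∑ s, (if good s = true then A s s₀ ^ 2 else 0) = Real.sin θ ^ 2)
    (hn : ∑ s, A s s₀ ^ 2 = 1) (t : ℕ) :
    ∃ X Y : ℝ, Real.sin θ * X = Real.sin ((2 * t + 1) * θ) ∧
      Real.cos θ * Y = Real.cos ((2 * t + 1) * θ) ∧
      ∀ s, ((A * refl0 s₀ * Aᵀ * diagonal fun s => sgR (good s)) ^ t * A) s s₀ =
        (if good s = true then X else Y) * A s s₀ := by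
  induction t with
  | zero => exact ⟨1, 1, by simp, by simp, fun s => by simp⟩
  | succ t ih =>
    obtain ⟨X, Y, hX, hY, hc⟩ := ih
    have hsum : ∑ r, A r s₀ * (sgR (good r) * ((if good r = true then X else Y) * A r s₀)) =
        Real.cos ((2 * t + 1) * θ + θ) := by
      have h1 : ∀ r, A r s₀ * (sgR (good r) * ((if good r = true then X else Y) * A r s₀)) =
          Y * A r s₀ ^ 2 - (X + Y) * (if good r = true then A r s₀ ^ 2 else 0) := by
        intro r
        cases good r <;> simp [sgR] <;> ring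
      rw [Finset.sum_congr rfl fun r _ => h1 r, Finset.sum_sub_distrib, ← Finset.mul_sum,
        ← Finset.mul_sum, hs, hn, Real.cos_add, ← hX, ← hY]
      have h2 := Real.sin_sq_add_cos_sq θ
      linear_combination (-Y) * h2
    have hang : (2 * ((t + 1 : ℕ) : ℝ) + 1) * θ = ((2 * t + 1) * θ + θ) + θ := by
      push_cast
      ring
    have hback : (2 * (t : ℝ) + 1) * θ = ((2 * t + 1) * θ + θ) - θ := by ring
    refine ⟨2 * Real.cos ((2 * t + 1) * θ + θ) + X, 2 * Real.cos ((2 * t + 1) * θ + θ) - Y,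
      ?_, ?_, fun s => ?_⟩
    · rw [hback, Real.sin_sub] at hX
      rw [hang, Real.sin_add ((2 * t + 1) * θ + θ)]
      linear_combination hX
    · rw [hback, Real.cos_sub] at hY
      rw [hang, Real.cos_add ((2 * t + 1) * θ + θ)]
      linear_combination -hY
    · have h3 : ((A * refl0 s₀ * Aᵀ * diagonal fun s => sgR (good s)) ^ (t + 1) * A) s s₀ =
          ((A * refl0 s₀ * Aᵀ) *ᵥ fun r =>
            sgR (good r) * ((if good r = true then X else Y) * A r s₀)) s := by
        rw [pow_succ', Matrix.mul_assoc, Matrix.mul_assoc (A * refl0 s₀ * Aᵀ), Matrix.mul_apply]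
        simp only [mulVec, dotProduct, diagonal_mul, hc]
      rw [h3, refl_mulVec hA]
      simp only [hsum]
      cases good s <;> simp [sgR] <;> ring

theorem impl_grover {TA D : ℕ} {A : (ι → Bool) → Matrix S S ℝ} (hA : Circ TA A) (s₀ : S)
    (good : S → (ι → Bool) → Bool) (hgood : ∀ s, DT D (good s)) (t : ℕ) :
    Impl (TA + t * (2 * TA + 2 * D)) fun x =>
      (A x * refl0 s₀ * (A x)ᵀ * diagonal fun s => sgR (good s x)) ^ t * A x := by
  have hG := ((hA.mul (Circ.const (ι := ι) (diag_orth fun s => decide (s ≠ s₀)))).mul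
    hA.transpose).impl.mul (Impl.tree D good hgood)
  induction t with
  | zero => exact (hA.impl.mono (by omega)).congr fun x => by simp
  | succ t ih =>
    refine ((hG.mul ih).mono (le_of_eq (by ring))).congr fun x => ?_
    rw [pow_succ', Matrix.mul_assoc _ _ (A x)]
    rfl

end grover

end QAmp

theorem QE.amp {S : Type} [Fintype S] [DecidableEq S] {TA D T : ℕ}
    {A : (ι → Bool) → Matrix S S ℝ} (hA : Circ TA A) (s₀ : S) (good : S → (ι → Bool) → Bool)
    (hgood : ∀ s, DT D (good s)) (hT : 1 ≤ T) :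
    ∃ E : (ι → Bool) → (S → ℝ) → ℝ, QE (TA + T * (2 * TA + 2 * D)) E ∧ ∀ x,
      1 ≤ (T : ℝ) ^ 2 * (∑ s, if good s x = true then A x s s₀ ^ 2 else 0) →
        ∀ g : S → ℝ, (∀ s, 0 ≤ g s) →
          1 / 8 * (∑ s, if good s x = true then A x s s₀ ^ 2 * g s else 0) ≤
            (∑ s, if good s x = true then A x s s₀ ^ 2 else 0) * E x g := by
  have hT' : (0 : ℝ) < T := by exact_mod_cast hT
  have hF : ∀ a : Bool × Fin T, QE (TA + T * (2 * TA + 2 * D)) fun x (g : S → ℝ) =>
      ∑ s, ((A x * refl0 s₀ * (A x)ᵀ * diagonal fun s => sgR (good s x)) ^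
        (if a.1 = true then a.2.val else 0) * A x) s s₀ ^ 2 * g s := by
    intro a
    refine ((impl_grover hA s₀ good hgood _).qe s₀).mono ?_
    have h1 : (if a.1 = true then a.2.val else 0) ≤ T := by
      have := a.2.isLt
      split_ifs <;> omega
    exact Nat.add_le_add_left (Nat.mul_le_mul_right _ h1) _
  have hD := QE.dist (ι := ι) (A := Bool × Fin T) (fun _ => 1 / (2 * (T : ℝ)))
    (fun _ => by positivity) (by
      simp only [Finset.sum_const, Finset.card_univ, Fintype.card_prod, Fintype.card_bool,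
        Fintype.card_fin, nsmul_eq_mul]
      push_cast
      field_simp)
  refine ⟨_, (hD.bind hF).mono (by omega), fun x hx g hg => ?_⟩
  have hn := hA.sum_sq x s₀
  have hp0 : 0 ≤ ∑ s, if good s x = true then A x s s₀ ^ 2 else 0 :=
    Finset.sum_nonneg fun s _ => by split_ifs <;> positivity
  have hp1 : (∑ s, if good s x = true then A x s s₀ ^ 2 else 0) ≤ 1 := by
    rw [← hn]
    exact Finset.sum_le_sum fun s _ => by split_ifs <;> first | rfl | positivity
  obtain ⟨θ, hs, hc, hθ⟩ : ∃ θ : ℝ, 0 ≤ Real.sin θ ∧ 0 ≤ Real.cos θ ∧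
      (∑ s, if good s x = true then A x s s₀ ^ 2 else 0) = Real.sin θ ^ 2 := by
    have h1 := Real.sin_arcsin (x := √(∑ s, if good s x = true then A x s s₀ ^ 2 else 0))
      (le_trans (by norm_num) (Real.sqrt_nonneg _)) (Real.sqrt_le_one.mpr hp1)
    refine ⟨Real.arcsin √(∑ s, if good s x = true then A x s s₀ ^ 2 else 0), ?_,
      Real.cos_arcsin_nonneg _, ?_⟩
    · rw [h1]
      exact Real.sqrt_nonneg _
    · rw [h1, Real.sq_sqrt hp0]
  have hG0 : 0 ≤ ∑ s, if good s x = true then A x s s₀ ^ 2 * g s else 0 :=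
    Finset.sum_nonneg fun s _ => by
      have := hg s
      split_ifs <;> positivity
  have key : ∀ t : ℕ, Real.sin ((2 * t + 1) * θ) ^ 2 *
      (∑ s, if good s x = true then A x s s₀ ^ 2 * g s else 0) ≤ Real.sin θ ^ 2 *
        ∑ s, ((A x * refl0 s₀ * (A x)ᵀ * diagonal fun s => sgR (good s x)) ^ t * A x) s s₀ ^ 2 *
          g s := by
    intro t
    obtain ⟨X, Y, hX, -, hcol⟩ := grover_col (hA.orth x) s₀ (fun s => good s x) θ hθ hn t
    rw [← hX, mul_pow, mul_assoc, Finset.mul_sum]
    refine mul_le_mul_of_nonneg_left (Finset.sum_le_sum fun s _ => ?_) (sq_nonneg _)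
    rw [hcol]
    have := hg s
    split_ifs
    · exact le_of_eq (by ring)
    · rw [mul_zero]
      positivity
  rw [hθ] at hx ⊢
  have htr := trig_bound θ T hT hs hc hx
  have h0 := key 0
  simp only [Nat.cast_zero, mul_zero, zero_add, one_mul] at h0
  simp only [Fintype.sum_prod_type, Fintype.sum_bool, if_true, Bool.false_eq_true, if_false,
    Finset.sum_const, Finset.card_univ, Fintype.card_fin, nsmul_eq_mul]
  rw [← Finset.mul_sum, Fin.sum_univ_eq_sum_range (fun t => ∑ s,
    ((A x * refl0 s₀ * (A x)ᵀ * diagonal fun s => sgR (good s x)) ^ t * A x) s s₀ ^ 2 * g s) T]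
  have h1 := Finset.sum_le_sum fun t (_ : t ∈ Finset.range T) => key t
  rw [← Finset.sum_mul, ← Finset.mul_sum] at h1
  generalize (∑ s, if good s x = true then A x s s₀ ^ 2 * g s else 0) = G at h0 h1 hG0 ⊢
  generalize ∑ t ∈ Finset.range T, ∑ s,
    ((A x * refl0 s₀ * (A x)ᵀ * diagonal fun s => sgR (good s x)) ^ t * A x) s s₀ ^ 2 * g s =
      E1 at h1 ⊢
  generalize ∑ s,
    ((A x * refl0 s₀ * (A x)ᵀ * diagonal fun s => sgR (good s x)) ^ 0 * A x) s s₀ ^ 2 * g s =
      E0 at h0 ⊢
  have h2 := mul_le_mul_of_nonneg_right htr hG0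
  have h3 := mul_le_mul_of_nonneg_left h0 hT'.le
  have h4 : Real.sin θ ^ 2 * (1 / (2 * (T : ℝ)) * E1 + T * (1 / (2 * (T : ℝ)) * E0)) =
      (Real.sin θ ^ 2 * E1 + T * (Real.sin θ ^ 2 * E0)) / (2 * T) := by
    field_simp
  rw [h4, le_div_iff₀ (by positivity)]
  nlinarith

end Vale.Agent.P362
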