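import Vale.Agent.P362.QDefs

/-! Closure properties of circuits and of quantum expectation functionals. -/

namespace Vale.Agent.P362

set_option linter.unusedSectionVars false

open Matrix

variable {ι : Type}

section circ

variable {S : Type} [Fintype S] [DecidableEq S]

theorem phase_transpose (q : S → Option ι) (x : ι → Bool) : (phase q x)ᵀ = phase q x := by
  simp [phase]

theorem phase_mul_self (q : S → Option ι) (x : ι → Bool) : phase q x * phase q x = 1 := by
  rw [phase, diagonal_mul_diagonal, ← diagonal_one]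
  congr 1
  funext s
  cases q s with
  | none => simp
  | some i => cases h : x i <;> simp [sgR, h]

theorem phase_none (x : ι → Bool) : phase (fun _ : S => (none : Option ι)) x = 1 := by
  simp [phase]

theorem orth_mul {U V : Matrix S S ℝ} (hU : Uᵀ * U = 1) (hV : Vᵀ * V = 1) :
    (U * V)ᵀ * (U * V) = 1 := by
  rw [transpose_mul, Matrix.mul_assoc, ← Matrix.mul_assoc Uᵀ, hU, Matrix.one_mul, hV]

theorem Circ.orth {T : ℕ} {V : (ι → Bool) → Matrix S S ℝ} (h : Circ T V) (x : ι → Bool) :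
    (V x)ᵀ * V x = 1 := by
  induction T generalizing V with
  | zero =>
    obtain ⟨U, hU, hV⟩ := h
    rw [hV, hU]
  | succ T ih =>
    obtain ⟨U, q, V', hU, hV', hV⟩ := h
    rw [hV]
    exact orth_mul (orth_mul hU (by rw [phase_transpose, phase_mul_self])) (ih hV')

theorem Circ.congr {T : ℕ} {V V' : (ι → Bool) → Matrix S S ℝ} (h : Circ T V)
    (hV : ∀ x, V x = V' x) : Circ T V' := by
  rwa [← funext hV]

theorem Circ.succ {T : ℕ} {V : (ι → Bool) → Matrix S S ℝ} (h : Circ T V) : Circ (T + 1) V :=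
  ⟨1, fun _ => none, V, by simp, h, fun x => by rw [phase_none]; simp⟩

theorem Circ.mono {T T' : ℕ} {V : (ι → Bool) → Matrix S S ℝ} (h : Circ T V) (hT : T ≤ T') :
    Circ T' V := by
  induction hT with
  | refl => exact h
  | step _ ih => exact ih.succ

theorem Circ.const {U : Matrix S S ℝ} (hU : Uᵀ * U = 1) : Circ 0 fun _ : ι → Bool => U :=
  ⟨U, hU, fun _ => rfl⟩

theorem Circ.phase (q : S → Option ι) : Circ 1 (phase q) :=
  ⟨1, q, fun _ => 1, by simp, Circ.const (by simp), fun x => by simp⟩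

theorem Circ.const_mul {T : ℕ} {V : (ι → Bool) → Matrix S S ℝ} (h : Circ T V) {U : Matrix S S ℝ}
    (hU : Uᵀ * U = 1) : Circ T fun x => U * V x := by
  cases T with
  | zero =>
    obtain ⟨U', hU', hV⟩ := h
    exact ⟨U * U', orth_mul hU hU', fun x => by simp only [hV]⟩
  | succ T =>
    obtain ⟨U', q, V', hU', hV', hV⟩ := h
    exact ⟨U * U', q, V', orth_mul hU hU', hV', fun x => by simp only [hV, Matrix.mul_assoc]⟩

theorem Circ.mul {T T' : ℕ} {V V' : (ι → Bool) → Matrix S S ℝ} (h : Circ T V) (h' : Circ T' V') :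
    Circ (T + T') fun x => V x * V' x := by
  induction T generalizing V with
  | zero =>
    obtain ⟨U, hU, hV⟩ := h
    rw [Nat.zero_add]
    exact (h'.const_mul hU).congr fun x => by rw [hV]
  | succ T ih =>
    obtain ⟨U, q, W, hU, hW, hV⟩ := h
    rw [Nat.add_right_comm]
    exact ⟨U, q, _, hU, ih hW, fun x => by simp only [hV, Matrix.mul_assoc]⟩

theorem Circ.transpose {T : ℕ} {V : (ι → Bool) → Matrix S S ℝ} (h : Circ T V) :
    Circ T fun x => (V x)ᵀ := by
  induction T generalizing V with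
  | zero =>
    obtain ⟨U, hU, hV⟩ := h
    exact ⟨Uᵀ, by rw [transpose_transpose]; exact mul_eq_one_comm.1 hU,
      fun x => by simp only [hV]⟩
  | succ T ih =>
    obtain ⟨U, q, W, hU, hW, hV⟩ := h
    have h1 : Circ 0 fun _ : ι → Bool => Uᵀ :=
      Circ.const (by rw [transpose_transpose]; exact mul_eq_one_comm.1 hU)
    refine ((ih hW).mul ((Circ.phase q).mul h1)).congr fun x => ?_
    simp only [hV, transpose_mul, phase_transpose]

theorem orth_sum_sq {U : Matrix S S ℝ} (hU : Uᵀ * U = 1) (s₀ : S) : ∑ s, U s s₀ ^ 2 = 1 := by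
  have h := congrFun (congrFun hU s₀) s₀
  simpa [Matrix.mul_apply, sq] using h

theorem Circ.sum_sq {T : ℕ} {V : (ι → Bool) → Matrix S S ℝ} (h : Circ T V) (x : ι → Bool)
    (s₀ : S) : ∑ s, V x s s₀ ^ 2 = 1 :=
  orth_sum_sq (h.orth x) s₀

/-- A unit vector is a column of an orthogonal matrix. -/
theorem exists_orth_col (v : S → ℝ) (hv : ∑ s, v s ^ 2 = 1) (s₀ : S) :
    ∃ U : Matrix S S ℝ, Uᵀ * U = 1 ∧ ∀ s, U s s₀ = v s := by
  by_cases h : v s₀ = 1
  · refine ⟨1, by simp, fun s => ?_⟩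
    by_cases hs : s = s₀
    · rw [hs, h, Matrix.one_apply_eq]
    · rw [← Finset.add_sum_erase _ _ (Finset.mem_univ s₀), h] at hv
      have h0 : ∑ s ∈ Finset.univ.erase s₀, v s ^ 2 = 0 := by linarith
      rw [Finset.sum_eq_zero_iff_of_nonneg fun _ _ => sq_nonneg _] at h0
      have h1 := h0 s (by simp [hs])
      rw [Matrix.one_apply_ne hs]
      exact (pow_eq_zero_iff two_ne_zero).1 h1 |>.symm
  · set u : S → ℝ := fun s => (if s = s₀ then 1 else 0) - v s with hu
    have hc : 1 - v s₀ ≠ 0 := fun h' => h (by linarith)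
    have huu : u ⬝ᵥ u = 2 * (1 - v s₀) := by
      have h1 : ∀ s, u s * u s = (if s = s₀ then 1 - 2 * v s else 0) + v s ^ 2 := by
        intro s
        simp only [hu]
        split_ifs <;> ring
      simp only [dotProduct, h1, Finset.sum_add_distrib, Finset.sum_ite_eq', Finset.mem_univ,
        if_true, hv]
      ring
    refine ⟨1 - (1 - v s₀)⁻¹ • vecMulVec u u, ?_, fun s => ?_⟩
    · have ht : (1 - (1 - v s₀)⁻¹ • vecMulVec u u)ᵀ = 1 - (1 - v s₀)⁻¹ • vecMulVec u u := by
        simp [transpose_vecMulVec]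
      rw [ht]
      simp only [Matrix.sub_mul, Matrix.mul_sub, Matrix.one_mul, Matrix.mul_one, Matrix.smul_mul,
        Matrix.mul_smul, vecMulVec_mul_vecMulVec, huu, vecMulVec_smul, smul_smul]
      have h2 : (1 - v s₀)⁻¹ * ((1 - v s₀)⁻¹ * (2 * (1 - v s₀))) = 2 * (1 - v s₀)⁻¹ := by
        field_simp
      rw [smul_sub, smul_smul, h2, two_mul, add_smul]
      abel
    · simp only [Matrix.sub_apply, Matrix.smul_apply, vecMulVec_apply, hu, if_true, smul_eq_mul,
        Matrix.one_apply]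
      field_simp
      ring

theorem Circ.reindex {S' : Type} [Fintype S'] [DecidableEq S'] {T : ℕ}
    {V : (ι → Bool) → Matrix S S ℝ} (h : Circ T V) (e : S' ≃ S) :
    Circ T fun x => (V x).submatrix e e := by
  induction T generalizing V with
  | zero =>
    obtain ⟨U, hU, hV⟩ := h
    exact ⟨U.submatrix e e, by
      rw [transpose_submatrix, submatrix_mul_equiv, hU, submatrix_one_equiv],
      fun x => by simp only [hV]⟩
  | succ T ih =>
    obtain ⟨U, q, W, hU, hW, hV⟩ := h
    refine ⟨U.submatrix e e, fun s => q (e s), _, by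
      rw [transpose_submatrix, submatrix_mul_equiv, hU, submatrix_one_equiv], ih hW, fun x => ?_⟩
    have h1 : P362.phase (fun s => q (e s)) x = (P362.phase q x).submatrix e e := by
      simp only [P362.phase, submatrix_diagonal_equiv]
      rfl
    simp only [h1, submatrix_mul_equiv, hV]

theorem Circ.blockDiagonal' {S' : S → Type} [∀ s, Fintype (S' s)] [∀ s, DecidableEq (S' s)] {T : ℕ}
    {V : ∀ s, (ι → Bool) → Matrix (S' s) (S' s) ℝ} (h : ∀ s, Circ T (V s)) :
    Circ T fun x => blockDiagonal' fun s => V s x := by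
  induction T generalizing V with
  | zero =>
    choose U hU hV using h
    refine ⟨Matrix.blockDiagonal' U, ?_, fun x => by simp only [hV]⟩
    rw [blockDiagonal'_transpose, ← blockDiagonal'_mul]
    simp only [hU]
    exact blockDiagonal'_one
  | succ T ih =>
    choose U q W hU hW hV using h
    refine ⟨Matrix.blockDiagonal' U, fun s => q s.1 s.2, _, ?_, ih hW, fun x => ?_⟩
    · rw [blockDiagonal'_transpose, ← blockDiagonal'_mul]
      simp only [hU]
      exact blockDiagonal'_one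
    · have h1 : P362.phase (fun s : Σ s, S' s => q s.1 s.2) x =
          Matrix.blockDiagonal' fun s => P362.phase (q s) x := by
        simp only [P362.phase, blockDiagonal'_diagonal]
      simp only [h1, ← blockDiagonal'_mul, hV]

theorem Circ.fromBlocks {S' : Type} [Fintype S'] [DecidableEq S'] {T : ℕ}
    {V : (ι → Bool) → Matrix S S ℝ} {V' : (ι → Bool) → Matrix S' S' ℝ} (h : Circ T V)
    (h' : Circ T V') : Circ T fun x => fromBlocks (V x) 0 0 (V' x) := by
  induction T generalizing V V' with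
  | zero =>
    obtain ⟨U, hU, hV⟩ := h
    obtain ⟨U', hU', hV'⟩ := h'
    refine ⟨Matrix.fromBlocks U 0 0 U', ?_, fun x => by simp only [hV, hV']⟩
    simp [fromBlocks_transpose, fromBlocks_multiply, hU, hU']
  | succ T ih =>
    obtain ⟨U, q, W, hU, hW, hV⟩ := h
    obtain ⟨U', q', W', hU', hW', hV'⟩ := h'
    refine ⟨Matrix.fromBlocks U 0 0 U', Sum.elim q q', _, ?_, ih hW hW', fun x => ?_⟩
    · simp [fromBlocks_transpose, fromBlocks_multiply, hU, hU']
    · have h1 : P362.phase (Sum.elim q q') x =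
          Matrix.fromBlocks (P362.phase q x) 0 0 (P362.phase q' x) := by
        simp only [P362.phase, fromBlocks_diagonal]
        congr 1
        funext s
        cases s <;> rfl
      simp [h1, fromBlocks_multiply, hV, hV']

theorem Circ.one (T : ℕ) : Circ T fun _ : ι → Bool => (1 : Matrix S S ℝ) :=
  (Circ.const (by simp)).mono (Nat.zero_le T)

end circ

section emb

theorem mul_emb_apply {S S' R : Type} [Fintype S'] [DecidableEq S'] (W : Matrix R S' ℝ)
    (e : S → S') (u : R) (s : S) : (W * emb e) u s = W u (e s) := by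
  simp [Matrix.mul_apply, emb]

theorem emb_mul_emb {S S' S'' : Type} [Fintype S'] [DecidableEq S'] [DecidableEq S'']
    (e : S → S') (e' : S' → S'') : emb e' * emb e = emb (fun s => e' (e s)) := by
  ext u s
  rw [mul_emb_apply]
  rfl

theorem emb_id {S : Type} [DecidableEq S] : emb (fun s : S => s) = 1 := by
  ext u s
  simp [emb, Matrix.one_apply]

theorem emb_transpose_mul {S S' : Type} [DecidableEq S] [Fintype S'] [DecidableEq S'] {e : S → S'}
    (he : Function.Injective e) : (emb e)ᵀ * emb e = 1 := by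
  ext u s
  rw [mul_emb_apply]
  simp [emb, Matrix.one_apply, he.eq_iff, eq_comm]

theorem emb_mul_apply {S S' R : Type} [Fintype S] [DecidableEq S'] {e : S → S'}
    (he : Function.Injective e) (V : Matrix S R ℝ) (s : S) (u : R) :
    (emb e * V) (e s) u = V s u := by
  classical
  simp [Matrix.mul_apply, emb, he.eq_iff]

theorem emb_mul_apply_of_not {S S' R : Type} [Fintype S] [DecidableEq S'] {e : S → S'}
    (V : Matrix S R ℝ) {s' : S'} (hs : ∀ s, s' ≠ e s) (u : R) : (emb e * V) s' u = 0 := by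
  simp [Matrix.mul_apply, emb, hs]

theorem sum_emb_mul_sq {S S' R : Type} [Fintype S] [Fintype S'] [DecidableEq S'] {e : S → S'}
    (he : Function.Injective e) (V : Matrix S R ℝ) (u : R) (g : S' → ℝ) :
    ∑ s', (emb e * V) s' u ^ 2 * g s' = ∑ s, V s u ^ 2 * g (e s) := by
  symm
  refine Fintype.sum_of_injective e he _ _ (fun s' hs => ?_) fun s => ?_
  · rw [emb_mul_apply_of_not V fun s h => hs ⟨s, h.symm⟩]
    simp
  · rw [emb_mul_apply he]

theorem fromBlocks_mul_inl {S S' : Type} [Fintype S] [DecidableEq S] [Fintype S'] [DecidableEq S']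
    (V : Matrix S S ℝ) (V' : Matrix S' S' ℝ) :
    fromBlocks V 0 0 V' * emb (Sum.inl : S → S ⊕ S') = emb (Sum.inl : S → S ⊕ S') * V := by
  ext u s
  rw [mul_emb_apply]
  cases u with
  | inl u => rw [emb_mul_apply Sum.inl_injective]; rfl
  | inr u => rw [emb_mul_apply_of_not _ fun _ => Sum.inr_ne_inl]; rfl

theorem fromBlocks_mul_inr {S S' : Type} [Fintype S] [DecidableEq S] [Fintype S'] [DecidableEq S']
    (V : Matrix S S ℝ) (V' : Matrix S' S' ℝ) :
    fromBlocks V 0 0 V' * emb (Sum.inr : S' → S ⊕ S') = emb (Sum.inr : S' → S ⊕ S') * V' := by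
  ext u s
  rw [mul_emb_apply]
  cases u with
  | inl u => rw [emb_mul_apply_of_not _ fun _ => Sum.inl_ne_inr]; rfl
  | inr u => rw [emb_mul_apply Sum.inr_injective]; rfl

end emb

theorem Circ.impl {S : Type} [Fintype S] [DecidableEq S] {T : ℕ} {V : (ι → Bool) → Matrix S S ℝ}
    (h : Circ T V) : Impl T V :=
  ⟨S, inferInstance, inferInstance, fun s => s, fun s => s, V, fun _ _ h => h, fun _ _ h => h, h,
    fun x => by simp [emb_id]⟩

section impl

variable {S : Type} [Fintype S]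

theorem Impl.congr {T : ℕ} {V V' : (ι → Bool) → Matrix S S ℝ} (h : Impl T V)
    (hV : ∀ x, V x = V' x) : Impl T V' := by
  rwa [← funext hV]

theorem Impl.mono {T T' : ℕ} {V : (ι → Bool) → Matrix S S ℝ} (h : Impl T V) (hT : T ≤ T') :
    Impl T' V := by
  obtain ⟨S', _, _, e, e', W, he, he', hW, hV⟩ := h
  exact ⟨S', _, _, e, e', W, he, he', hW.mono hT, hV⟩

theorem Impl.mul {T T' : ℕ} {V V' : (ι → Bool) → Matrix S S ℝ} (h : Impl T V) (h' : Impl T' V') :
    Impl (T + T') fun x => V x * V' x := by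
  obtain ⟨S₁, _, _, e₁, e₁', W₁, he₁, he₁', hW₁, hV₁⟩ := h
  obtain ⟨S₂, _, _, e₂, e₂', W₂, he₂, he₂', hW₂, hV₂⟩ := h'
  obtain ⟨σ, hσ⟩ := Equiv.Perm.exists_extending_pair
    (f := fun s => (Sum.inr (e₂' s) : S₁ ⊕ S₂)) (g := fun s => Sum.inl (e₁ s))
    (Sum.inr_injective.comp he₂') (Sum.inl_injective.comp he₁)
  have hc := ((hW₁.fromBlocks (Circ.one (S := S₂) T)).mul
    (((Circ.one (S := S₁) T').fromBlocks hW₂).const_mul (emb_transpose_mul σ.injective)))
  refine ⟨S₁ ⊕ S₂, _, _, fun s => Sum.inr (e₂ s), fun s => Sum.inl (e₁' s), _,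
    Sum.inr_injective.comp he₂, Sum.inl_injective.comp he₁', hc, fun x => ?_⟩
  have h1 : emb σ * (emb (Sum.inr : S₂ → S₁ ⊕ S₂) * emb e₂') =
      emb (Sum.inl : S₁ → S₁ ⊕ S₂) * emb e₁ := by
    simp only [emb_mul_emb, hσ]
  rw [← emb_mul_emb e₂ Sum.inr, ← emb_mul_emb e₁' Sum.inl]
  simp only [Matrix.mul_assoc]
  rw [← Matrix.mul_assoc (fromBlocks 1 0 0 (W₂ x)), fromBlocks_mul_inr, Matrix.mul_assoc, hV₂,
    ← Matrix.mul_assoc (emb Sum.inr), ← Matrix.mul_assoc (emb σ), h1, ← Matrix.mul_assoc,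
    ← Matrix.mul_assoc, fromBlocks_mul_inl, Matrix.mul_assoc (emb Sum.inl), hV₁]
  simp only [Matrix.mul_assoc]

theorem Impl.slice {S' : Type} [Fintype S'] [DecidableEq S'] {T : ℕ}
    {W : (ι → Bool) → Matrix S' S' ℝ} (h : Impl T W) {e e' : S → S'} (he : Function.Injective e)
    (he' : Function.Injective e') {V : (ι → Bool) → Matrix S S ℝ}
    (hV : ∀ x, W x * emb e = emb e' * V x) : Impl T V := by
  obtain ⟨S₁, _, _, e₁, e₁', W₁, he₁, he₁', hW₁, hV₁⟩ := h
  refine ⟨S₁, _, _, fun s => e₁ (e s), fun s => e₁' (e' s), W₁, he₁.comp he, he₁'.comp he', hW₁,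
    fun x => ?_⟩
  rw [← emb_mul_emb e e₁, ← emb_mul_emb e' e₁', ← Matrix.mul_assoc, hV₁, Matrix.mul_assoc, hV,
    Matrix.mul_assoc]

theorem Impl.qe {T : ℕ} {V : (ι → Bool) → Matrix S S ℝ} (h : Impl T V) (s₀ : S) :
    QE T fun x (g : S → ℝ) => ∑ s, V x s s₀ ^ 2 * g s := by
  obtain ⟨S₁, _, _, e, e', W, he, he', hW, hV⟩ := h
  have : Nonempty S := ⟨s₀⟩
  refine ⟨S₁, _, _, e s₀, W, Function.invFun e', hW, fun x g => ?_⟩
  have h1 := sum_emb_mul_sq he' (V x) s₀ fun s' => g (Function.invFun e' s')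
  simp only [← hV, mul_emb_apply, Function.leftInverse_invFun he' _] at h1
  exact h1.symm

end impl

section qe

variable {A B : Type}

theorem QE.congr {T : ℕ} {E E' : (ι → Bool) → (A → ℝ) → ℝ} (h : QE T E)
    (hE : ∀ x g, E x g = E' x g) : QE T E' := by
  rwa [← funext fun x => funext (hE x)]

theorem QE.mono {T T' : ℕ} {E : (ι → Bool) → (A → ℝ) → ℝ} (h : QE T E) (hT : T ≤ T') :
    QE T' E := by
  obtain ⟨S, _, _, s₀, V, o, hV, hE⟩ := h
  exact ⟨S, _, _, s₀, V, o, hV.mono hT, hE⟩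

theorem QE.map {T : ℕ} {E : (ι → Bool) → (A → ℝ) → ℝ} (h : QE T E) (φ : A → B) :
    QE T fun x (g : B → ℝ) => E x fun a => g (φ a) := by
  obtain ⟨S, _, _, s₀, V, o, hV, hE⟩ := h
  exact ⟨S, _, _, s₀, V, fun s => φ (o s), hV, fun x g => hE x _⟩

theorem QE.dist [Fintype A] (p : A → ℝ) (hp : ∀ a, 0 ≤ p a) (hp' : ∑ a, p a = 1) :
    QE 0 fun (_ : ι → Bool) (g : A → ℝ) => ∑ a, p a * g a := by
  classical
  have hA : Nonempty A := by
    by_contra hA
    rw [not_nonempty_iff] at hA
    simp at hp'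
  obtain ⟨a₀⟩ := hA
  obtain ⟨U, hU, hv⟩ := exists_orth_col (fun a => √(p a))
    (by simp only [Real.sq_sqrt (hp _), hp']) a₀
  exact ⟨A, _, _, a₀, fun _ => U, fun a => a, Circ.const hU, fun x g => by
    simp only [hv, Real.sq_sqrt (hp _)]⟩

theorem QE.pure (a : A) : QE 0 fun (_ : ι → Bool) (g : A → ℝ) => g a :=
  ⟨Unit, inferInstance, inferInstance, (), fun _ => 1, fun _ => a, Circ.one 0, fun x g => by simp⟩

theorem QE.bind {T T' : ℕ} {E : (ι → Bool) → (A → ℝ) → ℝ} {F : A → (ι → Bool) → (B → ℝ) → ℝ}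
    (h : QE T E) (h' : ∀ a, QE T' (F a)) :
    QE (T + T') fun x (g : B → ℝ) => E x fun a => F a x g := by
  obtain ⟨S, _, _, s₀, V, o, hV, hE⟩ := h
  choose S' i₁ i₂ t₀ W o' hW hF using h'
  let R : Type := Σ s : S, S' (o s)
  let e : S → R := fun s => ⟨s, t₀ (o s)⟩
  have he : Function.Injective e := fun s s' h => congrArg Sigma.fst h
  obtain ⟨σ, hσ⟩ := Equiv.Perm.exists_extending_pair
    (f := fun s => (Sum.inl s : S ⊕ R)) (g := fun s => Sum.inr (e s))
    Sum.inl_injective (Sum.inr_injective.comp he)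
  have hc := ((Circ.one (S := S) T').fromBlocks
    (Circ.blockDiagonal' (S' := fun s => S' (o s)) fun s => hW (o s))).mul
    ((hV.fromBlocks (Circ.one (S := R) T)).const_mul (emb_transpose_mul σ.injective))
  rw [Nat.add_comm] at hc
  refine ⟨S ⊕ R, _, _, Sum.inl s₀, _,
    Sum.elim (fun s => o' (o s) (t₀ (o s))) fun r => o' (o r.1) r.2, hc, fun x g => ?_⟩
  have h1 : emb σ * emb (Sum.inl : S → S ⊕ R) = emb (Sum.inr : R → S ⊕ R) * emb e := by
    simp only [emb_mul_emb, hσ]
  let Wb : Matrix R R ℝ := blockDiagonal' fun s => W (o s) x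
  have h2 : ∀ u, (fromBlocks (1 : Matrix S S ℝ) 0 0 Wb *
      (emb σ * fromBlocks (V x) 0 0 (1 : Matrix R R ℝ))) u (Sum.inl s₀) =
      (emb (Sum.inr : R → S ⊕ R) * (Wb * emb e * V x)) u s₀ := by
    intro u
    refine (mul_emb_apply _ (Sum.inl : S → S ⊕ R) u s₀).symm.trans ?_
    rw [Matrix.mul_assoc, Matrix.mul_assoc, fromBlocks_mul_inl,
      ← Matrix.mul_assoc (emb σ), h1, ← Matrix.mul_assoc, ← Matrix.mul_assoc, fromBlocks_mul_inr]
    simp only [Matrix.mul_assoc]
  simp only [Wb] at h2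
  simp only [h2]
  rw [sum_emb_mul_sq Sum.inr_injective, hE, Fintype.sum_sigma]
  refine Finset.sum_congr rfl fun s _ => ?_
  rw [hF, Finset.mul_sum]
  refine Finset.sum_congr rfl fun t _ => ?_
  have h3 : (Wb * emb e * V x) ⟨s, t⟩ s₀ =
      W (o s) x t (t₀ (o s)) * V x s s₀ := by
    rw [Matrix.mul_apply, Finset.sum_eq_single s]
    · rw [mul_emb_apply]
      simp only [Wb, e]
      rw [blockDiagonal'_apply_eq]
    · intro s' _ hs'
      rw [mul_emb_apply]
      simp only [Wb, e]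
      rw [blockDiagonal'_apply_ne _ _ _ hs'.symm, zero_mul]
    · simp
  rw [h3]
  simp only [Sum.elim_inr]
  ring

theorem QE.le {T : ℕ} {E : (ι → Bool) → (A → ℝ) → ℝ} (h : QE T E) (x : ι → Bool) {g g' : A → ℝ}
    (hg : ∀ a, g a ≤ g' a) : E x g ≤ E x g' := by
  obtain ⟨S, _, _, s₀, V, o, hV, hE⟩ := h
  rw [hE, hE]
  exact Finset.sum_le_sum fun s _ => mul_le_mul_of_nonneg_left (hg _) (sq_nonneg _)

theorem QE.lin {T : ℕ} {E : (ι → Bool) → (A → ℝ) → ℝ} (h : QE T E) (x : ι → Bool) (g : A → ℝ)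
    (c d : ℝ) : E x (fun a => c * g a + d) = c * E x g + d := by
  obtain ⟨S, _, _, s₀, V, o, hV, hE⟩ := h
  rw [hE, hE]
  simp only [mul_add, Finset.sum_add_distrib, ← Finset.sum_mul, hV.sum_sq x s₀, Finset.mul_sum]
  rw [one_mul]
  congr 1
  exact Finset.sum_congr rfl fun s _ => by ring

/-- Run a test `μ` times and accept if all runs accept. -/
theorem QE.and_rep {T : ℕ} {E : (ι → Bool) → (Bool → ℝ) → ℝ} (h : QE T E) (μ : ℕ) :
    ∃ E' : (ι → Bool) → (Bool → ℝ) → ℝ, QE (μ * T) E' ∧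
      ∀ x, E' x (fun b => if b = true then 1 else 0) =
        (E x fun b => if b = true then 1 else 0) ^ μ := by
  induction μ with
  | zero => exact ⟨_, (QE.pure true).mono (Nat.zero_le _), fun x => by simp⟩
  | succ μ ih =>
    obtain ⟨E', h1, h2⟩ := ih
    refine ⟨_, (h1.bind fun b => h.map fun b' => b && b').mono (by rw [Nat.succ_mul]),
      fun x => ?_⟩
    have h3 : (fun b : Bool => E x fun b' => if (b && b') = true then (1 : ℝ) else 0) =
        fun b => (E x fun b' => if b' = true then 1 else 0) * (if b = true then 1 else 0) + 0 := by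
      funext b
      cases b
      · have h4 := h.lin x (fun _ => 0) 0 0
        simpa using h4
      · simp
    simp only [h3]
    rw [h1.lin, h2]
    ring

end qe

end Vale.Agent.P362
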