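import Vale.Agent.P362.Tree

/-! Real quantum query circuits: definitions. -/

namespace Vale.Agent.P362

open Matrix

variable {ι : Type}

/-- The sign of a bit. -/
def sgR (b : Bool) : ℝ := if b = true then -1 else 1

/-- A phase query: the basis state `s` asks for the bit `q s` (or for nothing). -/
def phase {S : Type} [DecidableEq S] (q : S → Option ι) (x : ι → Bool) : Matrix S S ℝ :=
  diagonal fun s => (q s).elim 1 fun i => sgR (x i)

/-- `V x` is a product of fixed orthogonal matrices and `T` phase queries. -/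
def Circ {S : Type} [Fintype S] [DecidableEq S] : ℕ → ((ι → Bool) → Matrix S S ℝ) → Prop
  | 0, V => ∃ U : Matrix S S ℝ, Uᵀ * U = 1 ∧ ∀ x, V x = U
  | T + 1, V => ∃ (U : Matrix S S ℝ) (q : S → Option ι) (V' : (ι → Bool) → Matrix S S ℝ),
      Uᵀ * U = 1 ∧ Circ T V' ∧ ∀ x, V x = U * phase q x * V' x

/-- The matrix of a map between basis sets. -/
def emb {S S' : Type} [DecidableEq S'] (e : S → S') : Matrix S' S ℝ :=
  Matrix.of fun s' s => if s' = e s then 1 else 0

/-- `V x` is implemented with `T` queries on a larger space. -/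
def Impl {S : Type} [Fintype S] (T : ℕ) (V : (ι → Bool) → Matrix S S ℝ) : Prop :=
  ∃ (S' : Type) (_ : Fintype S') (_ : DecidableEq S') (e e' : S → S')
    (W : (ι → Bool) → Matrix S' S' ℝ), Function.Injective e ∧ Function.Injective e' ∧ Circ T W ∧
      ∀ x, W x * emb e = emb e' * V x

/-- `E x` is the expectation functional of the output of a quantum algorithm with `T` queries. -/
def QE {A : Type} (T : ℕ) (E : (ι → Bool) → (A → ℝ) → ℝ) : Prop :=
  ∃ (S : Type) (_ : Fintype S) (_ : DecidableEq S) (s₀ : S) (V : (ι → Bool) → Matrix S S ℝ)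
    (o : S → A), Circ T V ∧ ∀ x g, E x g = ∑ s, V x s s₀ ^ 2 * g (o s)

/-- `f` is computed with `T` queries and success probability at least `2/3`. -/
def QC (T : ℕ) (f : (ι → Bool) → Bool) : Prop :=
  ∃ E : (ι → Bool) → (Bool → ℝ) → ℝ, QE T E ∧
    ∀ x, (2 : ℝ) / 3 ≤ E x fun b => if b = f x then 1 else 0

end Vale.Agent.P362
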