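import Vale.Agent.P362.QCirc

/-! Simulation of phase circuits in the standard query model. -/

namespace Vale.Agent.P362

open Matrix
open scoped Kronecker

namespace QSim

section emb

variable {S S' S'' : Type}

lemma mul_emb [Fintype S'] [DecidableEq S'] (M : Matrix S'' S' ℝ) (e : S → S') (a : S'') (s : S) :
    (M * emb e : Matrix S'' S ℝ) a s = M a (e s) := by
  simp [mul_apply, emb]

lemma emb_mul_inj [Fintype S] [DecidableEq S] [DecidableEq S'] {e : S → S'}
    (he : Function.Injective e) (M : Matrix S S'' ℝ) (s : S) (a : S'') :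
    (emb e * M : Matrix S' S'' ℝ) (e s) a = M s a := by
  simp [mul_apply, emb, he.eq_iff]

lemma emb_orth [Fintype S'] [DecidableEq S] [DecidableEq S'] {e : S → S'}
    (he : Function.Injective e) : (emb e)ᵀ * emb e = (1 : Matrix S S ℝ) := by
  ext a b
  rw [mul_emb]
  simp [emb, he.eq_iff, one_apply, eq_comm]

lemma orth_mul [Fintype S] [DecidableEq S] {A B : Matrix S S ℝ} (hA : Aᵀ * A = 1)
    (hB : Bᵀ * B = 1) : (A * B)ᵀ * (A * B) = 1 := by
  rw [transpose_mul, mul_assoc, ← mul_assoc Aᵀ, hA, one_mul, hB]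

lemma orth_kron [Fintype S] [DecidableEq S] [Fintype S'] [DecidableEq S'] {A : Matrix S S ℝ}
    {B : Matrix S' S' ℝ} (hA : Aᵀ * A = 1) (hB : Bᵀ * B = 1) : (A ⊗ₖ B)ᵀ * (A ⊗ₖ B) = 1 := by
  rw [← kroneckerMap_transpose, ← mul_kronecker_mul, hA, hB, one_kronecker_one]

/-- a real orthogonal matrix as a unitary -/
noncomputable def toU [Fintype S] [DecidableEq S] (M : Matrix S S ℝ) (h : Mᵀ * M = 1) :
    unitaryGroup S ℂ :=
  ⟨M.map (↑), mem_unitaryGroup_iff'.2 (by
    ext a b
    have := congrFun (congrFun h a) b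
    simp only [mul_apply, transpose_apply, one_apply] at this
    simp only [mul_apply, star_apply, map_apply, one_apply, RCLike.star_def, Complex.conj_ofReal,
      ← Complex.ofReal_mul, ← Complex.ofReal_sum, this]
    split_ifs <;> simp)⟩

lemma map_mulVec [Fintype S] (M : Matrix S' S ℝ) (N : Matrix S S'' ℝ) (a : S'') :
    (M.map ((↑) : ℝ → ℂ)).mulVec (fun s => (N s a : ℂ)) = fun s => ((M * N : Matrix S' S'' ℝ) s a : ℂ) := by
  funext s
  simp [mulVec, dotProduct, mul_apply]

end emb

/-- the Hadamard gate -/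
noncomputable def had : Matrix Bool Bool ℝ := of fun b c => sgR (b && c) / √2

lemma had_orth : hadᵀ * had = 1 := by
  have h : (√2 : ℝ)⁻¹ * (√2)⁻¹ = 1 / 2 := by
    rw [← mul_inv, Real.mul_self_sqrt zero_le_two, one_div]
  ext a b
  cases a <;> cases b <;> simp [had, sgR, mul_apply, div_eq_mul_inv, h]
  all_goals norm_num

lemma had_xor (b c d : Bool) : had (xor b d) c = had b c * if c then sgR d else 1 := by
  cases b <;> cases c <;> cases d <;> simp [had, sgR, neg_div]

variable {n m : ℕ}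

/-- the permutation of the basis made by a query -/
def flp (y : Fin n → Bool) (s : QBasis n m) : QBasis n m := (s.1, xor s.2.1 (y s.1), s.2.2)

lemma flp_flp (y : Fin n → Bool) (s : QBasis n m) : flp y (flp y s) = s := by simp [flp]

lemma oracle_eq (y : Fin n → Bool) : oracle m y = (emb (flp y)).map (↑) := by
  ext a b
  by_cases h : a = flp y b
  · simp [oracle, emb, h, flp]
  · have h' : a ≠ (b.1, xor b.2.1 (y b.1), b.2.2) := h
    simp [oracle, emb, h, h']

lemma qState_congr {U U' : ℕ → unitaryGroup (QBasis n m) ℂ} (s₀ : QBasis n m) (y : Fin n → Bool)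
    (T : ℕ) (h : ∀ t ≤ T, U t = U' t) : qState U s₀ y T = qState U' s₀ y T := by
  induction T with
  | zero => rw [qState, qState, h 0 le_rfl]
  | succ T ih => rw [qState, qState, h _ le_rfl, ih fun t ht => h t (by omega)]

variable {ι S : Type} [Fintype S] [DecidableEq S] (i₀ : Fin n) (σ : S ≃ Fin m) (e : ι ≃ Fin n)

/-- the embedding of the basis -/
def base (s : S) : QBasis n m := (i₀, false, σ s)

omit [Fintype S] [DecidableEq S] in
lemma base_inj : Function.Injective (base i₀ σ) := fun _ _ h =>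
  σ.injective (congrArg (fun s => s.2.2) h)

/-- action on the workspace -/
def lft (U : Matrix S S ℝ) : Matrix (QBasis n m) (QBasis n m) ℝ :=
  (1 : Matrix (Fin n) (Fin n) ℝ) ⊗ₖ ((1 : Matrix Bool Bool ℝ) ⊗ₖ U.submatrix σ.symm σ.symm)

lemma lft_orth {U : Matrix S S ℝ} (h : Uᵀ * U = 1) : (lft σ U)ᵀ * lft (n := n) σ U = 1 :=
  orth_kron (by simp) (orth_kron (by simp) (by
    rw [transpose_submatrix, submatrix_mul_equiv, h, submatrix_one_equiv]))

omit [DecidableEq S] in
lemma lft_mul (U : Matrix S S ℝ) :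
    (lft (n := n) σ U * emb (base i₀ σ) : Matrix (QBasis n m) S ℝ) = emb (base i₀ σ) * U := by
  ext ⟨i, b, z⟩ s
  obtain ⟨t, rfl⟩ := σ.surjective z
  rw [mul_emb]
  classical
  by_cases h1 : i = i₀ <;> cases b <;> simp [lft, base, mul_apply, emb, h1]

/-- the controlled permutation that prepares a query -/
def prep (q : S → Option ι) (s : QBasis n m) : QBasis n m :=
  (Equiv.swap i₀ ((q (σ.symm s.2.2)).elim i₀ e) s.1, xor s.2.1 (q (σ.symm s.2.2)).isSome, s.2.2)

omit [Fintype S] [DecidableEq S] in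
lemma prep_inj (q : S → Option ι) : Function.Injective (prep i₀ σ e q) :=
  Function.Involutive.injective fun s => by simp [prep]

/-- the preparation of a query -/
noncomputable def gate (q : S → Option ι) : Matrix (QBasis n m) (QBasis n m) ℝ :=
  (1 : Matrix (Fin n) (Fin n) ℝ) ⊗ₖ (had ⊗ₖ (1 : Matrix (Fin m) (Fin m) ℝ)) * emb (prep i₀ σ e q)

omit [Fintype S] [DecidableEq S] in
lemma gate_orth (q : S → Option ι) : (gate i₀ σ e q)ᵀ * gate i₀ σ e q = 1 :=
  orth_mul (orth_kron (by simp) (orth_kron had_orth (by simp))) (emb_orth (prep_inj i₀ σ e q))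

lemma query (q : S → Option ι) (y : Fin n → Bool) :
    (emb (flp (m := m) y) * (gate i₀ σ e q * emb (base i₀ σ) : Matrix (QBasis n m) S ℝ) :
        Matrix (QBasis n m) S ℝ) =
      (gate i₀ σ e q * emb (base i₀ σ) : Matrix (QBasis n m) S ℝ) * phase q fun i => y (e i) := by
  ext a s
  have hi : Function.Involutive (flp (m := m) y) := flp_flp y
  obtain ⟨⟨i, b, z⟩, rfl⟩ := hi.surjective a
  rw [emb_mul_inj hi.injective, phase, mul_diagonal, mul_emb, mul_emb, gate, mul_emb, mul_emb]
  simp only [prep, base, flp, Equiv.symm_apply_apply, Equiv.swap_apply_left, kroneckerMap_apply,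
    had_xor, Bool.false_xor, one_apply]
  cases q s with
  | none => simp
  | some k =>
    by_cases h : i = e k
    · by_cases hz : z = σ s <;> cases hy : y (e k) <;> simp [h, hy, hz, sgR]
    · simp [h]

lemma sim (s₀ : S) (T : ℕ) : ∀ V : (ι → Bool) → Matrix S S ℝ, Circ T V →
    ∀ L : Matrix (QBasis n m) (QBasis n m) ℝ, Lᵀ * L = 1 →
      ∃ U : ℕ → unitaryGroup (QBasis n m) ℂ, ∀ y, qState U (base i₀ σ s₀) y T =
        fun s => ((L * (emb (base i₀ σ) * V fun i => y (e i) : Matrix (QBasis n m) S ℝ) :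
          Matrix (QBasis n m) S ℝ) s s₀ : ℂ) := by
  induction T with
  | zero =>
    rintro V ⟨U, hU, hV⟩ L hL
    refine ⟨fun _ => toU _ (orth_mul hL (lft_orth σ hU)), fun y => funext fun s => ?_⟩
    rw [hV, ← lft_mul, ← Matrix.mul_assoc, mul_emb]
    simp [qState, toU]
  | succ T ih =>
    rintro V ⟨U, q, V', hU, hV', hV⟩ L hL
    have hg := gate_orth i₀ σ e q
    obtain ⟨U', h'⟩ := ih V' hV' _ hg
    refine ⟨Function.update U' (T + 1) (toU _ (orth_mul (orth_mul hL (lft_orth σ hU))
      (B := (gate i₀ σ e q)ᵀ) (by rw [transpose_transpose, mul_eq_one_comm.1 hg]))), fun y => ?_⟩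
    rw [qState, qState_congr (U' := U') _ y T fun t ht => Function.update_of_ne (by omega) _ _,
      h', Function.update_self, oracle_eq, map_mulVec, toU, map_mulVec, hV,
      ← Matrix.mul_assoc (gate i₀ σ e q), ← Matrix.mul_assoc (emb (flp y)), query]
    simp only [Matrix.mul_assoc]
    rw [← Matrix.mul_assoc _ (gate i₀ σ e q), hg, Matrix.one_mul, ← Matrix.mul_assoc (lft σ U),
      lft_mul, Matrix.mul_assoc]

end QSim

open QSim in
theorem QC.quantComputes {ι : Type} {n T : ℕ} (hn : 1 ≤ n) (e : ι ≃ Fin n)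
    {f : (ι → Bool) → Bool} (h : QC T f) : QuantComputes (fun y => f fun i => y (e i)) T := by
  obtain ⟨E, ⟨S, _, _, s₀, V, o, hV, hE⟩, hf⟩ := h
  let σ := Fintype.equivFin S
  let i₀ : Fin n := ⟨0, hn⟩
  obtain ⟨U, hU⟩ := sim i₀ σ e s₀ T V hV 1 (by simp)
  refine ⟨_, U, base i₀ σ s₀, fun s => o (σ.symm s.2.2), fun y => (hf fun i => y (e i)).trans ?_⟩
  rw [hE, hU, Matrix.one_mul]
  refine le_trans (le_of_eq ?_) (Finset.sum_le_sum_of_subset_of_nonneg
    (Finset.subset_univ (Finset.univ.map ⟨_, base_inj i₀ σ⟩)) fun s _ _ => by positivity)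
  rw [Finset.sum_map]
  refine Finset.sum_congr rfl fun s _ => ?_
  simp only [Function.Embedding.coeFn_mk, emb_mul_inj (base_inj i₀ σ)]
  simp [base]

end Vale.Agent.P362
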