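import Vale.Agent.P362.Defs

/-! Basic operations on decision trees. -/

namespace Vale.Agent.P362

variable {ι κ : Type}

/-- `g` is computed by a decision tree of depth at most `d`. -/
def DT (d : ℕ) (g : (ι → Bool) → Bool) : Prop := ∃ t : DTree ι, t.depth ≤ d ∧ ∀ x, t.eval x = g x

/-- Continue with `u b` at every leaf labelled `b`. -/
def DTree.bind : DTree ι → (Bool → DTree ι) → DTree ι
  | .leaf b, u => u b
  | .node i l r, u => .node i (l.bind u) (r.bind u)

theorem DTree.eval_bind (t : DTree ι) (u : Bool → DTree ι) (x : ι → Bool) :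
    (t.bind u).eval x = (u (t.eval x)).eval x := by
  induction t with
  | leaf b => rfl
  | node i l r ihl ihr =>
    simp only [DTree.bind, DTree.eval, ihl, ihr]
    split_ifs <;> rfl

theorem DTree.depth_bind (t : DTree ι) (u : Bool → DTree ι) (d : ℕ) (hu : ∀ b, (u b).depth ≤ d) :
    (t.bind u).depth ≤ t.depth + d := by
  induction t with
  | leaf b => simpa [DTree.bind, DTree.depth] using hu b
  | node i l r ihl ihr =>
    simp only [DTree.bind, DTree.depth]
    omega

/-- Rename the variables. -/
def DTree.map (e : ι → κ) : DTree ι → DTree κ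
  | .leaf b => .leaf b
  | .node i l r => .node (e i) (l.map e) (r.map e)

theorem DTree.eval_map (e : ι → κ) (t : DTree ι) (y : κ → Bool) :
    (t.map e).eval y = t.eval (fun i => y (e i)) := by
  induction t with
  | leaf b => rfl
  | node i l r ihl ihr => simp only [DTree.map, DTree.eval, ihl, ihr]

theorem DTree.depth_map (e : ι → κ) (t : DTree ι) : (t.map e).depth = t.depth := by
  induction t with
  | leaf b => rfl
  | node i l r ihl ihr => simp only [DTree.map, DTree.depth, ihl, ihr]

theorem DT.const (d : ℕ) (b : Bool) : DT d (fun _ : ι → Bool => b) :=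
  ⟨.leaf b, Nat.zero_le _, fun _ => rfl⟩

theorem DT.mono {d d' : ℕ} {g : (ι → Bool) → Bool} (h : DT d g) (hd : d ≤ d') : DT d' g := by
  obtain ⟨t, h1, h2⟩ := h
  exact ⟨t, h1.trans hd, h2⟩

theorem DT.congr {d : ℕ} {g g' : (ι → Bool) → Bool} (h : DT d g) (hg : ∀ x, g x = g' x) :
    DT d g' := by
  obtain ⟨t, h1, h2⟩ := h
  exact ⟨t, h1, fun x => (h2 x).trans (hg x)⟩

theorem DT.bind {d d' : ℕ} {g : (ι → Bool) → Bool} {u : Bool → (ι → Bool) → Bool} (h : DT d g)
    (hu : ∀ b, DT d' (u b)) : DT (d + d') fun x => u (g x) x := by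
  obtain ⟨t, h1, h2⟩ := h
  choose v hv1 hv2 using hu
  refine ⟨t.bind v, (t.depth_bind v d' hv1).trans (by omega), fun x => ?_⟩
  rw [DTree.eval_bind, h2, hv2]

theorem DT.and {d d' : ℕ} {g g' : (ι → Bool) → Bool} (h : DT d g) (h' : DT d' g') :
    DT (d + d') fun x => g x && g' x := by
  refine (h.bind (u := fun b x => b && g' x) fun b => ?_).congr fun _ => rfl
  cases b
  · exact (DT.const d' false).congr fun _ => rfl
  · exact h'.congr fun _ => rfl

theorem DT.not {d : ℕ} {g : (ι → Bool) → Bool} (h : DT d g) : DT d fun x => !g x :=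
  h.bind (d' := 0) (u := fun b _ => !b) fun b => DT.const 0 _

theorem DT.query {d : ℕ} (i : ι) {u : Bool → (ι → Bool) → Bool} (hu : ∀ b, DT d (u b)) :
    DT (d + 1) fun x => u (x i) x := by
  have h : DT 1 fun x : ι → Bool => x i :=
    ⟨.node i (.leaf false) (.leaf true), le_rfl, fun x => by
      cases hx : x i <;> simp [DTree.eval, hx]⟩
  exact (h.bind hu).mono (by omega)

/-- Read `m` bits and continue adaptively. -/
theorem DT.read {d m : ℕ} (e : Fin m → ι) {u : (Fin m → Bool) → (ι → Bool) → Bool}
    (hu : ∀ w, DT d (u w)) : DT (d + m) fun x => u (fun s => x (e s)) x := by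
  induction m generalizing d with
  | zero => exact (hu default).congr fun x => by rw [Subsingleton.elim (fun s => x (e s)) default]
  | succ m ih =>
    have h := DT.query (d := d + m) (e 0)
      (u := fun b x => u (Fin.cons b fun s => x (e s.succ)) x)
      fun b => ih (fun s => e s.succ) (u := fun w x => u (Fin.cons b w) x) fun w => hu _
    refine h.congr fun x => ?_
    congr 1
    funext s
    induction s using Fin.cases <;> rfl

theorem DT.all_list {α : Type} {d : ℕ} {g : α → (ι → Bool) → Bool} (h : ∀ a, DT d (g a))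
    (L : List α) : DT (L.length * d) fun x => L.all fun a => g a x := by
  induction L with
  | nil => exact (DT.const _ true).congr fun _ => rfl
  | cons a L ih =>
    refine (((h a).and ih).mono ?_).congr fun _ => rfl
    rw [List.length_cons]
    nlinarith

theorem DT.card [Fintype ι] (g : (ι → Bool) → Bool) : DT (Fintype.card ι) g := by
  have h := DT.read (d := 0) (Fintype.equivFin ι).symm
    (u := fun w _ => g fun i => w (Fintype.equivFin ι i)) fun w => DT.const 0 _
  rw [Nat.zero_add] at h
  exact h.congr fun x => by simp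

theorem DT.randComputes {d : ℕ} {g : (ι → Bool) → Bool} (h : DT d g) : RandComputes g d := by
  obtain ⟨t, h1, h2⟩ := h
  refine ⟨1, fun _ => 1, fun _ => t, fun _ => zero_le_one, by simp, fun _ => h1, fun x => ?_⟩
  simp only [h2, if_true, Finset.univ_unique, Finset.sum_singleton]
  norm_num

theorem RandComputes.of_equiv (e : ι ≃ κ) {f : (ι → Bool) → Bool} {T : ℕ}
    (h : RandComputes (fun y : κ → Bool => f fun i => y (e i)) T) : RandComputes f T := by
  obtain ⟨m, p, t, h1, h2, h3, h4⟩ := h
  refine ⟨m, p, fun j => (t j).map e.symm, h1, h2, fun j => by rw [DTree.depth_map]; exact h3 j,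
    fun x => ?_⟩
  have h5 := h4 fun k => x (e.symm k)
  simpa only [DTree.eval_map, Equiv.symm_apply_apply] using h5

end Vale.Agent.P362
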