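import Vale.Agent.P362.Tree

/-! Definitions for the known bound `D ≤ C Q ^ 4`. -/

namespace Vale.Agent.P362

variable {ι : Type} [DecidableEq ι]

/-- Flip the bits in `B`. -/
def flipOn (B : Finset ι) (x : ι → Bool) : ι → Bool := fun i => if i ∈ B then !x i else x i

/-- The discrete derivative of `g` in the directions `S` at `x`. -/
def dif (S : Finset ι) (g : (ι → Bool) → Bool) (x : ι → Bool) : ℤ :=
  ∑ B ∈ S.powerset, (-1) ^ B.card * if g (flipOn B x) = true then 1 else 0

/-- The real degree of `g` is at most `d`. -/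
def DegLe (d : ℕ) (g : (ι → Bool) → Bool) : Prop := ∀ S x, dif S g x ≠ 0 → S.card ≤ d

/-- The block sensitivity of `g` is at most `b`. -/
def BsLe (b : ℕ) (g : (ι → Bool) → Bool) : Prop :=
  ∀ (x : ι → Bool) (m : ℕ) (B : Fin m → Finset ι), (∀ j k, j ≠ k → Disjoint (B j) (B k)) →
    (∀ j, g (flipOn (B j) x) ≠ g x) → m ≤ b

end Vale.Agent.P362
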