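import Vale.Agent.P362.Defs

/-! The weighted adversary bound. -/

namespace Vale.Agent.P362

open Matrix

namespace UpAdv

variable {n m : ℕ}

/-- real part of the inner product -/
noncomputable def rp {ι : Type} [Fintype ι] (u v : ι → ℂ) : ℝ := (star u ⬝ᵥ v).re

lemma rp_eq {ι : Type} [Fintype ι] (u v : ι → ℂ) : rp u v = ∑ s, (star (u s) * v s).re := by
  unfold rp dotProduct
  rw [Complex.re_sum]
  rfl

lemma rp_self {ι : Type} [Fintype ι] (u : ι → ℂ) : rp u u = ∑ s, ‖u s‖ ^ 2 := by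
  rw [rp_eq]
  refine Finset.sum_congr rfl fun s _ => ?_
  rw [Complex.star_def, Complex.conj_mul', ← Complex.ofReal_pow, Complex.ofReal_re]

lemma term_le (z w : ℂ) : |(star z * w).re| ≤ ‖z‖ * ‖w‖ := by
  refine (Complex.abs_re_le_norm _).trans (le_of_eq ?_)
  rw [norm_mul, norm_star]

lemma abs_rp_le {ι : Type} [Fintype ι] (u v : ι → ℂ) :
    |rp u v| ≤ √(∑ s, ‖u s‖ ^ 2) * √(∑ s, ‖v s‖ ^ 2) := by
  rw [rp_eq]
  refine (Finset.abs_sum_le_sum_abs _ _).trans ?_
  refine (Finset.sum_le_sum fun s _ => term_le (u s) (v s)).trans ?_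
  exact Real.sum_mul_le_sqrt_mul_sqrt _ _ _

lemma rp_unitary {ι : Type} [Fintype ι] [DecidableEq ι] (U : Matrix.unitaryGroup ι ℂ)
    (u v : ι → ℂ) : rp (U.1 *ᵥ u) (U.1 *ᵥ v) = rp u v := by
  unfold rp
  have h : U.1ᴴ * U.1 = 1 := U.2.1
  rw [star_mulVec, dotProduct_mulVec, vecMul_vecMul, h, vecMul_one]

/-- flipping the answer bit -/
def flip (m : ℕ) (c : Bool) : Bool × Fin m ≃ Bool × Fin m where
  toFun t := (xor t.1 c, t.2)
  invFun t := (xor t.1 c, t.2)
  left_inv t := by simp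
  right_inv t := by simp

lemma oracle_apply (x : Fin n → Bool) (u : QBasis n m → ℂ) (i : Fin n) (t : Bool × Fin m) :
    (oracle m x *ᵥ u) (i, t) = u (i, flip m (x i) t) := by
  unfold mulVec dotProduct
  rw [Finset.sum_eq_single (i, flip m (x i) t)]
  · simp [oracle, flip]
  · rintro ⟨j, c, z⟩ _ hne
    have : ¬ ((i, t) = (j, xor c (x j), z)) := by
      intro h
      apply hne
      obtain ⟨rfl, rfl⟩ := Prod.mk.inj h
      simp [flip]
    simp only [oracle, if_neg this, zero_mul]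
  · intro h
    exact absurd (Finset.mem_univ _) h

lemma rp_fiber (u v : QBasis n m → ℂ) :
    rp u v = ∑ i, rp (fun t => u (i, t)) (fun t => v (i, t)) := by
  simp only [rp_eq]
  exact Fintype.sum_prod_type _

lemma rp_comp {ι : Type} [Fintype ι] (e : ι ≃ ι) (u v : ι → ℂ) :
    rp (fun t => u (e t)) (fun t => v (e t)) = rp u v := by
  simp only [rp_eq]
  exact e.sum_comp fun t => (star (u t) * v t).re

/-- the weight of the query position `i` -/
noncomputable def bt (u : QBasis n m → ℂ) (i : Fin n) : ℝ := √(∑ t, ‖u (i, t)‖ ^ 2)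

lemma sum_bt (u : QBasis n m → ℂ) : ∑ i, bt u i ^ 2 = rp u u := by
  rw [rp_self, Fintype.sum_prod_type]
  exact Finset.sum_congr rfl fun i _ => Real.sq_sqrt (Finset.sum_nonneg fun _ _ => sq_nonneg _)

lemma rp_oracle (x y : Fin n → Bool) (u v : QBasis n m → ℂ) :
    rp u v - 2 * ∑ i, (if x i ≠ y i then bt u i * bt v i else 0) ≤
      rp (oracle m x *ᵥ u) (oracle m y *ᵥ v) := by
  rw [rp_fiber u v, rp_fiber (oracle m x *ᵥ u), Finset.mul_sum, ← Finset.sum_sub_distrib]
  refine Finset.sum_le_sum fun i _ => ?_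
  simp only [oracle_apply]
  by_cases h : x i = y i
  · rw [if_neg (not_not.2 h), h, rp_comp (flip m (y i)) (fun t => u (i, t)) (fun t => v (i, t))]
    simp
  · rw [if_pos h]
    have h1 := abs_rp_le (fun t => u (i, t)) (fun t => v (i, t))
    have h2 := abs_rp_le (fun t => u (i, flip m (x i) t)) (fun t => v (i, flip m (y i) t))
    rw [(flip m (x i)).sum_comp fun t => ‖u (i, t)‖ ^ 2,
      (flip m (y i)).sum_comp fun t => ‖v (i, t)‖ ^ 2] at h2
    unfold bt
    linarith [(abs_le.1 h1).2, (abs_le.1 h2).1]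

lemma rp_oracle_self (x : Fin n → Bool) (u : QBasis n m → ℂ) :
    rp (oracle m x *ᵥ u) (oracle m x *ᵥ u) = rp u u := by
  rw [rp_fiber u u, rp_fiber (oracle m x *ᵥ u)]
  refine Finset.sum_congr rfl fun i _ => ?_
  simp only [oracle_apply]
  exact rp_comp (flip m (x i)) (fun t => u (i, t)) (fun t => u (i, t))

lemma rp_state (U : ℕ → Matrix.unitaryGroup (QBasis n m) ℂ) (s₀ : QBasis n m)
    (x : Fin n → Bool) (t : ℕ) : rp (qState U s₀ x t) (qState U s₀ x t) = 1 := by
  induction t with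
  | zero =>
    unfold qState
    rw [rp_unitary, rp_eq, Finset.sum_eq_single s₀]
    · simp
    · intro s _ hs
      simp [hs]
    · intro h
      exact absurd (Finset.mem_univ _) h
  | succ t ih =>
    unfold qState
    rw [rp_unitary, rp_oracle_self, ih]

lemma rp_final {ι : Type} [Fintype ι] (u v : ι → ℂ) (out : ι → Bool) (c d : Bool) (hcd : c ≠ d)
    (hu : rp u u = 1) (hv : rp v v = 1)
    (hu' : (2 : ℝ) / 3 ≤ ∑ s, if out s = c then ‖u s‖ ^ 2 else 0)
    (hv' : (2 : ℝ) / 3 ≤ ∑ s, if out s = d then ‖v s‖ ^ 2 else 0) : rp u v ≤ 19 / 20 := by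
  rw [rp_self] at hu hv
  have key : ∀ s, (star (u s) * v s).re ≤
      5 / 7 * ‖u s‖ ^ 2 + 5 / 7 * ‖v s‖ ^ 2 - 51 / 140 * (if out s = c then ‖u s‖ ^ 2 else 0)
        - 51 / 140 * (if out s = d then ‖v s‖ ^ 2 else 0) := by
    intro s
    have h1 := (abs_le.1 (term_le (u s) (v s))).2
    by_cases h : out s = c
    · rw [if_pos h, if_neg (fun h' => hcd (h.symm.trans h'))]
      nlinarith [sq_nonneg (7 * ‖u s‖ - 10 * ‖v s‖)]
    · have h' : out s = d := by
        revert h hcd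
        cases out s <;> cases c <;> cases d <;> simp
      rw [if_neg h, if_pos h']
      nlinarith [sq_nonneg (10 * ‖u s‖ - 7 * ‖v s‖)]
  rw [rp_eq]
  refine (Finset.sum_le_sum fun s _ => key s).trans ?_
  rw [Finset.sum_sub_distrib, Finset.sum_sub_distrib, Finset.sum_add_distrib, ← Finset.mul_sum,
    ← Finset.mul_sum, ← Finset.mul_sum, ← Finset.mul_sum, hu, hv]
  linarith

end UpAdv

theorem adversary {n T : ℕ} {f : (Fin n → Bool) → Bool} (hf : QuantComputes f T) {E : Type}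
    [Fintype E] (a b : E → Fin n → Bool) (hab : ∀ e, f (a e) ≠ f (b e)) (w : E → ℝ)
    (hw : ∀ e, 0 ≤ w e) (Λ : ℝ)
    (hΛ : ∀ β : (Fin n → Bool) → Fin n → ℝ, (∀ x i, 0 ≤ β x i) → (∀ x, ∑ i, β x i ^ 2 ≤ 1) →
      ∑ e, w e * ∑ i, (if a e i ≠ b e i then β (a e) i * β (b e) i else 0) ≤ Λ) :
    ∑ e, w e ≤ 40 * Λ * T := by
  obtain ⟨m, U, s₀, out, hout⟩ := hf
  have key : ∀ t : ℕ, ∑ e, w e - 2 * Λ * t ≤
      ∑ e, w e * UpAdv.rp (qState U s₀ (a e) t) (qState U s₀ (b e) t) := by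
    intro t
    induction t with
    | zero =>
      have : ∀ e, UpAdv.rp (qState U s₀ (a e) 0) (qState U s₀ (b e) 0) = 1 :=
        fun e => UpAdv.rp_state U s₀ (a e) 0
      simp [this]
    | succ t ih =>
      have h1 := hΛ (fun x => UpAdv.bt (qState U s₀ x t)) (fun x i => Real.sqrt_nonneg _)
        (fun x => by rw [UpAdv.sum_bt, UpAdv.rp_state])
      have h2 : ∑ e, w e * (UpAdv.rp (qState U s₀ (a e) t) (qState U s₀ (b e) t) -
          2 * ∑ i, (if a e i ≠ b e i then UpAdv.bt (qState U s₀ (a e) t) i *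
            UpAdv.bt (qState U s₀ (b e) t) i else 0)) ≤
          ∑ e, w e * UpAdv.rp (qState U s₀ (a e) (t + 1)) (qState U s₀ (b e) (t + 1)) := by
        refine Finset.sum_le_sum fun e _ => mul_le_mul_of_nonneg_left ?_ (hw e)
        conv_rhs => unfold qState
        rw [UpAdv.rp_unitary]
        exact UpAdv.rp_oracle _ _ _ _
      simp only [mul_sub, Finset.sum_sub_distrib, mul_left_comm _ (2 : ℝ), ← Finset.mul_sum] at h2
      push_cast
      linarith
  have h1 := key T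
  have h2 : ∑ e, w e * UpAdv.rp (qState U s₀ (a e) T) (qState U s₀ (b e) T) ≤
      ∑ e, w e * (19 / 20) :=
    Finset.sum_le_sum fun e _ => mul_le_mul_of_nonneg_left
      (UpAdv.rp_final _ _ out _ _ (hab e) (UpAdv.rp_state U s₀ _ T) (UpAdv.rp_state U s₀ _ T)
        (hout _) (hout _)) (hw e)
  rw [← Finset.sum_mul] at h2
  linarith

end Vale.Agent.P362
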