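import Vale.Agent.P362.UDefs

/-! `D ≤ bs · deg`. -/

namespace Vale.Agent.P362

namespace UpDet

variable {ι : Type} [DecidableEq ι]

theorem flipOn_empty (x : ι → Bool) : flipOn ∅ x = x := by
  funext i
  simp [flipOn]

theorem flipOn_insert {i : ι} {B : Finset ι} (h : i ∉ B) (x : ι → Bool) :
    flipOn (insert i B) x = flipOn B (flipOn {i} x) := by
  funext k
  by_cases hk : k = i
  · subst hk
    simp [flipOn, h]
  · simp [flipOn, hk]

theorem flipOn_flipOn (B : Finset ι) (x : ι → Bool) : flipOn B (flipOn B x) = x := by
  funext k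
  by_cases hk : k ∈ B <;> simp [flipOn, hk]

theorem flipOn_comm (A B : Finset ι) (x : ι → Bool) :
    flipOn A (flipOn B x) = flipOn B (flipOn A x) := by
  funext k
  by_cases hk : k ∈ B <;> by_cases hk' : k ∈ A <;> simp [flipOn, hk, hk']

theorem dif_insert {i : ι} {S : Finset ι} (h : i ∉ S) (g : (ι → Bool) → Bool) (x : ι → Bool) :
    dif (insert i S) g x = dif S g x - dif S g (flipOn {i} x) := by
  rw [dif, Finset.sum_powerset_insert h, sub_eq_add_neg, dif, dif, ← Finset.sum_neg_distrib]
  congr 1
  refine Finset.sum_congr rfl fun B hB => ?_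
  have hi : i ∉ B := fun hi => h (Finset.mem_powerset.1 hB hi)
  rw [Finset.card_insert_of_notMem hi, flipOn_insert hi, pow_succ]
  ring

theorem dif_flip {i : ι} {S : Finset ι} (h : i ∈ S) (g : (ι → Bool) → Bool) (x : ι → Bool) :
    dif S g (flipOn {i} x) = -dif S g x := by
  rw [← Finset.insert_erase h, dif_insert (Finset.notMem_erase i S),
    dif_insert (Finset.notMem_erase i S), flipOn_flipOn]
  ring

theorem all_of_flip [Fintype ι] {P : (ι → Bool) → Prop} (hP : ∀ i x, P x → P (flipOn {i} x))
    {x : ι → Bool} (hx : P x) (y : ι → Bool) : P y := by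
  have h1 : ∀ (B : Finset ι) (x : ι → Bool), P x → P (flipOn B x) := by
    intro B
    induction B using Finset.induction_on with
    | empty => intro x hx; rwa [flipOn_empty]
    | insert i B hi ih =>
      intro x hx
      rw [flipOn_insert hi]
      exact ih _ (hP i x hx)
  have h2 : y = flipOn (Finset.univ.filter fun i => x i ≠ y i) x := by
    funext i
    cases hx : x i <;> cases hy : y i <;> simp [flipOn, hx, hy]
  rw [h2]
  exact h1 _ x hx

theorem exists_block {S : Finset ι} (hS : S.Nonempty) {g : (ι → Bool) → Bool} {y : ι → Bool}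
    (h : dif S g y ≠ 0) : ∃ B ⊆ S, g (flipOn B y) ≠ g y := by
  by_contra hc
  push Not at hc
  apply h
  rw [dif, Finset.sum_congr rfl (g := fun B => (-1) ^ B.card * if g y = true then 1 else 0)
    fun B hB => by rw [hc B (Finset.mem_powerset.1 hB)], ← Finset.sum_mul,
    Finset.sum_powerset_neg_one_pow_card_of_nonempty hS, zero_mul]

theorem piecewise_flipOn (S B : Finset ι) (y x : ι → Bool) :
    S.piecewise y (flipOn B x) = flipOn (B \ S) (S.piecewise y x) := by
  funext k
  by_cases hk : k ∈ B <;> by_cases hk' : k ∈ S <;> simp [flipOn, hk, hk']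

theorem degLe_res {d : ℕ} {g : (ι → Bool) → Bool} (hd : DegLe d g) (S : Finset ι) (y : ι → Bool) :
    DegLe d fun x => g (S.piecewise y x) := by
  intro T x h
  by_cases hT : Disjoint T S
  · refine hd T (S.piecewise y x) ?_
    rw [dif] at h ⊢
    rwa [Finset.sum_congr rfl fun B hB => by
      rw [piecewise_flipOn, Finset.sdiff_eq_self_of_disjoint
        (Finset.disjoint_of_subset_left (Finset.mem_powerset.1 hB) hT)]] at h
  · obtain ⟨i, hi, hi'⟩ := Finset.not_disjoint_iff.1 hT
    exfalso
    apply h
    have h1 := dif_flip hi (fun x => g (S.piecewise y x)) x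
    have h2 : dif T (fun x => g (S.piecewise y x)) (flipOn {i} x) =
        dif T (fun x => g (S.piecewise y x)) x := by
      refine Finset.sum_congr rfl fun B _ => ?_
      have h3 : ({i} : Finset ι) \ S = ∅ := by simpa using hi'
      simp only [flipOn_comm B {i}, piecewise_flipOn S {i}, h3, flipOn_empty]
    omega

theorem bsLe_res {b : ℕ} {g : (ι → Bool) → Bool} (hb : BsLe (b + 1) g) {S : Finset ι}
    (hS : ∀ z, ∃ B ⊆ S, g (flipOn B z) ≠ g z) (y : ι → Bool) :
    BsLe b fun x => g (S.piecewise y x) := by
  intro x m B h1 h2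
  obtain ⟨B0, h3, h4⟩ := hS (S.piecewise y x)
  have h5 : ∀ j, Disjoint B0 (B j \ S) := fun j =>
    Finset.disjoint_of_subset_left h3 Finset.disjoint_sdiff
  refine Nat.succ_le_succ_iff.1 (hb (S.piecewise y x) (m + 1) (Fin.cons B0 fun j => B j \ S)
    (fun j k hjk => ?_) fun j => ?_)
  · induction j using Fin.cases <;> induction k using Fin.cases
    · exact absurd rfl hjk
    · exact h5 _
    · exact (h5 _).symm
    · exact Finset.disjoint_of_subset_left Finset.sdiff_subset
        (Finset.disjoint_of_subset_right Finset.sdiff_subset (h1 _ _ fun e => hjk (congrArg Fin.succ e)))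
  · induction j using Fin.cases with
    | zero => exact h4
    | succ j =>
      have := h2 j
      simp only [piecewise_flipOn] at this
      exact this

end UpDet

open UpDet in
theorem DT.of_bs_deg {ι : Type} [Fintype ι] [DecidableEq ι] {b d : ℕ} {g : (ι → Bool) → Bool}
    (hb : BsLe b g) (hd : DegLe d g) : DT (b * d) g := by
  classical
  induction b generalizing g with
  | zero =>
    refine (DT.const _ (g fun _ => false)).congr fun x => ?_
    refine all_of_flip (P := fun x => g (fun _ => false) = g x) (fun i x hx => ?_) rfl x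
    by_contra hc
    have := hb x 1 (fun _ => {i}) (fun j k hjk => absurd (Subsingleton.elim j k) hjk)
      fun _ e => hc (hx.trans e.symm)
    omega
  | succ b ih =>
    by_cases h0 : ∃ S : Finset ι, S.Nonempty ∧ ∃ x, dif S g x ≠ 0
    · obtain ⟨S, hS, hmax⟩ := Finset.exists_max_image
        (Finset.univ.filter fun S : Finset ι => S.Nonempty ∧ ∃ x, dif S g x ≠ 0) Finset.card
        (by obtain ⟨S, hS⟩ := h0; exact ⟨S, by simpa using hS⟩)
      obtain ⟨hne, x₀, hx₀⟩ := (Finset.mem_filter.1 hS).2
      have h1 : ∀ y, dif S g y ≠ 0 := by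
        refine all_of_flip (P := fun y => dif S g y ≠ 0) (fun i x hx => ?_) hx₀
        by_cases hi : i ∈ S
        · rw [dif_flip hi]
          exact neg_ne_zero.2 hx
        · intro e
          have h2 := hmax (insert i S) (Finset.mem_filter.2 ⟨Finset.mem_univ _,
            Finset.insert_nonempty _ _, x, by rw [dif_insert hi, e, sub_zero]; exact hx⟩)
          rw [Finset.card_insert_of_notMem hi] at h2
          omega
      have h2 := DT.read (d := b * d) (fun s : Fin S.card => (S.equivFin.symm s : ι))
        (u := fun w x => g (S.piecewise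
          (fun i => if h : i ∈ S then w (S.equivFin ⟨i, h⟩) else false) x))
        fun w => ih (bsLe_res hb (fun z => exists_block hne (h1 z)) _) (degLe_res hd S _)
      refine (h2.mono ?_).congr fun x => ?_
      · have := hd S x₀ hx₀
        rw [Nat.succ_mul]
        omega
      · congr 1
        funext i
        by_cases hi : i ∈ S <;> simp [hi]
    · push Not at h0
      refine (DT.const _ (g fun _ => false)).congr fun x => ?_
      refine all_of_flip (P := fun x => g (fun _ => false) = g x) (fun i x hx => ?_) rfl x
      have h1 := h0 (insert i ∅) (Finset.insert_nonempty _ _) x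
      rw [dif_insert (Finset.notMem_empty i)] at h1
      simp only [dif, Finset.powerset_empty, Finset.sum_singleton, flipOn_empty] at h1
      rw [hx]
      cases e1 : g x <;> cases e2 : g (flipOn {i} x) <;> simp_all

end Vale.Agent.P362
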