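import Vale.Agent.P362.UDefs

/-! Huang's theorem in the spectral form. -/

namespace Vale.Agent.P362

namespace UpHuang

variable {ι : Type} [Fintype ι] [DecidableEq ι]

omit [Fintype ι] in
theorem fl_fl (B : Finset ι) (x : ι → Bool) : flipOn B (flipOn B x) = x := by
  funext k
  by_cases hk : k ∈ B <;> simp [flipOn, hk]

omit [Fintype ι] in
theorem fl_comm (A B : Finset ι) (x : ι → Bool) :
    flipOn A (flipOn B x) = flipOn B (flipOn A x) := by
  funext k
  by_cases hk : k ∈ B <;> by_cases hk' : k ∈ A <;> simp [flipOn, hk, hk']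

/-- the signs of Huang's matrix -/
noncomputable def sg (x : ι → Bool) (i : ι) : ℝ :=
  ∏ k ∈ Finset.univ.filter fun k => Fintype.equivFin ι k < Fintype.equivFin ι i,
    if x k = true then -1 else 1

omit [DecidableEq ι] in
theorem sg_mul_self (x : ι → Bool) (i : ι) : sg x i * sg x i = 1 := by
  rw [sg, ← Finset.prod_mul_distrib]
  exact Finset.prod_eq_one fun k _ => by split_ifs <;> norm_num

omit [DecidableEq ι] in
theorem abs_sg (x : ι → Bool) (i : ι) : |sg x i| = 1 := by
  rcases mul_self_eq_one_iff.1 (sg_mul_self x i) with h | h <;> simp [h]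

theorem sg_flip (x : ι → Bool) (i j : ι) : sg (flipOn {i} x) j =
    (if Fintype.equivFin ι i < Fintype.equivFin ι j then -1 else 1) * sg x j := by
  have h1 : ∀ k, (if flipOn {i} x k = true then (-1 : ℝ) else 1) =
      (if k = i then -1 else 1) * if x k = true then -1 else 1 := by
    intro k
    by_cases hk : k = i <;> cases hx : x k <;> simp [flipOn, hk, hx] <;> simp_all
  simp only [sg, h1, Finset.prod_mul_distrib, Finset.prod_ite_eq', Finset.mem_filter,
    Finset.mem_univ, true_and]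

/-- Huang's signed adjacency operator in the directions `S` -/
noncomputable def hu (S : Finset ι) : ((ι → Bool) → ℝ) →ₗ[ℝ] (ι → Bool) → ℝ where
  toFun v x := ∑ i ∈ S, sg x i * v (flipOn {i} x)
  map_add' v w := by
    funext x
    simp [mul_add, Finset.sum_add_distrib]
  map_smul' c v := by
    funext x
    simp [Finset.mul_sum, mul_left_comm]

theorem hu_apply (S : Finset ι) (v : (ι → Bool) → ℝ) (x : ι → Bool) :
    hu S v x = ∑ i ∈ S, sg x i * v (flipOn {i} x) := rfl

theorem hu_hu (S : Finset ι) (v : (ι → Bool) → ℝ) : hu S (hu S v) = (S.card : ℝ) • v := by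
  funext x
  let F : ι → ι → ℝ := fun i j => sg x i * (sg (flipOn {i} x) j * v (flipOn {j} (flipOn {i} x)))
  have h1 : hu S (hu S v) x = ∑ i ∈ S, ∑ j ∈ S, F i j := by
    simp only [hu_apply, Finset.mul_sum, F]
  have h2 : ∀ i j, F i j + F j i = if i = j then 2 * v x else 0 := by
    intro i j
    by_cases hij : i = j
    · subst hij
      simp only [F, sg_flip, lt_irrefl, if_false, one_mul, fl_fl, if_true]
      rw [← mul_assoc, sg_mul_self]
      ring
    · simp only [F, sg_flip, fl_comm {i} {j}, if_neg hij]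
      rcases lt_or_gt_of_ne ((Fintype.equivFin ι).injective.ne hij) with h | h
      · rw [if_pos h, if_neg h.not_gt]
        ring
      · rw [if_pos h, if_neg h.not_gt]
        ring
  have h3 : ∑ i ∈ S, ∑ j ∈ S, F i j + ∑ i ∈ S, ∑ j ∈ S, F i j = S.card * (2 * v x) := by
    nth_rewrite 2 [Finset.sum_comm]
    rw [← Finset.sum_add_distrib, ← nsmul_eq_mul, ← Finset.sum_const]
    refine Finset.sum_congr rfl fun i hi => ?_
    rw [← Finset.sum_add_distrib]
    simp only [h2, Finset.sum_ite_eq, if_pos hi]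
  rw [h1, Pi.smul_apply, smul_eq_mul]
  linarith

/-- extension by zero -/
def ext0 (H : Finset (ι → Bool)) : (H → ℝ) →ₗ[ℝ] (ι → Bool) → ℝ where
  toFun c x := if h : x ∈ H then c ⟨x, h⟩ else 0
  map_add' v w := by
    funext x
    by_cases h : x ∈ H <;> simp [h]
  map_smul' c v := by
    funext x
    by_cases h : x ∈ H <;> simp [h]

theorem exists_eigen {S : Finset ι} (hS : S.Nonempty) {Q P H : Finset (ι → Bool)}
    (hQ : ∀ x, ∀ i ∈ S, flipOn {i} x ∈ Q → x ∈ Q) (hH : H ⊆ Q)
    (hP : ∀ x ∈ Q, x ∉ P → ∀ i ∈ S, flipOn {i} x ∈ P) (hc : P.card < H.card) :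
    ∃ v : (ι → Bool) → ℝ, v ≠ 0 ∧ (∀ x, x ∉ H → v x = 0) ∧ hu S v = √(S.card) • v := by
  set r : ℝ := √(S.card) with hr
  have hr0 : 0 < r := Real.sqrt_pos.2 (Nat.cast_pos.2 hS.card_pos)
  have hr2 : r * r = S.card := Real.mul_self_sqrt (Nat.cast_nonneg _)
  let φ : (H → ℝ) →ₗ[ℝ] (P → ℝ) :=
    LinearMap.funLeft ℝ ℝ Subtype.val ∘ₗ (hu S - r • LinearMap.id) ∘ₗ ext0 H
  obtain ⟨c, hc1, hc2⟩ := (Submodule.ne_bot_iff _).1
    (LinearMap.ker_ne_bot_of_finrank_lt (f := φ) (by simpa using hc))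
  have hv : ∀ x, x ∉ H → ext0 H c x = 0 := fun x hx => dif_neg hx
  refine ⟨ext0 H c, fun h => hc2 (funext fun x => ?_), hv, ?_⟩
  · have := congrFun h x
    simpa [ext0] using this
  set v := ext0 H c
  set u := hu S v - r • v with hu'
  have h1 : ∀ x ∈ P, u x = 0 := fun x hx => congrFun hc1 ⟨x, hx⟩
  have h2 : hu S u = -r • u := by
    rw [hu', map_sub, map_smul, hu_hu, ← hr2]
    module
  refine sub_eq_zero.1 (funext fun x => ?_)
  change u x = 0
  by_cases hxQ : x ∈ Q
  · by_cases hxP : x ∈ P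
    · exact h1 x hxP
    · have h3 := congrFun h2 x
      rw [hu_apply, Finset.sum_eq_zero fun i hi => by rw [h1 _ (hP x hxQ hxP i hi), mul_zero],
        Pi.smul_apply, smul_eq_mul] at h3
      exact (mul_eq_zero.1 h3.symm).resolve_left (neg_ne_zero.2 hr0.ne')
  · rw [hu', Pi.sub_apply, Pi.smul_apply, hv x fun h => hxQ (hH h), smul_zero, sub_zero, hu_apply]
    exact Finset.sum_eq_zero fun i hi => by rw [hv _ fun h => hxQ (hQ x i hi (hH h)), mul_zero]

theorem of_eigen (g : (ι → Bool) → Bool) {S : Finset ι} {H : Finset (ι → Bool)}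
    (hH : ∀ x ∈ H, ∀ i ∈ S, flipOn {i} x ∈ H → g (flipOn {i} x) ≠ g x) {v : (ι → Bool) → ℝ}
    (h0 : v ≠ 0) (hv : ∀ x, x ∉ H → v x = 0) (he : hu S v = √(S.card) • v) :
    ∃ v : (ι → Bool) → ℝ, (∀ x, 0 ≤ v x) ∧ 0 < ∑ x, v x ^ 2 ∧
      √(S.card) * ∑ x, v x ^ 2 ≤
        ∑ x, ∑ i, if g (flipOn {i} x) ≠ g x then v x * v (flipOn {i} x) else 0 := by
  refine ⟨fun x => |v x|, fun x => abs_nonneg _, ?_, ?_⟩
  · obtain ⟨x, hx⟩ := Function.ne_iff.1 h0
    exact Finset.sum_pos' (fun _ _ => sq_nonneg _)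
      ⟨x, Finset.mem_univ _, pow_pos (abs_pos.2 hx) 2⟩
  · rw [Finset.mul_sum]
    refine Finset.sum_le_sum fun x _ => ?_
    have h1 : √(S.card) * |v x| ^ 2 = ∑ i ∈ S, v x * (sg x i * v (flipOn {i} x)) := by
      rw [← Finset.mul_sum, ← hu_apply, he, sq_abs, Pi.smul_apply, smul_eq_mul]
      ring
    rw [h1]
    refine le_trans (Finset.sum_le_sum fun i hi => ?_) (Finset.sum_le_sum_of_subset_of_nonneg
      (Finset.subset_univ S) fun i _ _ => by split_ifs <;> positivity)
    split_ifs with hg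
    · refine (le_abs_self _).trans ?_
      rw [abs_mul, abs_mul, abs_sg, one_mul]
    · by_cases hx : x ∈ H
      · rw [hv _ fun h => hg (hH x hx i hi h)]
        simp
      · rw [hv x hx, zero_mul]

/-- parity of the distance to `x₀` inside `S` -/
def par (S : Finset ι) (x₀ x : ι → Bool) : Bool :=
  decide (Even (S.filter fun i => x i ≠ x₀ i).card)

omit [Fintype ι] in
theorem par_flip {S : Finset ι} (x₀ x : ι → Bool) {i : ι} (hi : i ∈ S) :
    par S x₀ (flipOn {i} x) = !par S x₀ x := by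
  have key : ∀ y : ι → Bool, y i = x₀ i → par S x₀ (flipOn {i} y) = !par S x₀ y := by
    intro y hy
    have h1 : (S.filter fun k => flipOn {i} y k ≠ x₀ k) =
        insert i (S.filter fun k => y k ≠ x₀ k) := by
      ext k
      by_cases hk : k = i
      · subst hk
        simp [flipOn, hi, hy]
      · simp [flipOn, hk]
    rw [par, par, h1, Finset.card_insert_of_notMem (by simp [hy])]
    simp only [Nat.even_add_one, decide_not]
  by_cases hx : x i = x₀ i
  · exact key x hx
  · have h1 := key (flipOn {i} x) (by cases h : x i <;> cases h' : x₀ i <;> simp_all [flipOn])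
    rw [fl_fl] at h1
    rw [h1, Bool.not_not]

theorem dif_eq (g : (ι → Bool) → Bool) (S : Finset ι) (x₀ : ι → Bool) :
    dif S g x₀ = ∑ x ∈ Finset.univ.filter fun x : ι → Bool => ∀ i, i ∉ S → x i = x₀ i,
      (if par S x₀ x = true then 1 else -1) * if g x = true then 1 else 0 := by
  have h1 : ∀ B ∈ S.powerset, (S.filter fun i => flipOn B x₀ i ≠ x₀ i) = B := by
    intro B hB
    ext k
    by_cases hk : k ∈ B
    · simp [flipOn, hk, Finset.mem_powerset.1 hB hk]
    · simp [flipOn, hk]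
  refine Finset.sum_nbij' (fun B => flipOn B x₀) (fun x => S.filter fun i => x i ≠ x₀ i)
    (fun B hB => ?_) (fun x _ => Finset.mem_powerset.2 (Finset.filter_subset _ _)) h1
    (fun x hx => ?_) fun B hB => ?_
  · refine Finset.mem_filter.2 ⟨Finset.mem_univ _, fun i hi => ?_⟩
    exact if_neg fun h => hi (Finset.mem_powerset.1 hB h)
  · funext k
    have h2 := (Finset.mem_filter.1 hx).2 k
    by_cases hk : k ∈ S
    · cases h : x k <;> cases h' : x₀ k <;> simp [flipOn, hk, h, h']
    · simp [flipOn, hk, h2 hk]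
  · rw [par, h1 B hB, neg_one_pow_eq_ite]
    simp

end UpHuang

open UpHuang in
theorem huang {ι : Type} [Fintype ι] [DecidableEq ι] (g : (ι → Bool) → Bool) (S : Finset ι)
    (x₀ : ι → Bool) (hS : S.Nonempty) (h : dif S g x₀ ≠ 0) :
    ∃ v : (ι → Bool) → ℝ, (∀ x, 0 ≤ v x) ∧ 0 < ∑ x, v x ^ 2 ∧
      √(S.card) * ∑ x, v x ^ 2 ≤
        ∑ x, ∑ i, if g (flipOn {i} x) ≠ g x then v x * v (flipOn {i} x) else 0 := by
  rw [dif_eq] at h
  set Q := Finset.univ.filter fun x : ι → Bool => ∀ i, i ∉ S → x i = x₀ i with hQ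
  have hQ1 : ∀ x, ∀ i ∈ S, x ∈ Q → flipOn {i} x ∈ Q := by
    intro x i hi hx
    refine Finset.mem_filter.2 ⟨Finset.mem_univ _, fun k hk => ?_⟩
    rw [← (Finset.mem_filter.1 hx).2 k hk]
    refine if_neg fun e => hk ?_
    rwa [Finset.mem_singleton.1 e]
  obtain ⟨c, hc⟩ : ∃ c : Bool, (Q.filter fun x => par S x₀ x = !c).card <
      (Q.filter fun x => g x = (par S x₀ x == c)).card := by
    have e : ∀ c : Bool, ((Q.filter fun x => g x = (par S x₀ x == c)).card : ℤ) -
        (Q.filter fun x => par S x₀ x = !c).card = (if c = true then 1 else -1) *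
          ∑ x ∈ Q, (if par S x₀ x = true then 1 else -1) * if g x = true then 1 else 0 := by
      intro c
      rw [Finset.card_filter, Finset.card_filter, Nat.cast_sum, Nat.cast_sum,
        ← Finset.sum_sub_distrib, Finset.mul_sum]
      refine Finset.sum_congr rfl fun x _ => ?_
      cases c <;> cases par S x₀ x <;> cases g x <;> simp
    have e1 := e true
    have e2 := e false
    rcases lt_or_gt_of_ne h with h | h
    · refine ⟨false, ?_⟩
      simp only [Bool.false_eq_true, if_false] at e2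
      omega
    · refine ⟨true, ?_⟩
      simp only [if_true] at e1
      omega
  obtain ⟨v, h0, hv, he⟩ := exists_eigen hS (Q := Q) (fun x i hi hx => by
      have := hQ1 _ i hi hx
      rwa [fl_fl] at this) (Finset.filter_subset _ _) (fun x hx hxP i hi => by
      refine Finset.mem_filter.2 ⟨hQ1 x i hi hx, ?_⟩
      have h1 : ¬ par S x₀ x = !c := fun e => hxP (Finset.mem_filter.2 ⟨hx, e⟩)
      rw [par_flip _ _ hi]
      revert h1
      cases c <;> cases par S x₀ x <;> simp) hc
  refine of_eigen g (fun x hx i hi hx' => ?_) h0 hv he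
  rw [(Finset.mem_filter.1 hx).2, (Finset.mem_filter.1 hx').2, par_flip _ _ hi]
  cases c <;> cases par S x₀ x <;> simp

end Vale.Agent.P362
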