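import Vale.Agent.P362.UpDet
import Vale.Agent.P362.UpHuang
import Vale.Agent.P362.UpAdv
import Vale.Agent.P362.QSim
import Vale.Agent.P362.QAmp

/-! The known bound `R ≤ C Q ^ 4`. -/

namespace Vale.Agent.P362

theorem QC.of_DT {ι : Type} {D : ℕ} {f : (ι → Bool) → Bool} (h : DT D f) : QC (2 * D) f :=
  ⟨_, QE.tree h, fun x => by simp only [if_true]; norm_num⟩

theorem quantComputes_quantQC {n : ℕ} (hn : 1 ≤ n) (f : (Fin n → Bool) → Bool) :
    QuantComputes f (quantQC f) :=
  Nat.sInf_mem (s := {T | QuantComputes f T})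
    ⟨_, (QC.of_DT (DT.card f)).quantComputes hn (Equiv.refl _)⟩

theorem randComputes_randQC {n : ℕ} (f : (Fin n → Bool) → Bool) : RandComputes f (randQC f) :=
  Nat.sInf_mem (s := {T | RandComputes f T}) ⟨_, (DT.card f).randComputes⟩

theorem le_sq_of_sqrt {m T : ℕ} (h : √(m : ℝ) ≤ 40 * T) : m ≤ 1600 * T ^ 2 := by
  have h1 : (m : ℝ) ≤ (40 * T) ^ 2 := by
    rw [← Real.sq_sqrt (Nat.cast_nonneg m)]
    exact pow_le_pow_left₀ (Real.sqrt_nonneg _) h 2
  have h2 : (m : ℝ) ≤ ((1600 * T ^ 2 : ℕ) : ℝ) := by push_cast; nlinarith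
  exact_mod_cast h2

theorem bsLe_of_quant {n T : ℕ} {f : (Fin n → Bool) → Bool} (hf : QuantComputes f T) :
    BsLe (1600 * T ^ 2) f := by
  intro x m B hB hs
  rcases Nat.eq_zero_or_pos m with rfl | hm
  · exact Nat.zero_le _
  have hq : 0 < √(m : ℝ) := Real.sqrt_pos.2 (by exact_mod_cast hm)
  have hqq : √(m : ℝ) * √(m : ℝ) = m := Real.mul_self_sqrt (Nat.cast_nonneg m)
  have h := adversary hf (fun _ : Fin m => x) (fun e => flipOn (B e) x) (fun e => (hs e).symm)
    (fun _ => 1) (fun _ => zero_le_one) √(m : ℝ) fun β hβ hβ' => ?_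
  · simp only [Finset.sum_const, Finset.card_univ, Fintype.card_fin, nsmul_eq_mul, mul_one] at h
    refine le_sq_of_sqrt (le_of_mul_le_mul_left ?_ hq)
    rw [hqq]
    linarith
  · have h1 : ∀ e : Fin m, (1 : ℝ) * ∑ i, (if x i ≠ flipOn (B e) x i then
        β x i * β (flipOn (B e) x) i else 0) ≤
        √(m : ℝ) / 2 * (∑ i, if i ∈ B e then β x i ^ 2 else 0) + 1 / (2 * √(m : ℝ)) := by
      intro e
      rw [one_mul]
      calc _ ≤ ∑ i, (√(m : ℝ) / 2 * (if i ∈ B e then β x i ^ 2 else 0) +
            1 / (2 * √(m : ℝ)) * β (flipOn (B e) x) i ^ 2) := by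
            refine Finset.sum_le_sum fun i _ => ?_
            by_cases hi : i ∈ B e
            · rw [if_pos hi, if_pos (by simp [flipOn, hi])]
              have h2 : √(m : ℝ) / 2 * β x i ^ 2 + 1 / (2 * √(m : ℝ)) * β (flipOn (B e) x) i ^ 2 -
                  β x i * β (flipOn (B e) x) i =
                  (√(m : ℝ) * β x i - β (flipOn (B e) x) i) ^ 2 / (2 * √(m : ℝ)) := by
                field_simp
                ring
              have h3 : 0 ≤ (√(m : ℝ) * β x i - β (flipOn (B e) x) i) ^ 2 / (2 * √(m : ℝ)) := by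
                positivity
              linarith
            · rw [if_neg hi, if_neg (by simp [flipOn, hi])]
              positivity
        _ ≤ _ := by
            rw [Finset.sum_add_distrib, ← Finset.mul_sum, ← Finset.mul_sum]
            have h2 := mul_le_mul_of_nonneg_left (hβ' (flipOn (B e) x))
              (by positivity : 0 ≤ 1 / (2 * √(m : ℝ)))
            linarith
    refine (Finset.sum_le_sum fun e _ => h1 e).trans ?_
    rw [Finset.sum_add_distrib, ← Finset.mul_sum, Finset.sum_comm]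
    have h2 : (∑ i, ∑ e : Fin m, if i ∈ B e then β x i ^ 2 else 0) ≤ 1 := by
      refine le_trans (Finset.sum_le_sum fun i _ => ?_) (hβ' x)
      by_cases hi : ∃ e, i ∈ B e
      · obtain ⟨e, he⟩ := hi
        rw [Finset.sum_eq_single e, if_pos he]
        · intro e' _ he'
          exact if_neg fun h => Finset.disjoint_left.1 (hB e' e he') h he
        · simp
      · rw [Finset.sum_eq_zero fun e _ => if_neg fun h => hi ⟨e, h⟩]
        positivity
    simp only [Finset.sum_const, Finset.card_univ, Fintype.card_fin, nsmul_eq_mul]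
    have h3 : (m : ℝ) * (1 / (2 * √(m : ℝ))) = √(m : ℝ) / 2 := by
      field_simp
      nlinarith
    nlinarith

theorem flipOn_flipOn {ι : Type} [DecidableEq ι] (B : Finset ι) (x : ι → Bool) :
    flipOn B (flipOn B x) = x := by
  funext i
  by_cases hi : i ∈ B <;> simp [flipOn, hi]

theorem degLe_of_quant {n T : ℕ} {f : (Fin n → Bool) → Bool} (hf : QuantComputes f T) :
    DegLe (1600 * T ^ 2) f := by
  intro S x₀ h
  rcases S.eq_empty_or_nonempty with rfl | hS
  · exact Nat.zero_le _
  obtain ⟨v, hv, hpos, hle⟩ := huang f S x₀ hS h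
  let E : Type := {p : (Fin n → Bool) × Fin n // f (flipOn {p.2} p.1) ≠ f p.1}
  have hsum : ∀ G : (Fin n → Bool) × Fin n → ℝ, ∑ e : E, G e.1 =
      ∑ x, ∑ i, if f (flipOn {i} x) ≠ f x then G (x, i) else 0 := by
    intro G
    rw [← Fintype.sum_prod_type' (f := fun x i => if f (flipOn {i} x) ≠ f x then G (x, i) else 0),
      ← Finset.sum_filter]
    exact (Finset.sum_subtype _ (by simp) G).symm
  have h1 := adversary hf (fun e : E => e.1.1) (fun e => flipOn {e.1.2} e.1.1) (fun e => e.2.symm)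
    (fun e => v e.1.1 * v (flipOn {e.1.2} e.1.1)) (fun e => mul_nonneg (hv _) (hv _))
    (∑ x, v x ^ 2) fun β hβ hβ' => ?_
  · rw [hsum fun p => v p.1 * v (flipOn {p.2} p.1)] at h1
    refine le_sq_of_sqrt (le_of_mul_le_mul_right ?_ hpos)
    linarith
  · rw [hsum fun p => v p.1 * v (flipOn {p.2} p.1) * ∑ i, (if p.1 i ≠ flipOn {p.2} p.1 i then
      β p.1 i * β (flipOn {p.2} p.1) i else 0)]
    have h2 : ∑ x, ∑ i, v x ^ 2 * β x i ^ 2 ≤ ∑ x, v x ^ 2 := by
      refine Finset.sum_le_sum fun x _ => ?_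
      rw [← Finset.mul_sum]
      exact mul_le_of_le_one_right (sq_nonneg _) (hβ' x)
    have h3 : ∑ x, ∑ i, v (flipOn {i} x) ^ 2 * β (flipOn {i} x) i ^ 2 =
        ∑ x, ∑ i, v x ^ 2 * β x i ^ 2 := by
      rw [Finset.sum_comm, Finset.sum_comm (f := fun x i => v x ^ 2 * β x i ^ 2)]
      refine Finset.sum_congr rfl fun i _ => ?_
      exact Fintype.sum_bijective (flipOn {i})
        (Function.Involutive.bijective (flipOn_flipOn {i})) _ _ fun _ => rfl
    calc _ ≤ ∑ x, ∑ i, (1 / 2 * (v x ^ 2 * β x i ^ 2) +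
          1 / 2 * (v (flipOn {i} x) ^ 2 * β (flipOn {i} x) i ^ 2)) := by
          refine Finset.sum_le_sum fun x _ => Finset.sum_le_sum fun i _ => ?_
          split_ifs
          · rw [Finset.sum_eq_single i, if_pos (by simp [flipOn])]
            · nlinarith [sq_nonneg (v x * β x i - v (flipOn {i} x) * β (flipOn {i} x) i)]
            · intro j _ hj
              exact if_neg (by simp [flipOn, hj])
            · simp
          · positivity
      _ ≤ _ := by
          simp only [Finset.sum_add_distrib, ← Finset.mul_sum (a := (1 / 2 : ℝ))]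
          linarith

theorem upper {n : ℕ} (hn : 1 ≤ n) (f : (Fin n → Bool) → Bool) :
    randQC f ≤ 1600 ^ 2 * quantQC f ^ 4 := by
  have h := quantComputes_quantQC hn f
  have h1 := (DT.of_bs_deg (bsLe_of_quant h) (degLe_of_quant h)).randComputes
  refine (Nat.sInf_le (s := {T | RandComputes f T}) h1).trans (le_of_eq ?_)
  ring

end Vale.Agent.P362
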