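import Vale.Agent.P362.QDefs

/-! Walsh characters and the iterated transform. -/

namespace Vale.Agent.P362

/-- Bit strings of length `r`. -/
abbrev BV (r : ℕ) : Type := Fin r → Bool

/-- The Walsh character. -/
def chi {r : ℕ} (x y : BV r) : ℝ := ∏ s, sgR (x s && y s)

/-- The iterated transform: multiply by the layer `j` of `W` and apply the Walsh matrix. -/
noncomputable def vv {r : ℕ} (W : ℕ → BV r → ℝ) : ℕ → BV r → ℝ
  | 0 => fun _ => 1
  | j + 1 => fun x => ∑ y, chi x y * (W j y * vv W j y)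

/-- A field on `K + 1` layers as a field on all layers. -/
def lay {K r : ℕ} (W : Fin (K + 1) × BV r → ℝ) (j : ℕ) (y : BV r) : ℝ :=
  if h : j < K + 1 then W (⟨j, h⟩, y) else 1

/-- The unnormalised amplitude of `a`. -/
noncomputable def amp {K r : ℕ} (z : Fin (K + 1) × BV r → Bool) (a : BV r) : ℝ :=
  vv (lay fun p => sgR (z p)) (K + 1) a

/-- The constant in the threshold. -/
def kd (K : ℕ) : ℕ := 16 * 72 ^ (2 * K)

/-- The amplitude of `a` is large. -/
noncomputable def goodAmp {K r : ℕ} (a : BV r) (z : Fin (K + 1) × BV r → Bool) : Bool :=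
  decide (((2 : ℝ) ^ r) ^ (K + 2) ≤ kd K * amp z a ^ 2)

theorem sgR_sq (b : Bool) : sgR b ^ 2 = 1 := by cases b <;> simp [sgR]

theorem sgR_mul_self (b : Bool) : sgR b * sgR b = 1 := by cases b <;> simp [sgR]

theorem abs_sgR (b : Bool) : |sgR b| = 1 := by cases b <;> simp [sgR]

theorem card_BV (r : ℕ) : Fintype.card (BV r) = 2 ^ r := by simp

theorem chi_comm {r : ℕ} (x y : BV r) : chi x y = chi y x := by
  simp only [chi, Bool.and_comm]

theorem chi_mul_self {r : ℕ} (x y : BV r) : chi x y * chi x y = 1 := by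
  simp only [chi, ← Finset.prod_mul_distrib, sgR_mul_self, Finset.prod_const_one]

theorem abs_chi {r : ℕ} (x y : BV r) : |chi x y| = 1 := by
  simp only [chi, Finset.abs_prod, abs_sgR, Finset.prod_const_one]

theorem chi_zero {r : ℕ} (x : BV r) : chi x (fun _ => false) = 1 := by
  simp [chi, sgR]

theorem sum_chi_mul {r : ℕ} (x x' : BV r) :
    ∑ y, chi x y * chi x' y = if x = x' then (2 : ℝ) ^ r else 0 := by
  have h : ∑ y : BV r, chi x y * chi x' y =
      ∏ s, ∑ b : Bool, sgR (x s && b) * sgR (x' s && b) := by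
    rw [Finset.prod_univ_sum]
    simp only [chi, ← Finset.prod_mul_distrib, Fintype.piFinset_univ]
  rw [h]
  split_ifs with hx
  · subst hx
    simp [sgR_mul_self]
  · obtain ⟨s, hs⟩ := Function.ne_iff.1 hx
    refine Finset.prod_eq_zero (Finset.mem_univ s) ?_
    revert hs
    cases x s <;> cases x' s <;> simp [sgR]

theorem sum_sq_walsh {r : ℕ} (u : BV r → ℝ) :
    ∑ x, (∑ y, chi x y * u y) ^ 2 = 2 ^ r * ∑ y, u y ^ 2 := by
  calc ∑ x, (∑ y, chi x y * u y) ^ 2
      = ∑ x, ∑ y, ∑ y', u y * u y' * (chi y x * chi y' x) := by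
        refine Finset.sum_congr rfl fun x _ => ?_
        rw [sq, Finset.sum_mul_sum]
        refine Finset.sum_congr rfl fun y _ => Finset.sum_congr rfl fun y' _ => ?_
        rw [chi_comm y x, chi_comm y' x]
        ring
    _ = ∑ y, ∑ y', u y * u y' * ∑ x, chi y x * chi y' x := by
        rw [Finset.sum_comm]
        refine Finset.sum_congr rfl fun y _ => ?_
        rw [Finset.sum_comm]
        simp only [Finset.mul_sum]
    _ = 2 ^ r * ∑ y, u y ^ 2 := by
        simp only [sum_chi_mul, mul_ite, mul_zero, Finset.sum_ite_eq, Finset.mem_univ, if_true,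
          Finset.mul_sum]
        exact Finset.sum_congr rfl fun y _ => by ring

theorem sum_sq_vv {r : ℕ} {W : ℕ → BV r → ℝ} (hW : ∀ j y, W j y ^ 2 = 1) (j : ℕ) :
    ∑ x, vv W j x ^ 2 = ((2 : ℝ) ^ r) ^ (j + 1) := by
  induction j with
  | zero => simp [vv]
  | succ j ih =>
    simp only [vv, sum_sq_walsh, mul_pow, hW, one_mul, ih]
    ring

theorem lay_sgR_sq {K r : ℕ} (z : Fin (K + 1) × BV r → Bool) (j : ℕ) (y : BV r) :
    lay (fun p => sgR (z p)) j y ^ 2 = 1 := by
  unfold lay
  split_ifs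
  · exact sgR_sq _
  · exact one_pow 2

theorem sum_sq_amp {K r : ℕ} (z : Fin (K + 1) × BV r → Bool) :
    ∑ a, amp z a ^ 2 = ((2 : ℝ) ^ r) ^ (K + 2) :=
  sum_sq_vv (lay_sgR_sq z) (K + 1)

end Vale.Agent.P362
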